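import Vale.Agent.P363.Inter.Reg.Limit
import Vale.Agent.P363.Inter.Defs

/-!
P363, interacting side: the weak gradient of the amplitude of an ion state in a slice.
-/

noncomputable section

namespace Vale.Agent.P363.Inter

open MeasureTheory Filter Set
open scoped BigOperators Topology

variable {χ : Cfg 2 → ℝ} {f g : Cfg 3 → ℝ} {D : Fin 3 → Fin 3 → Cfg 3 → ℝ}

/-- The gradient of the amplitude. -/
def gdAmp (χ : Cfg 2 → ℝ) (D : Fin 3 → Fin 3 → Cfg 3 → ℝ) (a : Fin 3) (x : Space) : ℝ :=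
  ipN χ (slice 0 (D 0 a) x)

lemma aestronglyMeasurable_ampAt_slice (hχ : MemLp χ 2) (hg : MemLp g 2) :
    AEStronglyMeasurable (fun x => ipN χ (slice 0 g x)) volume :=
  AEStronglyMeasurable.integral_prod_right'
    (f := fun p : Space × Cfg 2 => χ p.2 * g ((0 : Fin 3).insertNth p.1 p.2))
    ((hχ.1.comp_snd).mul (hg.1.comp_measurePreserving (mp_ins 0)))

lemma abs_ipN_slice_le (hχ : MemLp χ 2) (hg : MemLp g 2) :
    ∀ᵐ x, |ipN χ (slice 0 g x)| ≤ √(∫ y, χ y ^ 2) * (1 + marg 0 (fun z => g z ^ 2) x) := by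
  filter_upwards [memLp_slices 0 hg] with x hx
  refine (abs_integral_mul_le hχ hx).trans (mul_le_mul_of_nonneg_left ?_ (Real.sqrt_nonneg _))
  have hP : 0 ≤ marg 0 (fun z => g z ^ 2) x := marg_nonneg (fun _ => sq_nonneg _) 0 x
  refine Real.sqrt_le_iff.2 ⟨by linarith, ?_⟩
  simp only [marg] at hP ⊢
  nlinarith

lemma locallyIntegrable_ipN_slice (hχ : MemLp χ 2) (hg : MemLp g 2) :
    LocallyIntegrable fun x => ipN χ (slice 0 g x) :=
  ((locallyIntegrable_const (√(∫ y, χ y ^ 2))).add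
    ((integrable_marg hg.integrable_sq 0).const_mul (√(∫ y, χ y ^ 2))).locallyIntegrable).mono
      (aestronglyMeasurable_ampAt_slice hχ hg) ((abs_ipN_slice_le hχ hg).mono fun x hx => by
        simp only [Pi.add_apply, Real.norm_eq_abs]
        exact (hx.trans_eq (by ring)).trans (le_abs_self _))

lemma tendsto_ipN_slice {ψ : ℕ → Cfg 2 → ℝ} (hψ : SqLim volume ψ χ) (hg : MemLp g 2)
    {ζ : Space → ℝ} (hζ : Continuous ζ) (hc : HasCompactSupport ζ) :
    Tendsto (fun k => ∫ x, ζ x * ipN (ψ k) (slice 0 g x)) atTop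
      (𝓝 (∫ x, ζ x * ipN χ (slice 0 g x))) := by
  have hi : ∀ {c : Cfg 2 → ℝ}, MemLp c 2 →
      Integrable fun x => ζ x * ipN c (slice 0 g x) := fun {c} hc' =>
    ((integrable_mul_of_tsupport ((locallyIntegrable_ipN_slice hc' hg).locallyIntegrableOn _)
      hζ hc (subset_univ _))).congr (.of_forall fun x => mul_comm _ _)
  obtain ⟨B, hB⟩ := hc.exists_bound_of_continuous hζ
  have hB0 : 0 ≤ B := (norm_nonneg _).trans (hB 0)
  have iR : Integrable fun x => |ζ x| + B * marg 0 (fun z => g z ^ 2) x :=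
    (hζ.integrable_of_hasCompactSupport hc).abs.add
      ((integrable_marg hg.integrable_sq 0).const_mul B)
  refine tendsto_sub_nhds_zero_iff.1 (squeeze_zero_norm (fun k => ?_)
    (show Tendsto (fun k => √(∫ y, (ψ k y - χ y) ^ 2) *
      ∫ x, |ζ x| + B * marg 0 (fun z => g z ^ 2) x) atTop (𝓝 0) by
      simpa using hψ.tendsto.sqrt.mul_const (∫ x, |ζ x| + B * marg 0 (fun z => g z ^ 2) x)))
  rw [← integral_sub (hi (hψ.mem k)) (hi hψ.lim_mem), ← integral_const_mul]
  refine norm_integral_le_of_norm_le (iR.const_mul _) ?_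
  filter_upwards [abs_ipN_slice_le ((hψ.mem k).sub hψ.lim_mem) hg, memLp_slices 0 hg] with x hx hs
  have e : ipN (ψ k - χ) (slice 0 g x) = ipN (ψ k) (slice 0 g x) - ipN χ (slice 0 g x) := by
    simp only [ipN, Pi.sub_apply, sub_mul]
    exact integral_sub ((hψ.mem k).integrable_mul hs) (hψ.lim_mem.integrable_mul hs)
  rw [e] at hx
  simp only [Pi.sub_apply] at hx
  rw [← mul_sub, norm_mul, Real.norm_eq_abs, Real.norm_eq_abs]
  refine (mul_le_mul_of_nonneg_left hx (abs_nonneg _)).trans ?_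
  have hP : 0 ≤ marg 0 (fun z => g z ^ 2) x := marg_nonneg (fun _ => sq_nonneg _) 0 x
  have hb := hB x
  rw [Real.norm_eq_abs] at hb
  calc _ = √(∫ y, (ψ k y - χ y) ^ 2) * (|ζ x| + |ζ x| * marg 0 (fun z => g z ^ 2) x) := by ring
    _ ≤ _ := mul_le_mul_of_nonneg_left
      (add_le_add le_rfl (mul_le_mul_of_nonneg_right hb hP)) (Real.sqrt_nonneg _)

/-- The amplitude is weakly differentiable. -/
theorem InH1.weakGrad_amp {Dχ : Fin 2 → Fin 3 → Cfg 2 → ℝ} (hχ : InH1 χ Dχ) (hf : InH1 f D) :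
    HasWeakGrad Set.univ (amp χ f) (gdAmp χ D) := by
  refine ⟨(locallyIntegrable_ipN_slice hχ.memLp hf.memLp).locallyIntegrableOn _,
    fun a => (locallyIntegrable_ipN_slice hχ.memLp (hf.grad_memLp 0 a)).locallyIntegrableOn _,
    fun η hη a => ?_⟩
  obtain ⟨ψ, hψ⟩ := hχ
  have h1 := tendsto_ipN_slice hψ.val hf.memLp (hη.deriv a).continuous (hη.deriv a).compact
  have h2 := (tendsto_ipN_slice hψ.val (hf.grad_memLp 0 a) hη.continuous hη.compact).neg
  refine (integral_congr_ae (.of_forall fun x => mul_comm _ _)).trans ((tendsto_nhds_unique h1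
    (h2.congr fun k => ?_)).trans (congrArg Neg.neg (integral_congr_ae (.of_forall fun x =>
      mul_comm _ _))))
  set L : Cfg 3 →L[ℝ] Cfg 2 := ContinuousLinearMap.pi fun k =>
    ContinuousLinearMap.proj (R := ℝ) (φ := fun _ : Fin 3 => Space) ((0 : Fin 3).succAbove k)
  have hL : ∀ z, L z = (0 : Fin 3).removeNth z := fun z => rfl
  set u := fun z : Cfg 3 => η (z 0) * ψ k (L z)
  have hu1 : ContDiff ℝ 1 u :=
    ((hη.contDiff 1).comp (contDiff_apply ℝ Space (0 : Fin 3))).mul
      ((hψ.c1 k).smooth.comp L.contDiff)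
  have hu : IsC1 u := by
    refine ⟨hu1, HasCompactSupport.intro (K := (fun p : Space × Cfg 2 =>
      ((0 : Fin 3).insertNth p.1 p.2 : Cfg 3)) '' (tsupport η ×ˢ tsupport (ψ k)))
      ((hη.compact.isCompact.prod (hψ.c1 k).compact.isCompact).image (continuous_ins 0))
      fun z hz => ?_⟩
    by_contra hne
    obtain ⟨a1, a2⟩ := mul_ne_zero_iff.1 hne
    exact hz ⟨(z 0, L z), ⟨subset_tsupport _ a1, subset_tsupport _ a2⟩,
      by rw [hL]; exact Fin.insertNth_self_removeNth _ _⟩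
  have hd : ∀ z, slotDeriv 0 a u z = deriv3 a η (z 0) * ψ k (L z) := fun z => by
    have d1 : HasFDerivAt (fun z : Cfg 3 => η (z 0))
        ((fderiv ℝ η (z 0)).comp (ContinuousLinearMap.proj (φ := fun _ : Fin 3 => Space) 0)) z :=
      HasFDerivAt.comp (g := η) (f := fun z : Cfg 3 => z 0) z (hη.differentiable _).hasFDerivAt
        (hasFDerivAt_apply (𝕜 := ℝ) (F' := fun _ : Fin 3 => Space) 0 z)
    have d2 : HasFDerivAt (fun z : Cfg 3 => ψ k (L z)) ((fderiv ℝ (ψ k) (L z)).comp L) z :=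
      ((hψ.c1 k).differentiable _).hasFDerivAt.comp z L.hasFDerivAt
    have hv : L (Pi.single 0 (unit3 a)) = 0 := by
      funext j
      simp [L]
    rw [slotDeriv, (d1.fun_mul d2).fderiv]
    simp [deriv3, hv]
    ring
  have key := hf.ibp hu 0 a
  have i1 : Integrable fun z => slotDeriv 0 a u z * f z := (hu.memLp_slot 0 a).integrable_mul hf.memLp
  have i2 : Integrable fun z => u z * D 0 a z := hu.memLp.integrable_mul (hf.grad_memLp 0 a)
  rw [integral_split 0 i1, integral_split 0 i2] at key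
  simp only [hd] at key
  simp only [u, hL, Fin.insertNth_apply_same, Fin.removeNth_insertNth, mul_assoc,
    integral_const_mul] at key
  simp only [ipN, slice]
  exact key.symm

end Vale.Agent.P363.Inter
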