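import Vale.Agent.P363.Inter.Slice.Pot

/-!
P363, interacting side: mollification on configuration space in the mean square, and the
derivatives of mollified members of the energy space.
-/

noncomputable section

namespace Vale.Agent.P363.Inter

open MeasureTheory Filter Set Metric ContinuousLinearMap
open scoped BigOperators Topology ContDiff Convolution

variable {n : ℕ} {f g : Cfg n → ℝ} {D : Fin n → Fin 3 → Cfg n → ℝ}

/-- The kernel of the mollifier. -/
def cfgKer (n k : ℕ) : Cfg n → ℝ := (cfgBump n k).normed volume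

lemma cfgKer_c1 (k : ℕ) : IsC1 (cfgKer n k) :=
  ⟨(cfgBump n k).contDiff_normed, (cfgBump n k).hasCompactSupport_normed⟩

lemma cfgKer_nonneg (k : ℕ) (x : Cfg n) : 0 ≤ cfgKer n k x := (cfgBump n k).nonneg_normed x

lemma cfgKer_integral (k : ℕ) : ∫ x, cfgKer n k x = 1 := (cfgBump n k).integral_normed

lemma cfgMoll_integrand (k : ℕ) (hg : LocallyIntegrable g) (x : Cfg n) :
    Integrable fun t => cfgKer n k t * g (x - t) := by
  simpa [ConvolutionExistsAt] using (cfgKer_c1 k).compact.convolutionExists_left (lsmul ℝ ℝ)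
    (cfgKer_c1 k).continuous hg x

lemma cfgMoll_eq' (k : ℕ) (g : Cfg n → ℝ) (x : Cfg n) :
    cfgMoll k g x = ∫ t, cfgKer n k (x - t) * g t := by
  rw [cfgMoll, convolution_eq_swap]
  simp [cfgKer]

lemma cfgMoll_sub (k : ℕ) (hf : LocallyIntegrable f) (hg : LocallyIntegrable g) (x : Cfg n) :
    cfgMoll k (fun y => f y - g y) x = cfgMoll k f x - cfgMoll k g x := by
  simp only [cfgMoll_eq, mul_sub]
  exact integral_sub (cfgMoll_integrand k hf x) (cfgMoll_integrand k hg x)

lemma cfgMoll_sq_le (k : ℕ) (hf : LocallyIntegrable f) (hf2 : LocallyIntegrable fun y => f y ^ 2)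
    (x : Cfg n) : cfgMoll k f x ^ 2 ≤ cfgMoll k (fun y => f y ^ 2) x := by
  set m := cfgMoll k f x with hm
  have i1 := (cfgMoll_integrand k hf x).const_mul (2 * m)
  have i0 : Integrable fun t => m ^ 2 * cfgKer n k t :=
    ((cfgKer_c1 k).continuous.integrable_of_hasCompactSupport (cfgKer_c1 k).compact).const_mul _
  have i2 := cfgMoll_integrand k hf2 x
  have h := integral_mono (g := fun t => m ^ 2 * cfgKer n k t + cfgKer n k t * f (x - t) ^ 2) i1
    (i0.add i2) fun t => by
      nlinarith [cfgKer_nonneg k t,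
        mul_nonneg (cfgKer_nonneg k t) (sq_nonneg (m - f (x - t)))]
  rw [integral_const_mul, integral_add i0 i2, integral_const_mul, cfgKer_integral] at h
  have e : m = ∫ t, cfgKer n k t * f (x - t) := cfgMoll_eq k f x
  rw [← e] at h
  rw [cfgMoll_eq k (fun y => f y ^ 2)]
  change m ^ 2 ≤ ∫ t, cfgKer n k t * f (x - t) ^ 2
  linarith

lemma memLp_cfgMoll (k : ℕ) (hf : MemLp f 2) :
    MemLp (cfgMoll k f) 2 ∧ ∫ x, cfgMoll k f x ^ 2 ≤ ∫ x, f x ^ 2 := by
  have hl : LocallyIntegrable f := hf.locallyIntegrable (by norm_num)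
  have h2 : Integrable fun y => f y ^ 2 := hf.integrable_sq
  have hk : Integrable (cfgKer n k) :=
    (cfgKer_c1 k).continuous.integrable_of_hasCompactSupport (cfgKer_c1 k).compact
  have hi2 : Integrable (cfgMoll k fun y => f y ^ 2) := hk.integrable_convolution _ h2
  have he : ∫ x, cfgMoll k (fun y => f y ^ 2) x = ∫ x, f x ^ 2 := by
    change ∫ x, (cfgKer n k ⋆[lsmul ℝ ℝ, volume] fun y => f y ^ 2) x = _
    rw [integral_convolution _ hk h2]
    change ((lsmul ℝ ℝ : ℝ →L[ℝ] ℝ →L[ℝ] ℝ) (∫ x, cfgKer n k x)) (∫ x, f x ^ 2) = _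
    simp [cfgKer_integral]
  have hm : AEStronglyMeasurable (cfgMoll k f) :=
    (contDiff_cfgMoll k hl).continuous.aestronglyMeasurable
  have hi : Integrable fun x => cfgMoll k f x ^ 2 :=
    hi2.mono' (hm.pow 2) (Eventually.of_forall fun x => by
      rw [Real.norm_eq_abs, abs_of_nonneg (sq_nonneg _)]
      exact cfgMoll_sq_le k hl h2.locallyIntegrable x)
  exact ⟨(memLp_two_iff_integrable_sq hm).2 hi,
    (integral_mono hi hi2 fun x => cfgMoll_sq_le k hl h2.locallyIntegrable x).trans_eq he⟩

/-- Mollifications converge in the mean square. -/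
theorem sqLim_cfgMoll (hf : MemLp f 2) : SqLim volume (fun k => cfgMoll k f) f := by
  have hl : LocallyIntegrable f := hf.locallyIntegrable (by norm_num)
  refine ⟨fun k => (memLp_cfgMoll k hf).1, hf, ?_⟩
  rw [Metric.tendsto_atTop]
  intro ε hε
  have hf' : MemLp f (ENNReal.ofReal 2) := by rwa [ENNReal.ofReal_ofNat]
  have : (volume : Measure (Cfg n)).Regular :=
    Measure.Regular.of_sigmaCompactSpace_of_isLocallyFiniteMeasure _
  obtain ⟨g, hgc, hg, hg_cont, -⟩ :=
    hf'.exists_hasCompactSupport_integral_rpow_sub_le two_pos (show (0 : ℝ) < ε / 12 by linarith)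
  simp only [Real.norm_eq_abs, Real.rpow_two, sq_abs] at hg
  have hgm : MemLp g 2 := hg_cont.memLp_of_hasCompactSupport hgc
  obtain ⟨B, hB⟩ := hgc.exists_bound_of_continuous hg_cont
  have hlim := tendsto_sq_of_dominated (F := fun k => cfgMoll k g) hgc.isCompact.cthickening
    (B := B + B) (fun k => (contDiff_cfgMoll k hg_cont.locallyIntegrable).continuous.aestronglyMeasurable)
    hg_cont.aestronglyMeasurable
    (fun k x => (abs_sub _ _).trans (add_le_add (abs_cfgMoll_le k hB x) (hB x)))
    (fun k x hx => by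
      rw [cfgMoll_eq_zero k (fun _ => image_eq_zero_of_notMem_tsupport) hx,
        image_eq_zero_of_notMem_tsupport fun h => hx (self_subset_cthickening _ h)])
    (Eventually.of_forall fun x => ContDiffBump.convolution_tendsto_right_of_continuous
      (φ := fun k : ℕ => cfgBump n k) tendsto_one_div_add_atTop_nhds_zero_nat hg_cont x)
  obtain ⟨N, hN⟩ := Metric.tendsto_atTop.1 hlim (ε / 12) (by linarith)
  refine ⟨N, fun k hk => ?_⟩
  have h1 := hN k hk
  rw [Real.dist_eq, sub_zero, abs_of_nonneg (integral_nonneg fun x => sq_nonneg _)] at h1 ⊢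
  have hd : MemLp (fun x => f x - g x) 2 := hf.sub hgm
  have i1 : Integrable fun x => 3 * cfgMoll k (fun y => f y - g y) x ^ 2 :=
    (memLp_cfgMoll k hd).1.integrable_sq.const_mul 3
  have i2 : Integrable fun x => 3 * (cfgMoll k g x - g x) ^ 2 :=
    ((memLp_cfgMoll k hgm).1.sub hgm).integrable_sq.const_mul 3
  have i3 : Integrable fun x => 3 * (f x - g x) ^ 2 := hd.integrable_sq.const_mul 3
  refine lt_of_le_of_lt (integral_mono ((memLp_cfgMoll k hf).1.sub hf).integrable_sq
    ((i1.add i2).add i3) fun x => ?_) ?_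
  · simp only [Pi.add_apply, Pi.sub_apply, cfgMoll_sub k hl hg_cont.locallyIntegrable]
    nlinarith [sq_nonneg (cfgMoll k f x - cfgMoll k g x - (cfgMoll k g x - g x)),
      sq_nonneg (cfgMoll k g x - g x - (g x - f x)),
      sq_nonneg (cfgMoll k f x - cfgMoll k g x - (g x - f x))]
  · rw [integral_add' (i1.add i2) i3, integral_add' i1 i2, integral_const_mul, integral_const_mul,
      integral_const_mul]
    linarith [(memLp_cfgMoll k hd).2]

/-- The derivative of a mollified function. -/
theorem slotDeriv_cfgMoll_eq (k : ℕ) (hg : LocallyIntegrable g) (j : Fin n) (a : Fin 3)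
    (z : Cfg n) :
    slotDeriv j a (cfgMoll k g) z = ∫ t, slotDeriv j a (cfgKer n k) (z - t) * g t := by
  have hρ := cfgKer_c1 (n := n) k
  have hc := hρ.compact.hasFDerivAt_convolution_left (lsmul ℝ ℝ) hρ.smooth hg z
    (μ := (volume : Measure (Cfg n)))
  rw [slotDeriv, show cfgMoll k g = cfgKer n k ⋆[lsmul ℝ ℝ, volume] g from rfl, hc.fderiv,
    convolution_eq_swap, integral_apply]
  · simp [slotDeriv, precompL_apply]
  · exact (hρ.compact.fderiv ℝ).convolutionExists_left _
      (hρ.smooth.continuous_fderiv one_ne_zero) hg z |>.integrable_swap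

/-- Integration by parts against the limit. -/
theorem InH1.ibp (h : InH1 f D) {η : Cfg n → ℝ} (hη : IsC1 η) (i : Fin n) (a : Fin 3) :
    ∫ x, slotDeriv i a η x * f x = -∫ x, η x * D i a x := by
  obtain ⟨φ, hφ⟩ := h
  refine tendsto_nhds_unique ((SqLim.const (hη.memLp_slot i a)).integral_mul hφ.val) ?_
  have := ((SqLim.const hη.memLp).integral_mul (hφ.der i a)).neg
  refine this.congr fun k => ?_
  rw [hη.integral_slot_mul (hφ.c1 k)]

lemma ker_comp_sub (k : ℕ) (z : Cfg n) : IsC1 fun t => cfgKer n k (z - t) :=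
  ⟨(cfgKer_c1 k).smooth.comp (contDiff_const.sub contDiff_id),
    (cfgKer_c1 k).compact.comp_homeomorph (Homeomorph.subLeft z)⟩

lemma slotDeriv_ker_sub (k : ℕ) (z t : Cfg n) (j : Fin n) (a : Fin 3) :
    slotDeriv j a (fun t => cfgKer n k (z - t)) t = -slotDeriv j a (cfgKer n k) (z - t) := by
  have h : HasFDerivAt (fun t => cfgKer n k (z - t))
      ((fderiv ℝ (cfgKer n k) (z - t)).comp (-ContinuousLinearMap.id ℝ (Cfg n))) t :=
    ((cfgKer_c1 k).differentiable _).hasFDerivAt.comp t ((hasFDerivAt_id t).const_sub z)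
  rw [slotDeriv, h.fderiv]
  simp [slotDeriv]

/-- Mollification commutes with the gradient. -/
theorem InH1.slotDeriv_cfgMoll (h : InH1 f D) (k : ℕ) (j : Fin n) (a : Fin 3) :
    slotDeriv j a (cfgMoll k f) = cfgMoll k (D j a) := by
  funext z
  rw [slotDeriv_cfgMoll_eq k (h.memLp.locallyIntegrable (by norm_num)), cfgMoll_eq']
  have := h.ibp (ker_comp_sub k z) j a
  simp only [slotDeriv_ker_sub, neg_mul, integral_neg, neg_inj] at this
  exact this

end Vale.Agent.P363.Inter
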