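import Vale.Agent.P363.Inter.Reg.Ineq
import Vale.Agent.P363.Inter.Reg.Mollify

/-!
P363, interacting side: smooth compactly supported approximants of a lowest state with small
residual in the regularised equation and bounded second derivatives.
-/

noncomputable section

namespace Vale.Agent.P363.Inter

open MeasureTheory Filter Set ContinuousLinearMap
open scoped BigOperators Topology ContDiff

/-- Electron `i` avoids a centre given by the others. -/
lemma ae_pole_ne {m : ℕ} (i : Fin (m + 1)) {c : Cfg m → Space} (hc : Continuous c) :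
    ∀ᵐ z : Cfg (m + 1), z i ≠ c (i.removeNth z) := by
  have hcc : Continuous fun z : Cfg (m + 1) => c (i.removeNth z) :=
    hc.comp (continuous_pi fun k => continuous_apply (i.succAbove k))
  have hP : MeasurableSet {z : Cfg (m + 1) | z i ≠ c (i.removeNth z)} :=
    (isClosed_eq (continuous_apply i) hcc).measurableSet.compl
  have hP' : MeasurableSet {z : Space × Cfg m |
      (i.insertNth z.1 z.2 : Cfg (m + 1)) i ≠ c (i.removeNth (i.insertNth z.1 z.2 : Cfg (m + 1)))} :=
    (mp_ins i).measurable hP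
  rw [← (mp_ins i).map_eq, ae_map_iff (mp_ins i).measurable.aemeasurable hP,
    Measure.ae_prod_iff_ae_ae hP', Measure.ae_ae_comm hP']
  exact Eventually.of_forall fun y => by
    simp only [Fin.insertNth_apply_same, Fin.removeNth_insertNth]
    exact Measure.ae_ne volume (c y)

/-- No two particles of the molecule coincide. -/
def Distinct (l : ℝ) (z : Cfg 3) : Prop :=
  (∀ j, z j ≠ nuc l ∧ z j ≠ -nuc l) ∧ z 0 ≠ z 1 ∧ z 0 ≠ z 2 ∧ z 1 ≠ z 2

lemma ae_distinct (l : ℝ) : ∀ᵐ z : Cfg 3, Distinct l z := by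
  have h1 : ∀ (p : Space) (j : Fin 3), ∀ᵐ z : Cfg 3, z j ≠ p := fun p j =>
    ae_pole_ne j (c := fun _ => p) continuous_const
  have h2 : ∀ (j : Fin 3) (k : Fin 2), ∀ᵐ z : Cfg 3, z j ≠ z (j.succAbove k) := fun j k =>
    ae_pole_ne j (c := fun y => y k) (continuous_apply k)
  filter_upwards [ae_all_iff.2 (h1 (nuc l)), ae_all_iff.2 (h1 (-nuc l)), h2 0 0, h2 0 1, h2 1 1]
    with z a b c d e
  exact ⟨fun j => ⟨a j, b j⟩, c, d, e⟩

variable {l lam δ E : ℝ}

lemma molPot_three (l lam : ℝ) (z : Cfg 3) :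
    molPot l lam z = -(attract l (z 0) + attract l (z 1) + attract l (z 2)) +
      lam * (1 / ‖z 0 - z 1‖ + 1 / ‖z 0 - z 2‖ + 1 / ‖z 1 - z 2‖) := by
  have e0 : Finset.Ioi (0 : Fin 3) = {1, 2} := by decide
  have e1 : Finset.Ioi (1 : Fin 3) = {2} := by decide
  have e2 : Finset.Ioi (2 : Fin 3) = ∅ := by decide
  simp [molPot, Fin.sum_univ_three, e0, e1, e2]

/-- The potential with all signs positive. -/
def potAbs (l : ℝ) (z : Cfg 3) : ℝ := molPot l 1 z + (-2) * molPot l 0 z

lemma abs_molPotR_le (h0 : 0 ≤ lam) (h1 : lam ≤ 1) {z : Cfg 3} (hz : Distinct l z) :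
    |molPotR l lam δ z| ≤ potAbs l z := by
  obtain ⟨hn, c, d, e⟩ := hz
  have ha : ∀ j, attractR l δ (z j) ≤ attract l (z j) := fun j => by
    have p := rinv_le_inv δ (sub_ne_zero.2 (hn j).1)
    have q := rinv_le_inv δ (w := z j + nuc l) (by
      rw [← sub_neg_eq_add, sub_ne_zero]; exact (hn j).2)
    unfold attractR attract; linarith
  have hnn : ∀ j, 0 ≤ attractR l δ (z j) := fun j =>
    add_nonneg (rinv_nonneg _ _) (rinv_nonneg _ _)
  have r0 := rinv_le_inv δ (sub_ne_zero.2 c)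
  have r1 := rinv_le_inv δ (sub_ne_zero.2 d)
  have r2 := rinv_le_inv δ (sub_ne_zero.2 e)
  have hr := rinv_nonneg δ
  simp only [potAbs, molPot_three, molPotR, abs_le]
  constructor <;> nlinarith [ha 0, ha 1, ha 2, hnn 0, hnn 1, hnn 2, hr (z 0 - z 1), hr (z 0 - z 2),
    hr (z 1 - z 2)]

lemma abs_molPot_le_abs (h0 : 0 ≤ lam) (h1 : lam ≤ 1) (z : Cfg 3) :
    |molPot l lam z| ≤ potAbs l z := by
  have ha : ∀ j, 0 ≤ attract l (z j) := fun j => by unfold attract; positivity
  have hp : ∀ w : Space, 0 ≤ 1 / ‖w‖ := fun w => by positivity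
  simp only [potAbs, molPot_three, abs_le]
  constructor <;> nlinarith [ha 0, ha 1, ha 2, hp (z 0 - z 1), hp (z 0 - z 2), hp (z 1 - z 2)]

lemma tendsto_rinv {w : Space} (hw : w ≠ 0) {δ : ℕ → ℝ} (hδ : Tendsto δ atTop (𝓝 0)) :
    Tendsto (fun k => rinv (δ k) w) atTop (𝓝 (1 / ‖w‖)) := by
  have h := (((hδ.pow 2).const_add (‖w‖ ^ 2)).sqrt).inv₀ (by simpa using norm_ne_zero_iff.2 hw)
  simpa [rinv, Real.sqrt_sq (norm_nonneg w)] using h

lemma tendsto_molPotR {z : Cfg 3} (hz : Distinct l z) {δ : ℕ → ℝ}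
    (hδ : Tendsto δ atTop (𝓝 0)) :
    Tendsto (fun k => molPotR l lam (δ k) z) atTop (𝓝 (molPot l lam z)) := by
  obtain ⟨hn, c, d, e⟩ := hz
  have a : ∀ j, Tendsto (fun k => attractR l (δ k) (z j)) atTop (𝓝 (attract l (z j))) := fun j =>
    (tendsto_rinv (sub_ne_zero.2 (hn j).1) hδ).add
      (tendsto_rinv (by rw [← sub_neg_eq_add, sub_ne_zero]; exact (hn j).2) hδ)
  rw [molPot_three]
  exact (((a 0).add (a 1)).add (a 2)).neg.add ((((tendsto_rinv (sub_ne_zero.2 c) hδ).add
    (tendsto_rinv (sub_ne_zero.2 d) hδ)).add (tendsto_rinv (sub_ne_zero.2 e) hδ)).const_mul lam)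

variable {f : Cfg 3 → ℝ} {D : Fin 3 → Fin 3 → Cfg 3 → ℝ} {φ : ℕ → Cfg 3 → ℝ}

lemma Approx.potAbs_mul (h : Approx φ f D) (l : ℝ) :
    SqLim volume (fun k z => potAbs l z * φ k z) fun z => potAbs l z * f z := by
  have := (h.molPot_mul l 1).add ((h.molPot_mul l 0).smul (-2))
  simpa only [potAbs, add_mul, mul_assoc] using this

lemma InH1.potAbs_memLp (h : InH1 f D) (l : ℝ) : MemLp (fun z => potAbs l z * f z) 2 :=
  (h.choose_spec.potAbs_mul l).lim_mem

/-- The regularised potentials converge on the energy space. -/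
theorem Approx.molPotR_mul (h : Approx φ f D) (h0 : 0 ≤ lam) (h1 : lam ≤ 1) {δ : ℕ → ℝ}
    (hδ0 : ∀ k, δ k ≠ 0) (hδ : Tendsto δ atTop (𝓝 0)) :
    SqLim volume (fun k z => molPotR l lam (δ k) z * φ k z) fun z => molPot l lam z * f z := by
  have hA := h.potAbs_mul l
  have hm : ∀ k, Continuous (molPotR l lam (δ k)) := fun k =>
    (contDiff_molPotR (m := 0) (hδ0 k)).continuous
  have hmem : ∀ k {g : Cfg 3 → ℝ}, MemLp (fun z => potAbs l z * g z) 2 →
      AEStronglyMeasurable g volume → MemLp (fun z => molPotR l lam (δ k) z * g z) 2 := by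
    intro k g hg hgm
    refine hg.mono ((hm k).aestronglyMeasurable.mul hgm) ?_
    filter_upwards [ae_distinct l] with z hz
    rw [norm_mul, norm_mul]
    exact mul_le_mul_of_nonneg_right ((abs_molPotR_le h0 h1 hz).trans (le_abs_self _))
      (norm_nonneg _)
  have hd : SqLim volume (fun k z => molPotR l lam (δ k) z * (φ k z - f z)) fun _ => (0 : ℝ) := by
    have hs := hA.sub (SqLim.const hA.lim_mem)
    have e : ∀ k z, potAbs l z * φ k z - potAbs l z * f z = potAbs l z * (φ k z - f z) :=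
      fun k z => by ring
    simp only [e, sub_self] at hs
    have hk : ∀ k, MemLp (fun z => molPotR l lam (δ k) z * (φ k z - f z)) 2 := fun k =>
      hmem k (hs.mem k) ((h.val.mem k).1.sub h.val.lim_mem.1)
    refine ⟨hk, MemLp.zero', squeeze_zero (fun k => integral_nonneg fun z => sq_nonneg _)
      (fun k => ?_) hs.tendsto⟩
    refine integral_mono_ae (by simpa only [sub_zero] using (hk k).integrable_sq)
      (by simpa only [sub_zero] using (hs.mem k).integrable_sq) ?_
    filter_upwards [ae_distinct l] with z hz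
    simp only [sub_zero, mul_pow]
    refine mul_le_mul_of_nonneg_right ?_ (sq_nonneg _)
    rw [← sq_abs (molPotR _ _ _ _)]
    exact pow_le_pow_left₀ (abs_nonneg _) (abs_molPotR_le h0 h1 hz) 2
  have hf : SqLim volume (fun k z => molPotR l lam (δ k) z * f z)
      fun z => molPot l lam z * f z := by
    refine ⟨fun k => hmem k hA.lim_mem h.val.lim_mem.1, h.inH1.molPot_memLp l lam, ?_⟩
    rw [← integral_zero (Cfg 3) ℝ]
    refine tendsto_integral_of_dominated_convergence
      (fun z => 4 * (potAbs l z * f z) ^ 2)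
      (fun k => ((hmem k hA.lim_mem h.val.lim_mem.1).1.sub
        (h.inH1.molPot_memLp l lam).1).pow 2)
      (hA.lim_mem.integrable_sq.const_mul 4) (fun k => ?_) ?_
    · filter_upwards [ae_distinct l] with z hz
      rw [Real.norm_eq_abs, abs_of_nonneg (sq_nonneg _), ← sub_mul, mul_pow, mul_pow, ← mul_assoc]
      refine mul_le_mul_of_nonneg_right ?_ (sq_nonneg _)
      nlinarith [abs_le.1 (abs_molPotR_le (δ := δ k) h0 h1 hz),
        abs_le.1 (abs_molPot_le_abs (l := l) h0 h1 z)]
    · filter_upwards [ae_distinct l] with z hz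
      simpa using ((((tendsto_molPotR (lam := lam) hz hδ).mul_const (f z)).sub_const
        (molPot l lam z * f z)).pow 2)
  have := hd.add hf
  have e : ∀ k z, molPotR l lam (δ k) z * (φ k z - f z) + molPotR l lam (δ k) z * f z =
      molPotR l lam (δ k) z * φ k z := fun k z => by ring
  simpa only [e, zero_add] using this

/-- The regularised equation along mollifications. -/
theorem IsLowest.lapN_cfgMoll {P : (Cfg 3 → ℝ) → Prop} (h : IsLowest l lam P E f D) (k : ℕ) :
    lapN (cfgMoll k f) = cfgMoll k fun z => 2 * ((molPot l lam z - E) * f z) := by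
  have hH := inH1_of_isFormLim h.lim
  funext z
  simp only [lapN, hH.slotDeriv_cfgMoll]
  simp only [slotDeriv_cfgMoll_eq k ((hH.grad_memLp _ _).locallyIntegrable (by norm_num)),
    cfgMoll_eq']
  have hη := ker_comp_sub (n := 3) k z
  have hb := IsLowest.bform_zero h hη.inH1
  rw [bform_eq hH hη.inH1] at hb
  simp only [slotDeriv_ker_sub, mul_neg, integral_neg, Finset.sum_neg_distrib] at hb
  have i1 : Integrable fun t => molPot l lam t * f t * cfgKer 3 k (z - t) :=
    (hH.molPot_memLp l lam).integrable_mul hη.memLp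
  have i2 : Integrable fun t => f t * cfgKer 3 k (z - t) := hH.memLp.integrable_mul hη.memLp
  have e : ∫ t, cfgKer 3 k (z - t) * (2 * ((molPot l lam t - E) * f t)) =
      2 * (∫ t, molPot l lam t * f t * cfgKer 3 k (z - t)) -
        2 * E * ∫ t, f t * cfgKer 3 k (z - t) := by
    rw [← integral_const_mul, ← integral_const_mul, ← integral_sub (i1.const_mul 2)
      (i2.const_mul (2 * E))]
    exact integral_congr_ae (Eventually.of_forall fun t => by ring)
  have e' : ∀ j a, ∫ t, slotDeriv j a (cfgKer 3 k) (z - t) * D j a t =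
      ∫ t, D j a t * slotDeriv j a (cfgKer 3 k) (z - t) := fun j a =>
    integral_congr_ae (Eventually.of_forall fun t => mul_comm _ _)
  simp only [e']
  rw [e]
  linarith

/-- The cut off at radius `k + 1`. -/
def cfgCut (k : ℕ) (z : Cfg 3) : ℝ :=
  (⟨1, 2, one_pos, one_lt_two⟩ : ContDiffBump (0 : Cfg 3)) (((k : ℝ) + 1)⁻¹ • z)

lemma contDiff_cfgCut (k : ℕ) {m : ℕ∞} : ContDiff ℝ m (cfgCut k) :=
  (ContDiffBump.contDiff _).comp (contDiff_const_smul _)

lemma abs_cfgCut_le (k : ℕ) (z : Cfg 3) : |cfgCut k z| ≤ 1 := by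
  unfold cfgCut
  rw [abs_of_nonneg (ContDiffBump.nonneg _)]
  exact ContDiffBump.le_one _

lemma compact_cfgCut (k : ℕ) : HasCompactSupport (cfgCut k) :=
  (ContDiffBump.hasCompactSupport _).comp_smul (inv_ne_zero (by positivity))

lemma tendsto_cfgCut (z : Cfg 3) : Tendsto (fun k => cfgCut k z) atTop (𝓝 1) := by
  have h : Tendsto (fun k : ℕ => ((k : ℝ) + 1)⁻¹ * ‖z‖) atTop (𝓝 0) := by
    have := (tendsto_one_div_add_atTop_nhds_zero_nat (𝕜 := ℝ)).mul_const ‖z‖
    simpa [one_div] using this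
  refine tendsto_const_nhds.congr' ?_
  filter_upwards [h.eventually_le_const one_pos] with k hk
  unfold cfgCut
  refine (ContDiffBump.one_of_mem_closedBall _ ?_).symm
  rw [mem_closedBall_zero_iff, norm_smul, Real.norm_eq_abs, abs_of_nonneg (by positivity)]
  exact hk

lemma exists_cfgCut_bound : ∃ B : ℝ, 0 ≤ B ∧ ∀ k j a z,
    |slotDeriv j a (cfgCut k) z| ≤ B / ((k : ℝ) + 1) ∧
      |slotDeriv j a (slotDeriv j a (cfgCut k)) z| ≤ B / ((k : ℝ) + 1) := by
  set b : ContDiffBump (0 : Cfg 3) := ⟨1, 2, one_pos, one_lt_two⟩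
  have hb2 : ContDiff ℝ 2 b := b.contDiff
  have h1 : ∀ p : Fin 3 × Fin 3, ∃ C, ∀ z, ‖slotDeriv p.1 p.2 b z‖ ≤ C := fun p =>
    (hasCompactSupport_slotDeriv b.hasCompactSupport p.1 p.2).exists_bound_of_continuous
      (continuous_slotDeriv (hb2.of_le (by norm_num)) p.1 p.2)
  have h2 : ∀ p : Fin 3 × Fin 3, ∃ C, ∀ z,
      ‖slotDeriv p.1 p.2 (slotDeriv p.1 p.2 b) z‖ ≤ C := fun p =>
    (hasCompactSupport_slotDeriv (hasCompactSupport_slotDeriv b.hasCompactSupport p.1 p.2) p.1
      p.2).exists_bound_of_continuous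
      (continuous_slotDeriv (contDiff_slotDeriv hb2 (by norm_num) p.1 p.2) p.1 p.2)
  choose C1 hC1 using h1
  choose C2 hC2 using h2
  set B := ∑ p, |C1 p| + ∑ p, |C2 p|
  refine ⟨B, by positivity, fun k j a z => ?_⟩
  set c : ℝ := ((k : ℝ) + 1)⁻¹
  have hc0 : 0 ≤ c := by positivity
  have hc1 : c ≤ 1 := inv_le_one_of_one_le₀ (by linarith [(Nat.cast_nonneg k : (0 : ℝ) ≤ k)])
  have hs : ∀ (u : Cfg 3 → ℝ), Differentiable ℝ u → ∀ w,
      slotDeriv j a (fun w => u (c • w)) w = c * slotDeriv j a u (c • w) := by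
    intro u hu w
    have h : HasFDerivAt (fun w => u (c • w)) _ w :=
      (hu _).hasFDerivAt.comp w ((hasFDerivAt_id (𝕜 := ℝ) w).const_smul c)
    rw [slotDeriv, h.fderiv]
    simp [slotDeriv]
  have e1 : slotDeriv j a (cfgCut k) = fun w => c * slotDeriv j a b (c • w) :=
    funext (hs b (hb2.differentiable two_ne_zero))
  have hd : Differentiable ℝ (slotDeriv j a b) :=
    (contDiff_slotDeriv hb2 (m := 1) (by norm_num) j a).differentiable one_ne_zero
  have e2 : slotDeriv j a (slotDeriv j a (cfgCut k)) z =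
      c * (c * slotDeriv j a (slotDeriv j a b) (c • z)) := by
    have hdc : DifferentiableAt ℝ (fun w => slotDeriv j a b (c • w)) z :=
      DifferentiableAt.comp (f := fun w : Cfg 3 => c • w) z (hd _)
        (differentiableAt_id.const_smul c)
    rw [e1, sd_const_mul hdc, hs _ hd]
  have n1 : |C1 (j, a)| ≤ B := le_add_of_le_of_nonneg
    (Finset.single_le_sum (f := fun p => |C1 p|) (fun p _ => abs_nonneg _) (Finset.mem_univ _))
    (by positivity)
  have n2 : |C2 (j, a)| ≤ B := le_add_of_nonneg_of_le (by positivity)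
    (Finset.single_le_sum (f := fun p => |C2 p|) (fun p _ => abs_nonneg _) (Finset.mem_univ _))
  have eB : B / ((k : ℝ) + 1) = c * B := by rw [div_eq_mul_inv, mul_comm]
  rw [eB, e2, e1, abs_mul, abs_mul, abs_mul, abs_of_nonneg hc0]
  refine ⟨mul_le_mul_of_nonneg_left (((hC1 (j, a) _).trans (le_abs_self _)).trans n1) hc0,
    mul_le_mul_of_nonneg_left ((mul_le_mul hc1 (((hC2 (j, a) _).trans (le_abs_self _)).trans n2)
      (abs_nonneg _) zero_le_one).trans_eq (one_mul _)) hc0⟩

lemma lapN_mul {u v : Cfg 3 → ℝ} (hu : ContDiff ℝ 2 u) (hv : ContDiff ℝ 2 v) (z : Cfg 3) :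
    lapN (fun w => u w * v w) z = u z * lapN v z +
      (2 * ∑ j, ∑ a, slotDeriv j a u z * slotDeriv j a v z) + lapN u z * v z := by
  have hu' := hu.differentiable two_ne_zero
  have hv' := hv.differentiable two_ne_zero
  have du : ∀ j a, Differentiable ℝ (slotDeriv j a u) := fun j a =>
    (contDiff_slotDeriv hu (m := 1) (by norm_num) j a).differentiable one_ne_zero
  have dv : ∀ j a, Differentiable ℝ (slotDeriv j a v) := fun j a =>
    (contDiff_slotDeriv hv (m := 1) (by norm_num) j a).differentiable one_ne_zero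
  have e : ∀ j a, slotDeriv j a (slotDeriv j a fun w => u w * v w) z =
      u z * slotDeriv j a (slotDeriv j a v) z + 2 * (slotDeriv j a u z * slotDeriv j a v z) +
        slotDeriv j a (slotDeriv j a u) z * v z := by
    intro j a
    rw [show slotDeriv j a (fun w => u w * v w) = fun w => u w * slotDeriv j a v w +
      slotDeriv j a u w * v w from funext fun w => sd_mul (hu' w) (hv' w) j a]
    rw [slotDeriv, fderiv_fun_add ((hu' z).fun_mul (dv j a z)) ((du j a z).fun_mul (hv' z)), add_apply]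
    change slotDeriv j a (fun w => u w * slotDeriv j a v w) z +
      slotDeriv j a (fun w => slotDeriv j a u w * v w) z = _
    rw [sd_mul (hu' z) (dv j a z), sd_mul (du j a z) (hv' z)]
    ring
  simp only [lapN, e, Finset.sum_add_distrib, Finset.mul_sum, Finset.sum_mul]

/-- The integral of all squared second derivatives. -/
theorem hess_eq {φ : Cfg 3 → ℝ} (hφ : ContDiff ℝ ∞ φ) (hc : HasCompactSupport φ) :
    ∑ p : Fin 3 × Fin 3, ∑ q : Fin 3 × Fin 3,
      ∫ z, slotDeriv p.1 p.2 (slotDeriv q.1 q.2 φ) z ^ 2 = ∫ z, lapN φ z ^ 2 := by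
  have hD : ∀ (u : Cfg 3 → ℝ), ContDiff ℝ ∞ u → HasCompactSupport u → ∀ j a,
      ContDiff ℝ ∞ (slotDeriv j a u) ∧ HasCompactSupport (slotDeriv j a u) := fun u hu huc j a =>
    ⟨contDiff_slotDeriv hu le_rfl j a, hasCompactSupport_slotDeriv huc j a⟩
  have c1 : ∀ u : Cfg 3 → ℝ, ContDiff ℝ ∞ u ∧ HasCompactSupport u → IsC1 u := fun u h =>
    ⟨h.1.of_le (WithTop.coe_le_coe.2 le_top), h.2⟩
  have c2 : ∀ u : Cfg 3 → ℝ, ContDiff ℝ ∞ u → ContDiff ℝ 2 u := fun u hu =>
    hu.of_le (WithTop.coe_le_coe.2 le_top)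
  have e : ∀ p q : Fin 3 × Fin 3, ∫ z, slotDeriv p.1 p.2 (slotDeriv q.1 q.2 φ) z ^ 2 =
      ∫ z, slotDeriv p.1 p.2 (slotDeriv p.1 p.2 φ) z *
        slotDeriv q.1 q.2 (slotDeriv q.1 q.2 φ) z := by
    intro p q
    have hp := hD φ hφ hc p.1 p.2
    have hq := hD φ hφ hc q.1 q.2
    have hpp := hD _ hp.1 hp.2 p.1 p.2
    have hpq := hD _ hq.1 hq.2 p.1 p.2
    have s1 := IsC1.integral_slot_mul (c1 _ hq) (c1 _ hpq) p.1 p.2
    have s2 := IsC1.integral_slot_mul (c1 _ hpp) (c1 _ hq) q.1 q.2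
    have e1 : slotDeriv q.1 q.2 (slotDeriv p.1 p.2 (slotDeriv p.1 p.2 φ)) =
        slotDeriv p.1 p.2 (slotDeriv p.1 p.2 (slotDeriv q.1 q.2 φ)) := by
      rw [sd_comm (c2 _ hp.1), sd_comm (c2 _ hφ) q.1 q.2 p.1 p.2]
    rw [e1] at s2
    have e2 : ∫ z, slotDeriv p.1 p.2 (slotDeriv p.1 p.2 (slotDeriv q.1 q.2 φ)) z *
          slotDeriv q.1 q.2 φ z =
        ∫ z, slotDeriv q.1 q.2 φ z *
          slotDeriv p.1 p.2 (slotDeriv p.1 p.2 (slotDeriv q.1 q.2 φ)) z :=
      integral_congr_ae (Eventually.of_forall fun z => mul_comm _ _)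
    simp only [sq]
    linarith
  have hi : ∀ p q : Fin 3 × Fin 3, Integrable fun z => slotDeriv p.1 p.2 (slotDeriv p.1 p.2 φ) z *
      slotDeriv q.1 q.2 (slotDeriv q.1 q.2 φ) z := fun p q =>
    ((c1 _ (hD _ (hD φ hφ hc p.1 p.2).1 (hD φ hφ hc p.1 p.2).2 p.1 p.2)).memLp).integrable_mul
      ((c1 _ (hD _ (hD φ hφ hc q.1 q.2).1 (hD φ hφ hc q.1 q.2).2 q.1 q.2)).memLp)
  simp only [e]
  rw [Finset.sum_congr rfl fun p _ => (integral_finsetSum _ fun q _ => hi p q).symm,
    ← integral_finsetSum _ fun p _ => integrable_finsetSum _ fun q _ => hi p q]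
  refine integral_congr_ae (Eventually.of_forall fun z => ?_)
  simp only [← Finset.mul_sum, ← Finset.sum_mul, sq, lapN, Fintype.sum_prod_type]

/-- Smooth approximants with small residual and bounded Hessian. -/
structure GoodSeq (l lam E : ℝ) (f : Cfg 3 → ℝ) (D : Fin 3 → Fin 3 → Cfg 3 → ℝ)
    (φ : ℕ → Cfg 3 → ℝ) (δ : ℕ → ℝ) : Prop where
  smooth : ∀ k, ContDiff ℝ ∞ (φ k) ∧ HasCompactSupport (φ k)
  reg_ne : ∀ k, δ k ≠ 0
  reg_lim : Tendsto δ atTop (𝓝 0)
  approx : Approx φ f D
  res : Tendsto (fun k => ∫ z, resid l lam (δ k) E (φ k) z ^ 2) atTop (𝓝 0)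
  hess : ∀ k, ∑ p : Fin 3 × Fin 3, ∑ q : Fin 3 × Fin 3,
    ∫ z, slotDeriv p.1 p.2 (slotDeriv q.1 q.2 (φ k)) z ^ 2 ≤
      (∫ z, (2 * ((molPot l lam z - E) * f z)) ^ 2) + 1

/-- They exist for every lowest state. -/
theorem exists_goodSeq {P : (Cfg 3 → ℝ) → Prop} (h0 : 0 ≤ lam) (h1 : lam ≤ 1)
    (h : IsLowest l lam P E f D) : ∃ φ δ, GoodSeq l lam E f D φ δ := by
  have hH := inH1_of_isFormLim h.lim
  have hfl : LocallyIntegrable f := hH.memLp.locallyIntegrable (by norm_num)
  set w : Cfg 3 → ℝ := fun z => 2 * ((molPot l lam z - E) * f z)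
  have hw : MemLp w 2 :=
    (((hH.molPot_memLp l lam).sub (hH.memLp.const_mul E)).const_mul 2).ae_eq
      (Eventually.of_forall fun z => by simp only [w, Pi.sub_apply]; ring)
  set g : ℕ → Cfg 3 → ℝ := fun k => cfgMoll k f
  have hgs : ∀ k, ContDiff ℝ ∞ (g k) := fun k => contDiff_cfgMoll k hfl
  have hgl : SqLim volume g f := sqLim_cfgMoll hH.memLp
  have hgd : ∀ j a, SqLim volume (fun k => slotDeriv j a (g k)) (D j a) := fun j a => by
    simpa only [g, hH.slotDeriv_cfgMoll] using sqLim_cfgMoll (hH.grad_memLp j a)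
  have hgL : SqLim volume (fun k => lapN (g k)) w := by
    simpa only [g, IsLowest.lapN_cfgMoll h] using sqLim_cfgMoll hw
  obtain ⟨B, hB0, hB⟩ := exists_cfgCut_bound
  set φ : ℕ → Cfg 3 → ℝ := fun k z => cfgCut k z * g k z
  have hφs : ∀ k, ContDiff ℝ ∞ (φ k) ∧ HasCompactSupport (φ k) := fun k =>
    ⟨(contDiff_cfgCut k).mul (hgs k), (compact_cfgCut k).mul_right⟩
  have hBk : Tendsto (fun k : ℕ => B / ((k : ℝ) + 1)) atTop (𝓝 0) := by
    simpa [div_eq_mul_inv] using (tendsto_one_div_add_atTop_nhds_zero_nat (𝕜 := ℝ)).const_mul B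
  -- cutting off does not change limits, and kills anything times a derivative of the cut off
  have cut1 : ∀ {u : ℕ → Cfg 3 → ℝ} {U : Cfg 3 → ℝ}, SqLim volume u U →
      SqLim volume (fun k z => cfgCut k z * u k z) U := by
    intro u U hu
    have hm : ∀ k {V : Cfg 3 → ℝ}, MemLp V 2 → MemLp (fun z => cfgCut k z * V z) 2 :=
      fun k {V} hV => hV.mono ((contDiff_cfgCut k (m := 0)).continuous.aestronglyMeasurable.mul hV.1)
        (Eventually.of_forall fun z => by
          rw [norm_mul, Real.norm_eq_abs]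
          exact mul_le_of_le_one_left (norm_nonneg _) (abs_cfgCut_le k z))
    have hs1 : SqLim volume (fun k z => cfgCut k z * (u k z - U z)) fun _ => (0 : ℝ) := by
      have hs := hu.sub (SqLim.const hu.lim_mem)
      simp only [sub_self] at hs
      refine ⟨fun k => hm k (hs.mem k), MemLp.zero',
        squeeze_zero (fun k => integral_nonneg fun z => sq_nonneg _) (fun k => ?_) hs.tendsto⟩
      refine integral_mono (by simpa only [sub_zero] using (hm k (hs.mem k)).integrable_sq)
        (by simpa only [sub_zero] using (hs.mem k).integrable_sq) fun z => ?_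
      simp only [sub_zero, mul_pow]
      refine mul_le_of_le_one_left (sq_nonneg _) ?_
      rw [← sq_abs]
      exact pow_le_one₀ (abs_nonneg _) (abs_cfgCut_le k z)
    have hs2 : SqLim volume (fun k z => cfgCut k z * U z) U := by
      refine ⟨fun k => hm k hu.lim_mem, hu.lim_mem, ?_⟩
      rw [← integral_zero (Cfg 3) ℝ]
      refine tendsto_integral_of_dominated_convergence (fun z => 4 * U z ^ 2)
        (fun k => ((hm k hu.lim_mem).1.sub hu.lim_mem.1).pow 2)
        (hu.lim_mem.integrable_sq.const_mul 4) (fun k => Eventually.of_forall fun z => ?_)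
        (Eventually.of_forall fun z => by
          simpa using (((tendsto_cfgCut z).mul_const (U z)).sub_const (U z)).pow 2)
      rw [Real.norm_eq_abs, abs_of_nonneg (sq_nonneg _), ← sub_one_mul, mul_pow]
      refine mul_le_mul_of_nonneg_right ?_ (sq_nonneg _)
      nlinarith [abs_le.1 (abs_cfgCut_le k z)]
    have := hs1.add hs2
    have e : ∀ k z, cfgCut k z * (u k z - U z) + cfgCut k z * U z = cfgCut k z * u k z :=
      fun k z => by ring
    simpa only [e, zero_add] using this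
  have cut2 : ∀ {u : ℕ → Cfg 3 → ℝ} {U : Cfg 3 → ℝ} {v : ℕ → Cfg 3 → ℝ}, SqLim volume u U →
      (∀ k, Continuous (v k)) → (∀ k z, |v k z| ≤ B / ((k : ℝ) + 1)) →
      SqLim volume (fun k z => v k z * u k z) fun _ => 0 := by
    intro u U v hu hv hvb
    have hk : ∀ k, MemLp (fun z => v k z * u k z) 2 := fun k =>
      (hu.mem k).of_le_mul (c := B / ((k : ℝ) + 1)) ((hv k).aestronglyMeasurable.mul (hu.mem k).1)
        (Eventually.of_forall fun z => by
          rw [norm_mul, Real.norm_eq_abs]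
          exact mul_le_mul_of_nonneg_right (hvb k z) (norm_nonneg _))
    refine ⟨hk, MemLp.zero', squeeze_zero (fun k => integral_nonneg fun z => sq_nonneg _)
      (fun k => ?_) (show Tendsto (fun k : ℕ => (B / ((k : ℝ) + 1)) ^ 2 * ∫ z, u k z ^ 2) atTop (𝓝 0) by
        simpa using (hBk.pow 2).mul hu.integral_sq)⟩
    rw [← integral_const_mul]
    refine integral_mono (by simpa only [sub_zero] using (hk k).integrable_sq)
      ((hu.mem k).integrable_sq.const_mul _) fun z => ?_
    simp only [sub_zero, mul_pow]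
    refine mul_le_mul_of_nonneg_right ?_ (sq_nonneg _)
    rw [← sq_abs]
    exact pow_le_pow_left₀ (abs_nonneg _) (hvb k z) 2
  have hc2 : ∀ k, ContDiff ℝ 2 (cfgCut k) := fun k => contDiff_cfgCut k
  have hval : SqLim volume φ f := cut1 hgl
  have hder : ∀ j a, SqLim volume (fun k => slotDeriv j a (φ k)) (D j a) := fun j a => by
    have h1 := (cut1 (hgd j a)).add (cut2 hgl
      (v := fun k => slotDeriv j a (cfgCut k))
      (fun k => continuous_slotDeriv ((hc2 k).of_le (by norm_num)) j a)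
      fun k z => (hB k j a z).1)
    simp only [add_zero] at h1
    exact h1.congr (fun k => Eventually.of_forall fun z => (sd_mul
      ((hc2 k).differentiable two_ne_zero z) ((hgs k).differentiable (by simp) z) j a).symm) .rfl
  have happ : Approx φ f D :=
    ⟨fun k => ⟨(hφs k).1.of_le (WithTop.coe_le_coe.2 le_top), (hφs k).2⟩, hval, hder⟩
  have hlapv : SqLim volume (fun k => lapN (φ k)) w := by
    have hcr := SqLim.sum Finset.univ fun j (_ : j ∈ Finset.univ) =>
      SqLim.sum Finset.univ fun a (_ : a ∈ Finset.univ) => cut2 (hgd j a)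
        (v := fun k => slotDeriv j a (cfgCut k))
        (fun k => continuous_slotDeriv ((hc2 k).of_le (by norm_num)) j a)
        fun k z => (hB k j a z).1
    have hcl := SqLim.sum Finset.univ fun j (_ : j ∈ Finset.univ) =>
      SqLim.sum Finset.univ fun a (_ : a ∈ Finset.univ) => cut2 hgl
        (v := fun k => slotDeriv j a (slotDeriv j a (cfgCut k)))
        (fun k => continuous_slotDeriv (contDiff_slotDeriv (hc2 k) (by norm_num) j a) j a)
        fun k z => (hB k j a z).2
    have h1 := ((cut1 hgL).add (hcr.smul 2)).add hcl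
    simp only [Finset.sum_const_zero, mul_zero, add_zero] at h1
    refine h1.congr (fun k => Eventually.of_forall fun z => ?_) .rfl
    rw [lapN_mul (hc2 k) ((hgs k).of_le (WithTop.coe_le_coe.2 le_top))]
    simp only [lapN, Finset.sum_mul]
  set δ : ℕ → ℝ := fun k => 1 / ((k : ℝ) + 1)
  have hδ0 : ∀ k, δ k ≠ 0 := fun k => by positivity
  have hδ : Tendsto δ atTop (𝓝 0) := tendsto_one_div_add_atTop_nhds_zero_nat
  have hres : SqLim volume (fun k => resid l lam (δ k) E (φ k)) fun _ => 0 := by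
    have hr := (hlapv.smul (-(1 / 2))).add
      ((happ.molPotR_mul (l := l) h0 h1 hδ0 hδ).sub (hval.smul E))
    refine hr.congr (fun k => Eventually.of_forall fun z => ?_) (Eventually.of_forall fun z => ?_)
    · simp only [resid]; ring
    · simp only [w]; ring
  have hev := hlapv.integral_sq.eventually_le_const
    (show ∫ z, w z ^ 2 < (∫ z, w z ^ 2) + 1 by linarith)
  obtain ⟨N, hN⟩ := eventually_atTop.1 hev
  have hns : StrictMono fun k : ℕ => k + N := fun a b hab => by
    simp only; omega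
  refine ⟨fun k => φ (k + N), fun k => δ (k + N),
    ⟨fun k => hφs _, fun k => hδ0 _, hδ.comp hns.tendsto_atTop, happ.subseq hns, ?_, fun k => ?_⟩⟩
  · simpa [Function.comp_def] using hres.tendsto.comp hns.tendsto_atTop
  · rw [hess_eq (hφs _).1 (hφs _).2]
    exact hN _ (by omega)

end Vale.Agent.P363.Inter
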