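import Vale.Agent.P363.Inter.Reg.Limit
import Vale.Agent.P363.Inter.Reg.AmpGrad
import Vale.Agent.P363.Inter.DensitySpec
import Vale.Agent.P363.Inter.Slice.Lower

/-!
P363, interacting side: what the slices contribute to the Laplacian of the density: bounds from
below by the ion with a distant charge and from above by the excited part.
-/

noncomputable section

namespace Vale.Agent.P363.Inter

open MeasureTheory Filter Set
open scoped BigOperators Topology

variable {l lam E E2 K M : ℝ} {f : Cfg 3 → ℝ} {D : Fin 3 → Fin 3 → Cfg 3 → ℝ}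
  {χ : Cfg 2 → ℝ} {Dχ : Fin 2 → Fin 3 → Cfg 2 → ℝ} {i : Fin 3} {x : Space}

/-- The gradient mass in the position of the electron singled out. -/
def sxP (i : Fin 3) (D : Fin 3 → Fin 3 → Cfg 3 → ℝ) (x : Space) : ℝ :=
  ∑ a, marg i (fun z => D i a z ^ 2) x

/-- The gradient mass in the positions of the others. -/
def syP (i : Fin 3) (D : Fin 3 → Fin 3 → Cfg 3 → ℝ) (x : Space) : ℝ :=
  ∑ k : Fin 2, ∑ a, marg i (fun z => D (i.succAbove k) a z ^ 2) x

/-- The main part of the defect. -/
def defBase (l lam E E2 : ℝ) (x : Space) : ℝ := E2 - E - attract l x + 2 * lam / ‖x‖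

lemma dMass_split (i : Fin 3) (D : Fin 3 → Fin 3 → Cfg 3 → ℝ) (x : Space) :
    dMass i D x = sxP i D x + syP i D x := Fin.sum_univ_succAbove _ i

lemma sxP_nonneg (i : Fin 3) (D : Fin 3 → Fin 3 → Cfg 3 → ℝ) (x : Space) : 0 ≤ sxP i D x :=
  Finset.sum_nonneg fun _ _ => marg_nonneg (fun _ => sq_nonneg _) i x

lemma syP_nonneg (i : Fin 3) (D : Fin 3 → Fin 3 → Cfg 3 → ℝ) (x : Space) : 0 ≤ syP i D x :=
  Finset.sum_nonneg fun _ _ => Finset.sum_nonneg fun _ _ => marg_nonneg (fun _ => sq_nonneg _) i x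

lemma repelN_ins_slice (i : Fin 3) (x : Space) (y : Cfg 2) :
    repelN i (i.insertNth x y : Cfg 3) = repel x y := by
  simp [repelN, repel]

/-- Repulsion from a fixed point is harmless on the energy space. -/
lemma InH1.repel_memLp {F : Cfg 2 → ℝ} {G : Fin 2 → Fin 3 → Cfg 2 → ℝ} (h : InH1 F G)
    (x : Space) : MemLp (fun y => repel x y * F y) 2 := by
  have hk : ∀ k : Fin 2, MemLp (fun y => F y / ‖y k - x‖) 2 := fun k => by
    simpa only [pole] using h.memLp_div k (c := fun _ => x) continuous_const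
  refine (memLp_finsetSum Finset.univ fun k _ => hk k).ae_eq (.of_forall fun y => ?_)
  simp only [repel, Finset.sum_mul]
  exact Finset.sum_congr rfl fun k _ => by rw [norm_sub_rev, one_div, inv_mul_eq_div]

/-- The repulsion from a fixed point by the kinetic energy. -/
lemma InH1.repel_le {F : Cfg 2 → ℝ} {G : Fin 2 → Fin 3 → Cfg 2 → ℝ} (h : InH1 F G) (x : Space) :
    ∫ y, repel x y * F y ^ 2 ≤ 2 * (∑ k, slotKin k G) + ∫ y, F y ^ 2 := by
  have hk : ∀ k : Fin 2, Integrable (fun y => (F y / ‖y k - x‖) ^ 2) ∧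
      ∫ y, (F y / ‖y k - x‖) ^ 2 ≤ 4 * slotKin k G := fun k => by
    simpa only [pole] using h.hardy k (c := fun _ => x) continuous_const
  have hi : Integrable fun y => repel x y * F y ^ 2 :=
    ((h.repel_memLp x).integrable_mul h.memLp).congr
      (.of_forall fun y => by simp only [Pi.mul_apply]; ring)
  have hR : Integrable fun y => (∑ k, (1 / 2) * (F y / ‖y k - x‖) ^ 2) + F y ^ 2 :=
    (integrable_finsetSum _ fun k _ => (hk k).1.const_mul _).add h.memLp.integrable_sq
  refine (integral_mono hi hR fun y => ?_).trans ?_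
  · simp only [repel, Fin.sum_univ_two, add_mul, one_div_mul_eq_div, norm_sub_rev x]
    have h1 := mul_div_le (F y) (norm_nonneg (y 0 - x)) (α := 1 / 2) (by norm_num)
    have h2 := mul_div_le (F y) (norm_nonneg (y 1 - x)) (α := 1 / 2) (by norm_num)
    norm_num at h1 h2
    linarith
  · rw [integral_add (integrable_finsetSum _ fun k _ => (hk k).1.const_mul _)
      h.memLp.integrable_sq, integral_finsetSum _ fun k _ => (hk k).1.const_mul _]
    simp only [integral_const_mul, Fin.sum_univ_two]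
    linarith [(hk 0).2, (hk 1).2]

/-- The potential of the ion from above. -/
lemma InH1.ion_pot_le {F : Cfg 2 → ℝ} {G : Fin 2 → Fin 3 → Cfg 2 → ℝ} (h : InH1 F G) (l : ℝ)
    (h1 : lam ≤ 1) :
    ∫ y, molPot l lam y * F y * F y ≤ 2 * slotKin 0 G + (∫ y, F y ^ 2) / 2 := by
  have hp : Integrable (fun y => (F y / ‖y 0 - y 1‖) ^ 2) ∧
      ∫ y, (F y / ‖y 0 - y 1‖) ^ 2 ≤ 4 * slotKin 0 G :=
    h.hardy 0 (c := fun y => y 0) (continuous_apply 0)
  have i2 := h.memLp.integrable_sq.const_mul (1 / 2 : ℝ)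
  refine (integral_mono ((h.molPot_memLp l lam).integrable_mul h.memLp)
    ((hp.1.const_mul (1 / 2)).add i2) fun y => ?_).trans ?_
  · have hm : molPot l lam y ≤ 1 / ‖y 0 - y 1‖ := by
      have ha0 := attract_nonneg' l (y 0)
      have ha1 := attract_nonneg' l (y 1)
      have hq : lam * (1 / ‖y 0 - y 1‖) ≤ 1 / ‖y 0 - y 1‖ :=
        mul_le_of_le_one_left (by positivity) h1
      have e0 : Finset.Ioi (0 : Fin 2) = {1} := by decide
      have e1 : Finset.Ioi (1 : Fin 2) = ∅ := by decide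
      simp [molPot, Fin.sum_univ_two, e0, e1]
      simp only [one_div] at hq
      linarith
    have h2 := mul_div_le (F y) (norm_nonneg (y 0 - y 1)) (α := 1 / 2) (by norm_num)
    have h3 := mul_le_mul_of_nonneg_right hm (sq_nonneg (F y))
    rw [one_div_mul_eq_div] at h3
    norm_num at h2
    simp only [Pi.mul_apply, Pi.add_apply]
    linarith
  · rw [integral_add' (hp.1.const_mul (1 / 2)) i2, integral_const_mul, integral_const_mul]
    linarith [hp.2]

/-- The right side of the equation in a slice. -/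
lemma InH1.marg_pot_eq (hH : InH1 f D) (l lam : ℝ) (i : Fin 3) :
    ∀ᵐ x, InH1 (slice i f x) (fun k a => slice i (D (i.succAbove k) a) x) ∧
      marg i (fun z => molPot l lam z * f z * f z) x =
        -attract l x * pMass i f x +
          (∫ y, molPot l lam y * slice i f x y * slice i f x y) +
          lam * ∫ y, repel x y * slice i f x y ^ 2 := by
  filter_upwards [hH.slices i] with x hx
  refine ⟨hx, ?_⟩
  set F := slice i f x
  have hF : InH1 F fun k a => slice i (D (i.succAbove k) a) x := hx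
  have i1 : Integrable fun y => -attract l x * F y ^ 2 :=
    hF.memLp.integrable_sq.const_mul _
  have i2 : Integrable fun y => molPot l lam y * F y * F y :=
    (hF.molPot_memLp l lam).integrable_mul hF.memLp
  have i3 : Integrable fun y => lam * (repel x y * F y ^ 2) :=
    (((hF.repel_memLp x).integrable_mul hF.memLp).congr
      (.of_forall fun y => by simp only [Pi.mul_apply]; ring)).const_mul lam
  have e : ∀ y, molPot l lam (i.insertNth x y : Cfg 3) * f (i.insertNth x y) *
      f (i.insertNth x y) = -attract l x * F y ^ 2 + molPot l lam y * F y * F y +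
        lam * (repel x y * F y ^ 2) := fun y => by
    rw [molPot_ins, repelN_ins_slice]; simp only [F, slice]; ring
  simp only [marg, e]
  rw [integral_add ?_ i3, integral_add i1 i2, integral_const_mul, integral_const_mul]
  · rfl
  · exact i1.add i2

/-- The ion with a distant charge bounds each slice from below. -/
theorem lnP_ge (hH : InH1 f D) (hion : ∀ x : Space, 1 ≤ ‖x‖ → ∀ ξ : Cfg 2 → ℝ, IsRealTest ξ →
    (E2 + 2 * lam / ‖x‖ - K * lam / ‖x‖ ^ 2) * ipN ξ ξ ≤
      formQ l lam ξ + lam * ∫ y, repel x y * ξ y ^ 2) (i : Fin 3) :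
    ∀ᵐ x : Space, 1 ≤ ‖x‖ → 2 * sxP i D x +
      4 * (defBase l lam E E2 x - K * lam / ‖x‖ ^ 2) * pMass i f x ≤ lnP l lam E i f D x := by
  obtain ⟨φ, hφ⟩ := hH
  obtain ⟨ns, hns, hx⟩ := hφ.exists_slices i
  filter_upwards [hx, hφ.inH1.marg_pot_eq l lam i] with x hx he hr
  obtain ⟨hF, he⟩ := he
  set F := slice i f x
  set G := fun k a => slice i (D (i.succAbove k) a) x
  have hlim := hx.tendsto_formQ l lam
  have h2 : SqLim volume (fun j y => repel x y * φ (ns j) (i.insertNth x y))
      fun y => repel x y * F y := by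
    have h := SqLim.sum Finset.univ fun (k : Fin 2) (_ : k ∈ Finset.univ) =>
      hx.div_pole k (c := fun _ => x) continuous_const
    refine h.congr (fun j => .of_forall fun y => ?_) (.of_forall fun y => ?_)
    all_goals
      simp only [pole, repel, Finset.sum_mul, F, slice]
      exact Finset.sum_congr rfl fun k _ => by rw [norm_sub_rev x, one_div, inv_mul_eq_div]
  have key : (E2 + 2 * lam / ‖x‖ - K * lam / ‖x‖ ^ 2) * (∫ y, F y ^ 2) ≤
      formH l lam F G + lam * ∫ y, repel x y * F y * F y := by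
    refine le_of_tendsto_of_tendsto' (hx.val.integral_sq.const_mul _)
      (hlim.add ((h2.integral_mul hx.val).const_mul lam)) fun j => ?_
    have := hion x hr _ (hx.c1 j).realTest
    simpa only [ipN, ← sq, mul_assoc] using this
  rw [formH, bform_eq hF hF, zero_mul, sub_zero] at key
  have eK : ∑ k, ∑ a, ∫ y, G k a y * G k a y = syP i D x := by
    simp only [syP, marg, G, slice, sq]
  have eP : ∫ y, F y ^ 2 = pMass i f x := rfl
  have e3 : ∫ y, repel x y * F y * F y = ∫ y, repel x y * F y ^ 2 := by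
    simp only [sq, mul_assoc]
  rw [eK, eP, e3] at key
  have hs := dMass_split i D x
  simp only [lnP, he, defBase]
  linarith

/-- The down slice from above. -/
theorem lnP_le (hH : InH1 f D) (h0 : 0 ≤ lam) (h1 : lam ≤ 1) (hE2 : |E2| ≤ M) (i : Fin 3) :
    ∀ᵐ x : Space, lnP l lam E i f D x ≤
      2 * sxP i D x + 4 * defBase l lam E E2 x * pMass i f x +
        20 * syP i D x + 4 * (M + 2) * pMass i f x := by
  filter_upwards [hH.marg_pot_eq l lam i] with x hx
  obtain ⟨hF, he⟩ := hx
  set F := slice i f x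
  set G := fun k a => slice i (D (i.succAbove k) a) x
  have eK : ∑ k, slotKin k G = syP i D x := by simp only [slotKin, syP, marg, G, slice]
  have eP : ∫ y, F y ^ 2 = pMass i f x := rfl
  have a1 := hF.ion_pot_le l h1
  have a2 := hF.repel_le x
  rw [eP] at a1 a2
  rw [eK] at a2
  have a3 : slotKin 0 G ≤ syP i D x := eK ▸ Finset.single_le_sum
    (f := fun k => slotKin k G)
    (fun k _ => Finset.sum_nonneg fun a _ => integral_nonneg fun y => sq_nonneg _)
    (Finset.mem_univ 0)
  have hP := pMass_nonneg i f x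
  have hy := syP_nonneg i D x
  have a4 : lam * ∫ y, repel x y * F y ^ 2 ≤ 2 * syP i D x + pMass i f x := by
    refine (mul_le_mul_of_nonneg_left a2 h0).trans (mul_le_of_le_one_left ?_ h1)
    linarith
  have hl : 0 ≤ 2 * lam / ‖x‖ * pMass i f x := by positivity
  have hm := mul_le_mul_of_nonneg_right (abs_le.1 hE2).1 hP
  have hs := dMass_split i D x
  simp only [lnP, he, defBase]
  linarith

/-- The up slice from above: the ion ground state and the rest. -/
theorem lnP_up (hH : InH1 f D) (hχ : IsLowest l lam (fun _ => True) E2 χ Dχ) (h0 : 0 ≤ lam)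
    (h1 : lam ≤ 1) (hE2 : |E2| ≤ M)
    (hrep : ∀ x : Space, 1 ≤ ‖x‖ → nrmN (fun y => (repel x y - 2 / ‖x‖) * χ y) ≤ K / ‖x‖ ^ 2) :
    ∀ᵐ x : Space, 1 ≤ ‖x‖ → lnP l lam E 0 f D x ≤
      2 * sxP 0 D x + 4 * defBase l lam E E2 x * pMass 0 f x +
        8 * |K| * lam / ‖x‖ ^ 2 * amp χ f x ^ 2 + 20 * ionKin 0 0 χ f D Dχ x +
        4 * (M + |K| + 2) * uPerp χ f x ^ 2 := by
  filter_upwards [hH.marg_pot_eq l lam 0] with x hx hr
  obtain ⟨hF, he⟩ := hx
  set F := slice 0 f x
  set G := fun k a => slice 0 (D ((0 : Fin 3).succAbove k) a) x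
  have hc := inH1_of_isFormLim hχ.lim
  set d := amp χ f x
  set θ := perp χ f x
  set T := fun k a y => G k a y - d * Dχ k a y
  have hθ : InH1 θ T := by
    obtain ⟨a, ha⟩ := hF
    obtain ⟨b, hb⟩ := hc
    exact (ha.sub (hb.smul d)).inH1
  have hχ0 : ∫ y, χ y ^ 2 = 1 := hχ.mass_one
  have hcF : Integrable fun y => χ y * F y := hc.memLp.integrable_mul hF.memLp
  have horth : ∫ y, χ y * θ y = 0 := by
    have e : ∀ y, χ y * θ y = χ y * F y - d * χ y ^ 2 := fun y => by
      simp only [θ, perp, F, d]; ring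
    simp only [e]
    rw [integral_sub hcF (hc.memLp.integrable_sq.const_mul d), integral_const_mul, hχ0, mul_one]
    exact sub_self _
  have hP : pMass 0 f x = d ^ 2 + ∫ y, θ y ^ 2 := by
    have e : ∀ y, F y ^ 2 = d ^ 2 * χ y ^ 2 + 2 * d * (χ y * θ y) + θ y ^ 2 := fun y => by
      simp only [θ, perp, F, d]; ring
    have i1 := hc.memLp.integrable_sq.const_mul (d ^ 2)
    have i2 : Integrable fun y => 2 * d * (χ y * θ y) :=
      (hc.memLp.integrable_mul hθ.memLp).const_mul _
    change ∫ y, F y ^ 2 = _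
    simp only [e]
    rw [integral_add ?_ hθ.memLp.integrable_sq, integral_add i1 i2, integral_const_mul,
      integral_const_mul, hχ0, horth]
    · ring
    · exact i1.add i2
  -- the form does not see the ground state
  have hb : bform l lam E2 F G F G = bform l lam E2 θ T θ T := by
    have b1 := IsLowest.bform_zero hχ hF
    have b2 := IsLowest.bform_zero hχ hc
    have j1 := integrable_bform hθ hθ l lam E2
    have j2 := (integrable_bform hc hF l lam E2).const_mul (2 * d)
    have j3 := (integrable_bform hc hc l lam E2).const_mul (-d ^ 2)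
    simp only [bform] at b1 b2 ⊢
    set u1 := fun y => (1 / 2 : ℝ) * ∑ i, ∑ a, T i a y * T i a y +
      (molPot l lam y - E2) * θ y * θ y
    set u2 := fun y => 2 * d * ((1 / 2 : ℝ) * ∑ i, ∑ a, Dχ i a y * G i a y +
      (molPot l lam y - E2) * χ y * F y)
    set u3 := fun y => -d ^ 2 * ((1 / 2 : ℝ) * ∑ i, ∑ a, Dχ i a y * Dχ i a y +
      (molPot l lam y - E2) * χ y * χ y)
    have j12 : Integrable fun y => u1 y + u2 y := j1.add j2
    have e : ∀ y, (1 / 2 : ℝ) * ∑ i, ∑ a, G i a y * G i a y +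
        (molPot l lam y - E2) * F y * F y = u1 y + u2 y + u3 y := fun y => by
      simp only [u1, u2, u3, T, θ, perp, Fin.sum_univ_two, Fin.sum_univ_three]
      simp only [F, d]
      ring
    rw [integral_congr_ae (.of_forall e), integral_add j12 j3, integral_add j1 j2]
    simp only [u2, u3, integral_const_mul, b1, b2]
    ring
  rw [bform_eq hF hF, bform_eq hθ hθ] at hb
  have eK : ∑ k, ∑ a, ∫ y, G k a y * G k a y = syP 0 D x := by
    simp only [syP, marg, G, slice, sq]
  have eT : ∑ k, ∑ a, ∫ y, T k a y * T k a y = ionKin 0 0 χ f D Dχ x := by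
    simp only [ionKin, weight, zero_mul, Real.exp_zero, one_mul, T, G, d, sq]
  have eT' : ∑ k, slotKin k T = ionKin 0 0 χ f D Dχ x := by
    rw [← eT]; simp only [slotKin, sq]
  have eP : ∫ y, F y * F y = pMass 0 f x := by simp only [pMass, marg, F, slice, sq]
  have eU : ∫ y, θ y * θ y = ∫ y, θ y ^ 2 := by simp only [sq]
  rw [eK, eT, eP, eU] at hb
  have hb' : (1 / 2 * syP 0 D x + ∫ y : Cfg 2, molPot l lam y * F y * F y) - E2 * pMass 0 f x =
      (1 / 2 * ionKin 0 0 χ f D Dχ x + ∫ y : Cfg 2, molPot l lam y * θ y * θ y) -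
        E2 * ∫ y, θ y ^ 2 := hb
  have hU : uPerp χ f x ^ 2 = ∫ y, θ y ^ 2 := by
    rw [uPerp, nrmN, ipN, Real.sq_sqrt (integral_nonneg fun y => mul_self_nonneg _)]
    simp only [θ, sq]
  have hU0 : 0 ≤ ∫ y, θ y ^ 2 := integral_nonneg fun y => sq_nonneg _
  have hk0 : 0 ≤ ionKin 0 0 χ f D Dχ x :=
    Finset.sum_nonneg fun _ _ => Finset.sum_nonneg fun _ _ => integral_nonneg fun _ => sq_nonneg _
  have a1 := hθ.ion_pot_le l h1
  have a2 := hθ.repel_le x
  rw [eT'] at a2
  have a3 : slotKin 0 T ≤ ionKin 0 0 χ f D Dχ x := eT' ▸ Finset.single_le_sum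
    (f := fun k => slotKin k T)
    (fun k _ => Finset.sum_nonneg fun a _ => integral_nonneg fun y => sq_nonneg _)
    (Finset.mem_univ 0)
  -- the repulsion, against its far field value
  set r := ‖x‖
  set v := fun y => (repel x y - 2 / r) * χ y
  have hv : MemLp v 2 :=
    ((hc.repel_memLp x).sub (hc.memLp.const_mul (2 / r))).ae_eq
      (.of_forall fun y => by simp only [v, Pi.sub_apply]; ring)
  have hvn : √(∫ y, v y ^ 2) ≤ |K| / r ^ 2 := by
    refine le_trans ?_ ((hrep x hr).trans (div_le_div_of_nonneg_right (le_abs_self K) (sq_nonneg r)))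
    simp only [nrmN, ipN, v, r, sq]
    exact le_rfl
  have hr2 : (1 : ℝ) ≤ r ^ 2 := one_le_pow₀ hr
  have hK0 : |K| / r ^ 2 ≤ |K| := div_le_self (abs_nonneg K) hr2
  have b1 : |∫ y, v y * χ y| ≤ |K| / r ^ 2 := by
    refine (abs_integral_mul_le hv hc.memLp).trans ?_
    rw [hχ0, Real.sqrt_one, mul_one]; exact hvn
  have b2 : |∫ y, v y * θ y| ≤ |K| / r ^ 2 * √(∫ y, θ y ^ 2) :=
    (abs_integral_mul_le hv hθ.memLp).trans (mul_le_mul_of_nonneg_right hvn (Real.sqrt_nonneg _))
  have iθ : Integrable fun y => repel x y * θ y ^ 2 :=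
    ((hθ.repel_memLp x).integrable_mul hθ.memLp).congr
      (.of_forall fun y => by simp only [Pi.mul_apply]; ring)
  have iF : Integrable fun y => repel x y * F y ^ 2 :=
    ((hF.repel_memLp x).integrable_mul hF.memLp).congr
      (.of_forall fun y => by simp only [Pi.mul_apply]; ring)
  have eR : (∫ y, repel x y * F y ^ 2) - 2 / r * pMass 0 f x =
      d ^ 2 * (∫ y, v y * χ y) + 2 * d * (∫ y, v y * θ y) + (∫ y, repel x y * θ y ^ 2) -
        2 / r * ∫ y, θ y ^ 2 := by
    have i1 : Integrable fun y => d ^ 2 * (v y * χ y) := (hv.integrable_mul hc.memLp).const_mul _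
    have i2 : Integrable fun y => 2 * d * (v y * θ y) := (hv.integrable_mul hθ.memLp).const_mul _
    have i12 : Integrable fun y => d ^ 2 * (v y * χ y) + 2 * d * (v y * θ y) := i1.add i2
    have i123 : Integrable fun y => d ^ 2 * (v y * χ y) + 2 * d * (v y * θ y) +
        repel x y * θ y ^ 2 := i12.add iθ
    change _ - 2 / r * ∫ y, F y ^ 2 = _
    rw [← integral_const_mul, ← integral_sub iF (hF.memLp.integrable_sq.const_mul _),
      ← integral_const_mul, ← integral_const_mul, ← integral_const_mul (2 / r),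
      ← integral_add i1 i2, ← integral_add i12 iθ,
      ← integral_sub i123 (hθ.memLp.integrable_sq.const_mul _)]
    refine integral_congr_ae (.of_forall fun y => ?_)
    simp only [v, θ, perp, F, d]
    ring
  have hr0 : 0 ≤ 2 / r * ∫ y, θ y ^ 2 := by positivity
  have hcross : d ^ 2 * (∫ y, v y * χ y) + 2 * d * (∫ y, v y * θ y) ≤
      2 * (|K| / r ^ 2) * d ^ 2 + |K| * ∫ y, θ y ^ 2 := by
    set s := √(∫ y, θ y ^ 2)
    have hs : s ^ 2 = ∫ y, θ y ^ 2 := Real.sq_sqrt hU0
    have hk : 0 ≤ |K| / r ^ 2 := by positivity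
    have c1 : d ^ 2 * (∫ y, v y * χ y) ≤ |K| / r ^ 2 * d ^ 2 := by
      rw [mul_comm]; exact mul_le_mul_of_nonneg_right (abs_le.1 b1).2 (sq_nonneg d)
    have c2 : 2 * d * (∫ y, v y * θ y) ≤ 2 * |d| * (|K| / r ^ 2 * s) := by
      refine (le_abs_self _).trans ?_
      rw [abs_mul, abs_mul, abs_two]
      exact mul_le_mul_of_nonneg_left b2 (by positivity)
    have c3 : 2 * |d| * (|K| / r ^ 2 * s) ≤ |K| / r ^ 2 * d ^ 2 + |K| / r ^ 2 * s ^ 2 := by
      nlinarith [mul_nonneg hk (sq_nonneg (|d| - s)), sq_abs d]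
    have c4 := mul_le_mul_of_nonneg_right hK0 (sq_nonneg s)
    rw [hs] at c3 c4
    linarith
  have hrep' : lam * (∫ y, repel x y * F y ^ 2) ≤ 2 * lam / r * pMass 0 f x +
      2 * |K| * lam / r ^ 2 * d ^ 2 + 2 * ionKin 0 0 χ f D Dχ x +
      (|K| + 1) * ∫ y, θ y ^ 2 := by
    have h' : (∫ y, repel x y * F y ^ 2) ≤ 2 / r * pMass 0 f x + 2 * (|K| / r ^ 2) * d ^ 2 +
        (2 * ionKin 0 0 χ f D Dχ x + (|K| + 1) * ∫ y, θ y ^ 2) := by linarith
    have h'' := mul_le_mul_of_nonneg_left h' h0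
    have h3 : lam * (2 * ionKin 0 0 χ f D Dχ x + (|K| + 1) * ∫ y, θ y ^ 2) ≤
        2 * ionKin 0 0 χ f D Dχ x + (|K| + 1) * ∫ y, θ y ^ 2 :=
      mul_le_of_le_one_left (by positivity) h1
    have e' : lam * (2 / r * pMass 0 f x + 2 * (|K| / r ^ 2) * d ^ 2) =
        2 * lam / r * pMass 0 f x + 2 * |K| * lam / r ^ 2 * d ^ 2 := by ring
    linarith
  have hm := mul_le_mul_of_nonneg_right (abs_le.1 hE2).1 hU0
  have hs := dMass_split 0 D x
  rw [hU]
  simp only [lnP, he, defBase, show ‖x‖ = r from rfl]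
  have t1 : 2 * syP 0 D x + 4 * (∫ y, molPot l lam y * F y * F y) ≤ 4 * E2 * pMass 0 f x +
      10 * ionKin 0 0 χ f D Dχ x + 2 * (∫ y, θ y ^ 2) + 4 * M * ∫ y, θ y ^ 2 := by linarith
  have t2 : 4 * lam * (∫ y, repel x y * F y ^ 2) ≤ 8 * lam / r * pMass 0 f x +
      8 * |K| * lam / r ^ 2 * d ^ 2 + 8 * ionKin 0 0 χ f D Dχ x +
      4 * (|K| + 1) * ∫ y, θ y ^ 2 := by linear_combination 4 * hrep'
  linear_combination t1 + t2 + 2 * hs + 2 * hk0 + 2 * hU0

end Vale.Agent.P363.Inter
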