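import Vale.Agent.P363.Inter.Reg.Density
import Vale.Agent.P363.Inter.Reg.Defect

/-!
P363, interacting side: the statement on the density, from the bounds on the repulsion and the
ion with a distant charge.
-/

noncomputable section

namespace Vale.Agent.P363.Inter

open MeasureTheory Filter Set Metric
open scoped BigOperators Topology

lemma integral_sub_smul_sq {Y : Type*} [MeasurableSpace Y] {μ : Measure Y} {F G : Y → ℝ}
    (hF : MemLp F 2 μ) (hG : MemLp G 2 μ) (c : ℝ) :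
    ∫ y, (G y - c * F y) ^ 2 ∂μ =
      (∫ y, G y ^ 2 ∂μ) - 2 * c * (∫ y, F y * G y ∂μ) + c ^ 2 * ∫ y, F y ^ 2 ∂μ := by
  have i2 : Integrable (fun y => 2 * c * (F y * G y)) μ := (hF.integrable_mul hG).const_mul _
  have i12 : Integrable (fun y => G y ^ 2 - 2 * c * (F y * G y)) μ := hG.integrable_sq.sub i2
  rw [← integral_const_mul, ← integral_const_mul, ← integral_sub hG.integrable_sq i2,
    ← integral_add i12 (hF.integrable_sq.const_mul _)]
  exact integral_congr_ae (.of_forall fun y => by ring)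

variable {f : Cfg 3 → ℝ} {D : Fin 3 → Fin 3 → Cfg 3 → ℝ} {χ : Cfg 2 → ℝ}
  {Dχ : Fin 2 → Fin 3 → Cfg 2 → ℝ} {x : Space}

/-- The gradient part of the defect: nonnegative, and small up to what the excited part costs. -/
lemma grad_defect (hF : ∀ i, MemLp (slice i f x) 2) (hG : ∀ i a, MemLp (slice i (D i a) x) 2)
    (hc : MemLp χ 2) (hθ : MemLp (perp χ f x) 2) {n : ℝ}
    (hn : n = 2 * pMass 0 f x + pMass 2 f x) (hn0 : 0 < n) :
    (∑ a, densGrad f D a x ^ 2) / (8 * n ^ 2) ≤ (2 * sxP 0 D x + sxP 2 D x) / (2 * n) ∧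
      ∀ gd : Fin 3 → Space → ℝ, amp χ f x ≠ 0 →
        (2 * sxP 0 D x + sxP 2 D x) / (2 * n) - (∑ a, densGrad f D a x ^ 2) / (8 * n ^ 2) ≤
          (2 * (∑ a, ∫ y, (slice 0 (D 0 a) x y - gd a x * χ y) ^ 2) + sxP 2 D x +
            (∑ a, (gd a x / amp χ f x) ^ 2) *
              (2 * uPerp χ f x ^ 2 + uDown f x ^ 2)) / n := by
  set S := fun a => 2 * (∫ y, slice 0 (D 0 a) x y ^ 2) + ∫ y, slice 2 (D 2 a) x y ^ 2
  set b := fun a => 2 * (∫ y, slice 0 f x y * slice 0 (D 0 a) x y) +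
    ∫ y, slice 2 f x y * slice 2 (D 2 a) x y
  have hb : ∀ a, densGrad f D a x = 2 * b a := fun a => by
    simp only [densGrad, gnP, marg, b, slice]; ring
  have hS : 2 * sxP 0 D x + sxP 2 D x = ∑ a, S a := by
    simp only [S, Finset.sum_add_distrib, ← Finset.mul_sum]
    rfl
  have hid : ∀ a c, 2 * (∫ y, (slice 0 (D 0 a) x y - c * slice 0 f x y) ^ 2) +
      ∫ y, (slice 2 (D 2 a) x y - c * slice 2 f x y) ^ 2 = S a - 2 * c * b a + c ^ 2 * n :=
    fun a c => by
      rw [integral_sub_smul_sq (hF 0) (hG 0 a), integral_sub_smul_sq (hF 2) (hG 2 a), hn]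
      simp only [S, b, pMass, marg, slice]
      ring
  have e2 : ∀ a, densGrad f D a x ^ 2 / (8 * n ^ 2) = b a ^ 2 / (2 * n ^ 2) := fun a => by
    rw [hb]; ring
  constructor
  · rw [hS, Finset.sum_div, Finset.sum_div]
    refine Finset.sum_le_sum fun a _ => ?_
    have hnn : 0 ≤ S a - 2 * (b a / n) * b a + (b a / n) ^ 2 * n := by
      rw [← hid]
      exact add_nonneg (mul_nonneg zero_le_two (integral_nonneg fun y => sq_nonneg _))
        (integral_nonneg fun y => sq_nonneg _)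
    have e : S a - 2 * (b a / n) * b a + (b a / n) ^ 2 * n = S a - b a ^ 2 / n := by
      field_simp; ring
    rw [e2, show b a ^ 2 / (2 * n ^ 2) = b a ^ 2 / n / (2 * n) by field_simp]
    exact div_le_div_of_nonneg_right (by linarith) (by positivity)
  intro gd hd
  set d := amp χ f x
  set θ := perp χ f x
  have hU : uPerp χ f x ^ 2 = ∫ y, θ y ^ 2 := by
    rw [uPerp, nrmN, ipN, Real.sq_sqrt (integral_nonneg fun y => mul_self_nonneg _)]
    simp only [θ, sq]
  have hV : uDown f x ^ 2 = ∫ y, slice 2 f x y ^ 2 := by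
    rw [uDown, nrmN, ipN, Real.sq_sqrt (integral_nonneg fun y => mul_self_nonneg _)]
    simp only [sq]
  rw [hS, Finset.sum_div, Finset.sum_div, ← Finset.sum_sub_distrib, hU, hV, Finset.sum_mul,
    Finset.mul_sum, sxP, ← Finset.sum_add_distrib, ← Finset.sum_add_distrib, Finset.sum_div]
  refine Finset.sum_le_sum fun a _ => ?_
  set c := gd a x / d
  set G := slice 0 (D 0 a) x
  set G' := slice 2 (D 2 a) x
  have h0 : ∫ y, (G y - c * slice 0 f x y) ^ 2 ≤
      2 * (∫ y, (G y - gd a x * χ y) ^ 2) + 2 * c ^ 2 * ∫ y, θ y ^ 2 := by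
    have i1 := (((hG 0 a).sub (hc.const_mul (gd a x))).integrable_sq).const_mul (2 : ℝ)
    have i2 := hθ.integrable_sq.const_mul (2 * c ^ 2)
    simp only [Pi.sub_apply] at i1
    rw [← integral_const_mul, ← integral_const_mul, ← integral_add i1 i2]
    refine integral_mono ((hG 0 a).sub ((hF 0).const_mul c)).integrable_sq (i1.add i2) fun y => ?_
    have e : G y - c * slice 0 f x y = (G y - gd a x * χ y) - c * θ y := by
      have hcd : c * d = gd a x := div_mul_cancel₀ _ hd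
      simp only [θ, perp]
      linear_combination -(χ y) * hcd
    rw [e]
    nlinarith [sq_nonneg ((G y - gd a x * χ y) + c * θ y)]
  have h2 : ∫ y, (G' y - c * slice 2 f x y) ^ 2 ≤
      2 * (∫ y, G' y ^ 2) + 2 * c ^ 2 * ∫ y, slice 2 f x y ^ 2 := by
    have i1 := (hG 2 a).integrable_sq.const_mul (2 : ℝ)
    have i2 := (hF 2).integrable_sq.const_mul (2 * c ^ 2)
    rw [← integral_const_mul, ← integral_const_mul, ← integral_add i1 i2]
    refine integral_mono ((hG 2 a).sub ((hF 2).const_mul c)).integrable_sq (i1.add i2) fun y => ?_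
    nlinarith [sq_nonneg (G' y + c * slice 2 f x y)]
  have hi := hid a c
  have e3 : S a / (2 * n) - b a ^ 2 / (2 * n ^ 2) =
      (S a - 2 * c * b a + c ^ 2 * n) / (2 * n) - (c * n - b a) ^ 2 / (2 * n ^ 2) := by
    field_simp; ring
  rw [e2, e3]
  refine (sub_le_self _ (by positivity)).trans ?_
  have eG : marg 2 (fun z => D 2 a z ^ 2) x = ∫ y, G' y ^ 2 := rfl
  rw [eG, div_le_div_iff₀ (by positivity) hn0]
  have h3 : S a - 2 * c * b a + c ^ 2 * n ≤ 2 * (2 * (∫ y, (G y - gd a x * χ y) ^ 2) +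
      (∫ y, G' y ^ 2) + c ^ 2 * (2 * (∫ y, θ y ^ 2) + ∫ y, slice 2 f x y ^ 2)) := by
    rw [← hi]; linarith
  linarith [mul_le_mul_of_nonneg_right h3 hn0.le]

/-- Arithmetic of the lower bound. -/
lemma defect_low {n A G L base k : ℝ} (hn : 0 < n) (hG : G ≤ A / (2 * n))
    (hL : 2 * A + 4 * (base - k) * n ≤ L) : base - k ≤ L / (4 * n) - G := by
  have h : A / (2 * n) + (base - k) ≤ L / (4 * n) := by
    rw [le_div_iff₀ (by linarith : (0 : ℝ) < 4 * n)]
    have e : (A / (2 * n) + (base - k)) * (4 * n) = 2 * A + 4 * (base - k) * n := by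
      field_simp; ring
    rw [e]; exact hL
  linarith

/-- Arithmetic of the upper bound. -/
lemma defect_up {n A G L base κ d U V W kX kI sx sy M a K : ℝ} (hn : n = 2 * (d ^ 2 + U) + V)
    (hd : d ≠ 0) (hκ : 0 ≤ κ) (hU : 0 ≤ U) (hV : 0 ≤ V) (hW : 0 ≤ W) (hX : 0 ≤ kX) (hI : 0 ≤ kI)
    (hx : 0 ≤ sx) (hy : 0 ≤ sy) (hM : 0 ≤ M) (ha : 0 ≤ a)
    (hL : L ≤ 2 * A + 4 * base * n + 16 * a * κ * d ^ 2 + 40 * kI + 8 * (M + a + 2) * U +
      20 * sy + 4 * (M + 2) * V)
    (hG : A / (2 * n) - G ≤ (2 * kX + sx + W / d ^ 2 * (2 * U + V)) / n)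
    (hK : 2 * (M + a + 2) + 12 ≤ K) :
    L / (4 * n) - G ≤ base + K * κ +
      K * ((kX + kI + (sx + sy) + U + V) / d ^ 2 + (U + V) * W / d ^ 4) := by
  have hd2 : 0 < d ^ 2 := by positivity
  have hnd : 2 * d ^ 2 ≤ n := by linarith
  have hn0 : 0 < n := by linarith
  set Q := kX + kI + (sx + sy) + U + V
  set C' := 2 * (M + a + 2) + 10
  have hQ : 0 ≤ Q := by positivity
  have hC' : 0 ≤ C' := by positivity
  have h5 : L / (4 * n) ≤ A / (2 * n) + base + 4 * a * κ * (d ^ 2 / n) + C' * (Q / n) := by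
    rw [div_le_iff₀ (by linarith : (0 : ℝ) < 4 * n)]
    have e : (A / (2 * n) + base + 4 * a * κ * (d ^ 2 / n) + C' * (Q / n)) * (4 * n) =
        2 * A + 4 * base * n + 16 * a * κ * d ^ 2 + 4 * C' * Q := by field_simp; ring
    rw [e]
    have t : 0 ≤ M + a + 2 := by positivity
    have c1 : 40 * kI + 8 * (M + a + 2) * U + 20 * sy + 4 * (M + 2) * V ≤ 4 * C' * Q := by
      simp only [C', Q]
      linear_combination 8 * mul_nonneg t hX + 8 * mul_nonneg t hI + 8 * mul_nonneg t hx +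
        8 * mul_nonneg t hy + 4 * mul_nonneg t hV + 40 * hX + 40 * hx + 20 * hy + 40 * hV +
        40 * hU + 4 * mul_nonneg ha hV
    linarith
  have h7 : 4 * a * κ * (d ^ 2 / n) ≤ K * κ := by
    have hdn : d ^ 2 / n ≤ 1 / 2 := by rw [div_le_iff₀ hn0]; linarith
    have hk : 0 ≤ 4 * a * κ := by positivity
    refine (mul_le_mul_of_nonneg_left hdn hk).trans ?_
    rw [show 4 * a * κ * (1 / 2) = 2 * a * κ by ring]
    exact mul_le_mul_of_nonneg_right (by linarith) hκ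
  have hz : ∀ {B : ℝ}, 0 ≤ B → B / n ≤ B / d ^ 2 := fun {B} hB =>
    div_le_div_of_nonneg_left hB hd2 (by linarith)
  have t0 : 0 ≤ W / d ^ 2 := by positivity
  have t1 : 2 * kX + sx + W / d ^ 2 * (2 * U + V) ≤ 2 * (Q + W / d ^ 2 * (U + V)) := by
    simp only [Q]
    linear_combination mul_nonneg t0 hV + 2 * hI + hx + 2 * hy + 2 * hU + 2 * hV
  have b1 := mul_le_mul_of_nonneg_left (hz hQ) hC'
  have b2 := (div_le_div_of_nonneg_right t1 hn0.le).trans
    (hz (by positivity : 0 ≤ 2 * (Q + W / d ^ 2 * (U + V))))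
  have e : 2 * (Q + W / d ^ 2 * (U + V)) / d ^ 2 =
      2 * (Q / d ^ 2) + 2 * ((U + V) * W / d ^ 4) := by ring
  have q1 : 0 ≤ Q / d ^ 2 := by positivity
  have q2 : 0 ≤ (U + V) * W / d ^ 4 := by positivity
  have k1 := mul_le_mul_of_nonneg_right (show C' + 2 ≤ K by linarith) q1
  have k2 := mul_le_mul_of_nonneg_right (show (2 : ℝ) ≤ K by linarith) q2
  linarith

/-- The density of a molecular state is regular and its defect is controlled. -/
theorem densityStmt (hR : RepelStmt) (hI : IonFarStmt) : DensityStmt := by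
  intro l g u Dg Du eg eu e' hZ C
  obtain ⟨lr, εr, Kr, hlr, -, hr⟩ := hR l g u Dg Du eg eu e' hZ C
  obtain ⟨li, Ki, hli, hi⟩ := hI l g u Dg Du eg eu e' hZ C
  set M := |2 * eg + eu| + |2 * eg| + |C|
  obtain ⟨K0, R₁, hR₁, hreg⟩ := densityReg l M
  set K := |K0| + |Ki| + (2 * (M + |Kr| + 2) + 12)
  have hM : 0 ≤ M := by positivity
  refine ⟨min 1 (min lr li), K, R₁, lt_min one_pos (lt_min hlr hli), hR₁, ?_⟩
  intro lam hlam E3 f D E2 χ Dχ Es χs Ds Et χt Dt hst
  obtain ⟨hl0, hl1⟩ := hlam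
  simp only [lt_min_iff] at hl1
  have h0 : 0 ≤ lam := hl0.le
  have h1 : lam ≤ 1 := hl1.1.le
  have hR' := hr lam ⟨hl0, hl1.2.1⟩ E3 f D E2 χ Dχ Es χs Ds Et χt Dt hst
  have hI' := hi lam ⟨hl0, hl1.2.2⟩ E3 f D E2 χ Dχ Es χs Ds Et χt Dt hst
  have hCl : C * lam ≤ |C| :=
    (mul_le_mul_of_nonneg_right (le_abs_self C) h0).trans (mul_le_of_le_one_right (abs_nonneg C) h1)
  have hE : |E3| ≤ M := abs_le.2
    ⟨by linarith [hst.three.energy_ge, neg_abs_le (2 * eg + eu), abs_nonneg (2 * eg), abs_nonneg C],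
      by linarith [hst.three.energy_le, le_abs_self (2 * eg + eu), abs_nonneg (2 * eg)]⟩
  have hE2 : |E2| ≤ M := abs_le.2
    ⟨by linarith [hst.ion.energy_ge, neg_abs_le (2 * eg), abs_nonneg (2 * eg + eu), abs_nonneg C],
      by linarith [hst.ion.energy_le, le_abs_self (2 * eg), abs_nonneg (2 * eg + eu)]⟩
  have hlow := hst.three.lowest
  have hH := inH1_of_isFormLim hlow.lim
  have hc := inH1_of_isFormLim hst.ion.lowest.lim
  obtain ⟨n, hnc, hnb, hnae, hgrad, hpois, hg6, hl2, hcpt, hfar, hlip⟩ :=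
    hreg lam E3 f D Anti01 h0 h1 hE hlow
  have hK0 : K0 ≤ K := by
    linarith [le_abs_self K0, abs_nonneg Ki, abs_nonneg Kr]
  have hn0 : ∀ x, 0 ≤ ∫ z in ball x 3, n z := fun x => integral_nonneg fun z => (hnb z).1
  refine ⟨n, densGrad f D, gdAmp χ D, densLap l lam E3 f D, hnc,
    fun x => ⟨(hnb x).1, (hnb x).2.trans hK0⟩, by rw [molDensity_eq]; exact hnae, hgrad, hpois, hc.weakGrad_amp hH, hg6, hl2,
    hcpt, fun x hx => ?_, fun x y hx hy => (hlip x y hx hy).trans ?_, ?_⟩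
  · filter_upwards [hfar x hx] with y hy hy'
    exact (hy hy').trans (mul_le_mul_of_nonneg_right hK0 (hn0 x))
  · exact mul_le_mul_of_nonneg_right
      (mul_le_mul_of_nonneg_right hK0 (Real.sqrt_nonneg _)) dist_nonneg
  have hlo : ∀ x : Space, 1 ≤ ‖x‖ → ∀ ξ : Cfg 2 → ℝ, IsRealTest ξ →
      (E2 + 2 * lam / ‖x‖ - Ki * lam / ‖x‖ ^ 2) * ipN ξ ξ ≤
        formQ l lam ξ + lam * ∫ y, repel x y * ξ y ^ 2 := fun x hx ξ hξ => (hI' x hx ξ hξ).1
  have hrep : ∀ x : Space, 1 ≤ ‖x‖ →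
      nrmN (fun y => (repel x y - 2 / ‖x‖) * χ y) ≤ Kr / ‖x‖ ^ 2 := fun x hx =>
    ((hR'.2 x).1 χ (List.mem_cons_self)).2.2 hx
  filter_upwards [hnae, lnP_ge (E := E3) hH hlo 0, lnP_ge (E := E3) hH hlo 2,
    lnP_up (E := E3) hH hst.ion.lowest h0 h1 hE2 hrep, lnP_le (E := E3) (E2 := E2) hH h0 h1 hE2 2,
    ae_all_iff.2 fun i => memLp_slices i hH.memLp,
    ae_all_iff.2 fun i => ae_all_iff.2 fun a => memLp_slices i (hH.grad_memLp i a)]
    with x hxn l0 l2 u0 u2 sF sG hx hnpos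
  have hx1 : 1 ≤ ‖x‖ := hR₁.trans hx
  have hn : n x = 2 * pMass 0 f x + pMass 2 f x := hxn
  have hθ : MemLp (perp χ f x) 2 := (sF 0).sub (hc.memLp.const_mul (amp χ f x))
  obtain ⟨g1, g2⟩ := grad_defect (χ := χ) sF sG hc.memLp hθ hn hnpos
  intro base X
  have hr2 : 0 ≤ lam / ‖x‖ ^ 2 := by positivity
  have eln : densLap l lam E3 f D x = 2 * lnP l lam E3 0 f D x + lnP l lam E3 2 f D x := rfl
  have ebase : defBase l lam E3 E2 x = base := rfl
  constructor
  · have hK : Ki * (lam / ‖x‖ ^ 2) ≤ K * (lam / ‖x‖ ^ 2) :=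
      mul_le_mul_of_nonneg_right (by linarith [le_abs_self Ki, abs_nonneg K0, abs_nonneg Kr]) hr2
    have a := l0 hx1
    have b := l2 hx1
    rw [ebase, mul_div_assoc Ki] at a b
    have k := mul_le_mul_of_nonneg_right hK hnpos.le
    rw [mul_div_assoc K]
    refine defect_low hnpos g1 ?_
    rw [eln, hn] at *
    linear_combination 2 * a + b + 4 * k
  intro hd
  have h6 := g2 (gdAmp χ D) hd
  have hV : pMass 2 f x = uDown f x ^ 2 := by
    simp only [uDown, nrmN, ipN]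
    rw [Real.sq_sqrt (integral_nonneg fun y => mul_self_nonneg _)]
    simp only [pMass, marg, slice, sq]
  have hP0 : pMass 0 f x = amp χ f x ^ 2 + uPerp χ f x ^ 2 := by
    have h := integral_sub_smul_sq hc.memLp (sF 0) (amp χ f x)
    rw [hst.ion.lowest.mass_one] at h
    have h' : ∫ y, perp χ f x y ^ 2 = (∫ y, slice 0 f x y ^ 2) -
        2 * amp χ f x * amp χ f x + amp χ f x ^ 2 * 1 := h
    simp only [uPerp, nrmN, ipN]
    rw [Real.sq_sqrt (integral_nonneg fun y => mul_self_nonneg _)]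
    simp only [← sq]
    change ∫ y, slice 0 f x y ^ 2 = _
    linarith
  have hsum : (∑ a, (gdAmp χ D a x / amp χ f x) ^ 2) =
      (∑ a, gdAmp χ D a x ^ 2) / amp χ f x ^ 2 := by simp only [div_pow, Finset.sum_div]
  rw [hsum] at h6
  have ekD : kinDown D x = sxP 2 D x + syP 2 D x := dMass_split 2 D x
  rw [ekD, show kinPerp χ f D Dχ (gdAmp χ D) x =
    (∑ a, ∫ y, (slice 0 (D 0 a) x y - gdAmp χ D a x * χ y) ^ 2) + ionKin 0 0 χ f D Dχ x from rfl,
    mul_div_assoc K]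
  have a := u0 hx1
  rw [ebase, mul_div_assoc (8 * |Kr|)] at a
  rw [ebase, hV] at u2
  have hnU : n x = 2 * (amp χ f x ^ 2 + uPerp χ f x ^ 2) + uDown f x ^ 2 := by rw [hn, hP0, hV]
  refine defect_up (M := M) (a := |Kr|) hnU hd hr2 (sq_nonneg _) (sq_nonneg _)
    (Finset.sum_nonneg fun _ _ => sq_nonneg _)
    (Finset.sum_nonneg fun _ _ => integral_nonneg fun _ => sq_nonneg _)
    (Finset.sum_nonneg fun _ _ => Finset.sum_nonneg fun _ _ => integral_nonneg fun _ => sq_nonneg _)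
    (sxP_nonneg 2 D x) (syP_nonneg 2 D x) hM (abs_nonneg Kr) ?_ h6
    (by linarith [abs_nonneg K0, abs_nonneg Ki])
  rw [eln, hn, hV]
  linear_combination 2 * a + u2

end Vale.Agent.P363.Inter
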