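import Vale.Agent.P363.Inter.Reg.Limit

/-!
P363, interacting side: the density, its gradient and Laplacian as combinations of slice masses,
and what is to be proved about their regularity.
-/

noncomputable section

namespace Vale.Agent.P363.Inter

open MeasureTheory Filter Metric
open scoped BigOperators Topology

/-- The density as a combination of slice masses. -/
def dens (f : Cfg 3 → ℝ) (x : Space) : ℝ := 2 * pMass 0 f x + pMass 2 f x

/-- Its gradient. -/
def densGrad (f : Cfg 3 → ℝ) (D : Fin 3 → Fin 3 → Cfg 3 → ℝ) (a : Fin 3) (x : Space) : ℝ :=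
  2 * gnP 0 f D a x + gnP 2 f D a x

/-- Its Laplacian. -/
def densLap (l lam E : ℝ) (f : Cfg 3 → ℝ) (D : Fin 3 → Fin 3 → Cfg 3 → ℝ) (x : Space) : ℝ :=
  2 * lnP l lam E 0 f D x + lnP l lam E 2 f D x

/-- The regular representative and its local bounds, uniformly in state and coupling. -/
def DensityRegStmt : Prop :=
  ∀ l M : ℝ, ∃ K R₁ : ℝ, 1 ≤ R₁ ∧
    ∀ (lam E : ℝ) (f : Cfg 3 → ℝ) (D : Fin 3 → Fin 3 → Cfg 3 → ℝ) (P : (Cfg 3 → ℝ) → Prop),
      0 ≤ lam → lam ≤ 1 → |E| ≤ M → IsLowest l lam P E f D →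
      ∃ n : Space → ℝ, Continuous n ∧ (∀ x, 0 ≤ n x ∧ n x ≤ K) ∧ n =ᵐ[volume] dens f ∧
        HasWeakGrad Set.univ n (densGrad f D) ∧
        WeakPoisson Set.univ n (densLap l lam E f D) ∧
        (∀ (i : Fin 3) (R : ℝ), MemLp (densGrad f D i) 6 (volume.restrict (ball 0 R))) ∧
        (∀ R : ℝ, MemLp (densLap l lam E f D) 2 (volume.restrict (ball 0 R))) ∧
        (∀ K' : Set Space, IsCompact K' → Disjoint K' {nuc l, -nuc l} →
          ∃ B, ∀ᵐ x : Space, x ∈ K' → |densLap l lam E f D x| ≤ B) ∧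
        (∀ x, R₁ ≤ ‖x‖ → ∀ᵐ y : Space, y ∈ ball x 1 →
          |densLap l lam E f D y| ≤ K * ∫ z in ball x 3, n z) ∧
        ∀ x y, R₁ ≤ ‖x‖ → dist x y ≤ 1 →
          |Real.sqrt (n x) - Real.sqrt (n y)| ≤ K * Real.sqrt (∫ z in ball x 3, n z) * dist x y

end Vale.Agent.P363.Inter
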