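import Vale.Agent.P363.Inter.Reg.Sup
import Vale.Agent.P363.Inter.Reg.DensDefs
import Vale.Agent.P363.Inter.Defs
import Vale.Agent.P363.Tool.YukReg
import Vale.Agent.P363.Tool.SqrtLipschitz

/-!
P363, interacting side: the density of a lowest state has a continuous representative with a
Laplacian bounded off the nuclei and, far away, by the mass nearby; its root is Lipschitz.
-/

noncomputable section

namespace Vale.Agent.P363.Inter

open MeasureTheory Filter Set Metric
open scoped BigOperators Topology ENNReal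

lemma molDensity_eq (f : Cfg 3 → ℝ) : molDensity f = dens f := by
  funext x
  simp [molDensity, dens, pMass, marg, ipN, slice, sq]

/-- Continuous representatives with a uniform bound. -/
lemma exists_rep : ∃ C : ℝ, 0 ≤ C ∧ ∀ f h : Space → ℝ, WeakPoisson univ f h → Integrable f →
    MemLp h 2 → ∃ g : Space → ℝ, Continuous g ∧ g =ᵐ[volume] f ∧
      ∀ x, |g x| ≤ C * ((∫ y, |f y|) + (eLpNorm h 2 volume).toReal) := by
  obtain ⟨α, -, hα⟩ := Yuk.localHolder 2 (by norm_num)
  obtain ⟨C, hC⟩ := hα 1 2 one_pos one_lt_two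
  refine ⟨|C|, abs_nonneg C, fun f h e hf hh => ?_⟩
  have hh' : ∀ x₀, MemLp h (ENNReal.ofReal 2) (volume.restrict (ball x₀ 2)) := fun x₀ => by
    rw [ENNReal.ofReal_ofNat]; exact hh.restrict _
  choose g hg hge hgb _ using fun x₀ : Space =>
    hC x₀ f h (e.mono (subset_univ _)) hf.integrableOn (hh' x₀)
  set g' : Space → ℝ := fun x => g x x
  have heq : ∀ x₀, ∀ x ∈ ball x₀ 1, g' x = g x₀ x := fun x₀ x hx =>
    Measure.eqOn_open_of_ae_eq (((hge x).filter_mono
        (ae_mono (Measure.restrict_mono inter_subset_left le_rfl))).symm.trans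
      ((hge x₀).filter_mono (ae_mono (Measure.restrict_mono inter_subset_right le_rfl))))
      (isOpen_ball.inter isOpen_ball) (hg x).continuousOn (hg x₀).continuousOn
      ⟨mem_ball_self one_pos, hx⟩
  refine ⟨g', continuous_iff_continuousAt.2 fun x => ?_, ?_, fun x => ?_⟩
  · exact (hg x).continuousAt.congr (eventually_of_mem
      (isOpen_ball.mem_nhds (mem_ball_self one_pos)) fun y hy => (heq x y hy).symm)
  · filter_upwards [ae_all_iff.2 fun k : ℕ => (ae_restrict_iff' measurableSet_ball).1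
      (hge (TopologicalSpace.denseSeq Space k))] with x hx
    obtain ⟨k, hk⟩ := (TopologicalSpace.denseRange_denseSeq Space).exists_dist_lt x one_pos
    rw [heq _ x (mem_ball.2 hk), hx k (mem_ball.2 hk)]
  · refine (hgb x x (mem_ball_self one_pos)).trans ?_
    have h0 : 0 ≤ ballData (ENNReal.ofReal 2) x 2 f h :=
      add_nonneg (integral_nonneg fun _ => abs_nonneg _) ENNReal.toReal_nonneg
    refine (mul_le_mul_of_nonneg_right (le_abs_self C) h0).trans
      (mul_le_mul_of_nonneg_left (add_le_add (setIntegral_le_integral hf.abs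
        (.of_forall fun _ => abs_nonneg _)) ?_) (abs_nonneg C))
    rw [ENNReal.ofReal_ofNat]
    exact ENNReal.toReal_mono hh.eLpNorm_ne_top (eLpNorm_mono_measure _ Measure.restrict_le_self)

lemma norm_nuc_abs (l : ℝ) : ‖nuc l‖ = |l| := by simp [nuc, norm_smul, norm_unit3]

lemma attr_bounds {l d : ℝ} (hd : 0 < d) {x : Space} (h1 : d ≤ ‖x - nuc l‖)
    (h2 : d ≤ ‖x + nuc l‖) : attract l x ≤ 2 / d ∧ ∀ δ, attrSq l δ x ≤ 2 / d ^ 2 := by
  have q : ∀ δ (w : Space), d ≤ ‖w‖ → qinv δ w ≤ 1 / d ^ 2 := fun δ w hw => by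
    rw [qinv, one_div]
    exact inv_anti₀ (by positivity) (by nlinarith [sq_nonneg δ])
  refine ⟨?_, fun δ => ?_⟩
  · have := add_le_add (one_div_le_one_div_of_le hd h1) (one_div_le_one_div_of_le hd h2)
    simp only [attract]
    rw [show (2 : ℝ) / d = 1 / d + 1 / d by ring]
    exact this
  · simp only [attrSq]
    rw [show (2 : ℝ) / d ^ 2 = 1 / d ^ 2 + 1 / d ^ 2 by ring]
    exact add_le_add (q δ _ h1) (q δ _ h2)

variable {l lam E M : ℝ} {f : Cfg 3 → ℝ} {D : Fin 3 → Fin 3 → Cfg 3 → ℝ} {φ : ℕ → Cfg 3 → ℝ}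
  {δ : ℕ → ℝ}

lemma InH1.densGrad_sq_le (h : InH1 f D) : ∀ᵐ x, ∑ a, densGrad f D a x ^ 2 ≤
    12 * (2 * pMass 0 f x + pMass 2 f x) * (uLim 0 f D x + uLim 2 f D x) := by
  have hd : ∀ (i : Fin 3) (x : Space), ∑ a, marg i (fun z => D i a z ^ 2) x ≤ uLim i f D x :=
    fun i x => (Finset.single_le_sum (f := fun j => ∑ a, marg i (fun z => D j a z ^ 2) x)
      (fun j _ => Finset.sum_nonneg fun a _ => marg_nonneg (fun _ => sq_nonneg _) i x)
      (Finset.mem_univ i)).trans (le_add_of_nonneg_left (pMass_nonneg i f x))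
  filter_upwards [ae_all_iff.2 (h.gnP_sq_le 0), ae_all_iff.2 (h.gnP_sq_le 2)] with x h0 h2
  have p0 := pMass_nonneg 0 f x
  have p2 := pMass_nonneg 2 f x
  have u0 := uLim_nonneg 0 f D x
  have u2 := uLim_nonneg 2 f D x
  calc ∑ a, densGrad f D a x ^ 2
      ≤ ∑ a, (24 * pMass 0 f x * marg 0 (fun z => D 0 a z ^ 2) x +
          12 * pMass 2 f x * marg 2 (fun z => D 2 a z ^ 2) x) := by
        refine Finset.sum_le_sum fun a _ => ?_
        simp only [densGrad]
        nlinarith [sq_nonneg (gnP 0 f D a x - gnP 2 f D a x), h0 a, h2 a]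
    _ ≤ 24 * pMass 0 f x * uLim 0 f D x + 12 * pMass 2 f x * uLim 2 f D x := by
        rw [Finset.sum_add_distrib, ← Finset.mul_sum, ← Finset.mul_sum]
        exact add_le_add (mul_le_mul_of_nonneg_left (hd 0 x) (by linarith))
          (mul_le_mul_of_nonneg_left (hd 2 x) (by linarith))
    _ ≤ _ := by nlinarith [mul_nonneg p0 u2, mul_nonneg p2 u0]

lemma GoodSeq.densLap_bound (G : GoodSeq l lam E f D φ δ) (h0 : 0 ≤ lam) (h1 : lam ≤ 1)
    (hE : |E| ≤ M) : ∀ᵐ x, ∀ A, attract l x ≤ A →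
      |densLap l lam E f D x| ≤ 2 * (4 * (A + M + 225) + 3) * (uLim 0 f D x + uLim 2 f D x) := by
  filter_upwards [G.lnP_bound h0 h1 hE 0, G.lnP_bound h0 h1 hE 2] with x hx0 hx2 A hA
  have hM : 0 ≤ M := (abs_nonneg E).trans hE
  have hA0 : 0 ≤ A := (attract_nonneg' l x).trans hA
  have key : ∀ i, |lnP l lam E i f D x - 2 * dMass i D x| ≤
      4 * (attract l x + M + 225) * pMass i f x + dMass i D x →
      |lnP l lam E i f D x| ≤ (4 * (A + M + 225) + 3) * uLim i f D x := by
    intro i hi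
    have hd := dMass_nonneg i D x
    have hp := pMass_nonneg i f x
    have := abs_add_le (lnP l lam E i f D x - 2 * dMass i D x) (2 * dMass i D x)
    rw [sub_add_cancel, abs_of_nonneg (by linarith : (0 : ℝ) ≤ 2 * dMass i D x)] at this
    simp only [uLim]
    nlinarith [mul_le_mul_of_nonneg_right hA hp, mul_nonneg (by linarith : (0 : ℝ) ≤ A + M + 225) hd]
  have a := abs_le.1 (key 0 hx0)
  have b := abs_le.1 (key 2 hx2)
  have hc : 0 ≤ 4 * (A + M + 225) + 3 := by linarith
  have := mul_nonneg hc (uLim_nonneg 0 f D x)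
  have := mul_nonneg hc (uLim_nonneg 2 f D x)
  simp only [densLap]
  rw [abs_le]
  constructor <;> nlinarith

/-- The regularity of the density of a lowest state. -/
theorem densityReg : DensityRegStmt := by
  intro l M
  obtain ⟨C, hC0, hrep⟩ := exists_rep
  obtain ⟨K2, hK20, hK2⟩ := exists_sq_bounds M
  obtain ⟨K3, -, hK3⟩ := exists_uLim_cube M
  obtain ⟨Ks, hKs0, hKs⟩ := exists_uLim_sup M 1 (show (0 : ℝ) < 5 / 4 by norm_num)
  obtain ⟨Kc, hKc0, hKc⟩ := exists_caccioppoli M
  set KN := C * (3 + 3 * Real.sqrt K2)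
  set K4 := 2 * (Ks * Kc)
  set KL := 2 * (4 * (|2| + |M| + 225) + 3) * K4
  set KS := Real.sqrt (12 * K4) / 2
  refine ⟨max KN (max KL KS), |l| + 8, by linarith [abs_nonneg l],
    fun lam E f D P h0 h1 hE h => ?_⟩
  obtain ⟨φ, δ, G⟩ := exists_goodSeq h0 h1 h
  have hH := inH1_of_isFormLim h.lim
  set p : Space → ℝ := fun x => 2 * pMass 0 f x + pMass 2 f x
  have hp0 : ∀ x, 0 ≤ p x := fun x => by
    linarith [pMass_nonneg 0 f x, pMass_nonneg 2 f x, show p x = 2 * pMass 0 f x + pMass 2 f x from rfl]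
  have hpi : Integrable p :=
    ((hH.integral_pMass 0).1.const_mul 2).add (hH.integral_pMass 2).1
  have hp3 : ∫ x, p x = 3 := by
    rw [integral_add ((hH.integral_pMass 0).1.const_mul 2) (hH.integral_pMass 2).1,
      integral_const_mul, (hH.integral_pMass 0).2, (hH.integral_pMass 2).2, h.mass_one]
    norm_num
  have hg := ((G.weakGrad 0).const_mul 2).add (G.weakGrad 2)
  have he := ((G.weakPoisson h0 h1 0).const_mul 2).add (G.weakPoisson h0 h1 2)
  obtain ⟨-, hl0, hl0b⟩ := hK2 l lam E f D P h0 h1 hE h 0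
  obtain ⟨-, hl2, hl2b⟩ := hK2 l lam E f D P h0 h1 hE h 2
  have hln : MemLp (densLap l lam E f D) 2 := (hl0.const_mul 2).add hl2
  have hlnb : (eLpNorm (densLap l lam E f D) 2 volume).toReal ≤ 3 * Real.sqrt K2 := by
    have h2 : ∫ x, densLap l lam E f D x ^ 2 ≤ 9 * K2 := by
      refine (integral_mono hln.integrable_sq ((hl0.integrable_sq.const_mul 6).add
        (hl2.integrable_sq.const_mul 3)) fun x => ?_).trans ?_
      · simp only [densLap, Pi.add_apply]
        nlinarith [sq_nonneg (lnP l lam E 0 f D x - lnP l lam E 2 f D x)]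
      · simp only [Pi.add_apply]
        rw [integral_add (hl0.integrable_sq.const_mul 6) (hl2.integrable_sq.const_mul 3),
          integral_const_mul, integral_const_mul]
        linarith
    rw [hln.eLpNorm_eq_integral_rpow_norm two_ne_zero ENNReal.ofNat_ne_top,
      ENNReal.toReal_ofReal (by positivity)]
    simp only [ENNReal.toReal_ofNat, Real.norm_eq_abs, Real.rpow_two, sq_abs]
    rw [← one_div, ← Real.sqrt_eq_rpow, show (3 : ℝ) = Real.sqrt (3 ^ 2) by simp,
      ← Real.sqrt_mul (by norm_num)]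
    exact Real.sqrt_le_sqrt (by linarith)
  obtain ⟨g, hgc, hge, hgb⟩ := hrep _ _ he hpi hln
  set n : Space → ℝ := fun x => max (g x) 0
  have hne : n =ᵐ[volume] p := hge.mono fun x hx => by
    simp only [n, hx]; exact max_eq_left (hp0 x)
  have hnc : Continuous n := hgc.max continuous_const
  have hn0 : ∀ x, 0 ≤ n x := fun x => le_max_right _ _
  have hngrad : HasWeakGrad univ n (densGrad f D) :=
    hg.congr_ae isOpen_univ (ae_restrict_of_ae hne.symm) fun _ => EventuallyEq.rfl
  have hnB : ∀ x, n x ≤ KN := fun x => by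
    have hb := hgb x
    have e3 : ∫ y, |p y| = 3 := by
      simp only [fun y => abs_of_nonneg (hp0 y)]; exact hp3
    have hp' : ∫ y, |2 * pMass 0 f y + pMass 2 f y| = 3 := e3
    rw [hp'] at hb
    refine max_le (((le_abs_self _).trans hb).trans ?_) (by positivity)
    exact mul_le_mul_of_nonneg_left (by
      have : (eLpNorm (fun x => 2 * lnP l lam E 0 f D x + lnP l lam E 2 f D x) 2 volume).toReal ≤
        3 * Real.sqrt K2 := hlnb
      linarith) hC0
  have hU := fun i => hH.integrable_uLim i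
  -- the bound far away
  have hfar : ∀ x, |l| + 8 ≤ ‖x‖ → ∀ᵐ y, y ∈ ball x (5 / 4) →
      attract l y ≤ 2 ∧ uLim 0 f D y + uLim 2 f D y ≤ K4 * ∫ z in ball x 3, n z := by
    intro x hx
    have hfr : ∀ y ∈ ball x 3, 5 ≤ ‖y - nuc l‖ ∧ 5 ≤ ‖y + nuc l‖ := fun y hy => by
      rw [mem_ball, dist_eq_norm] at hy
      have h1 := norm_sub_norm_le x (x - y)
      rw [sub_sub_cancel, norm_sub_rev] at h1
      have h2 := norm_sub_norm_le y (nuc l)
      have h3 := norm_sub_norm_le y (-nuc l)
      rw [sub_neg_eq_add, norm_neg] at h3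
      rw [norm_nuc_abs] at h2 h3
      constructor <;> linarith
    have hA : ∀ y ∈ ball x 3, attract l y ≤ 2 := fun y hy =>
      ((attr_bounds (by norm_num) (hfr y hy).1 (hfr y hy).2).1).trans (by norm_num)
    have hB : ∀ y ∈ ball x (2 * (5 / 4 : ℝ)), ∀ δ, attrSq l δ y ≤ 1 := fun y hy δ => by
      have hy' : y ∈ ball x 3 := ball_subset_ball (by norm_num) hy
      exact ((attr_bounds (by norm_num) (hfr y hy').1 (hfr y hy').2).2 δ).trans (by norm_num)
    have hn' : ∫ z in ball x 3, n z = ∫ z in ball x 3, p z :=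
      integral_congr_ae (ae_restrict_of_ae hne)
    have hint : ∀ i, ∫ y in ball x (2 * (5 / 4 : ℝ)), uLim i f D y ≤
        Kc * ∫ y in ball x 3, pMass i f y := fun i => by
      rw [show 2 * (5 / 4 : ℝ) = 5 / 2 by norm_num]
      exact hKc l lam E f D P h0 h1 hE h i x hA
    have h0p : ∫ y in ball x 3, pMass 0 f y ≤ ∫ z in ball x 3, n z := hn' ▸
      integral_mono (hH.integral_pMass 0).1.integrableOn hpi.integrableOn fun y => by
        show pMass 0 f y ≤ 2 * pMass 0 f y + pMass 2 f y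
        linarith [pMass_nonneg 0 f y, pMass_nonneg 2 f y]
    have h2p : ∫ y in ball x 3, pMass 2 f y ≤ ∫ z in ball x 3, n z := hn' ▸
      integral_mono (hH.integral_pMass 2).1.integrableOn hpi.integrableOn fun y => by
        show pMass 2 f y ≤ 2 * pMass 0 f y + pMass 2 f y
        linarith [pMass_nonneg 0 f y]
    filter_upwards [hKs l lam E f D P h0 h1 hE h 0 x hB, hKs l lam E f D P h0 h1 hE h 2 x hB]
      with y hy0 hy2 hy
    refine ⟨hA y (ball_subset_ball (by norm_num) hy), ?_⟩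
    have a0 := (hy0 hy).trans (mul_le_mul_of_nonneg_left
      ((hint 0).trans (mul_le_mul_of_nonneg_left h0p hKc0)) hKs0)
    have a2 := (hy2 hy).trans (mul_le_mul_of_nonneg_left
      ((hint 2).trans (mul_le_mul_of_nonneg_left h2p hKc0)) hKs0)
    simp only [K4]
    linarith
  have hI0 : ∀ x : Space, 0 ≤ ∫ z in ball x 3, n z := fun x => integral_nonneg fun z => hn0 z
  refine ⟨n, hnc, fun x => ⟨hn0 x, (hnB x).trans (le_max_left _ _)⟩, ?_, hngrad,
    he.congr_ae isOpen_univ (ae_restrict_of_ae hne.symm) EventuallyEq.rfl,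
    fun a R => ?_, fun R => hln.restrict _, fun K' hK' hd => ?_, fun x hx => ?_, fun x y hx hxy => ?_⟩
  · exact hne
  · refine (MemLp.restrict _ ?_)
    have hm : AEStronglyMeasurable (densGrad f D a) volume := by
      simpa using (hngrad.2.1 a).aestronglyMeasurable
    refine (integrable_norm_rpow_iff hm (by norm_num) ENNReal.ofNat_ne_top).1 ?_
    refine (((hK3 l lam E f D P h0 h1 hE h 0).1.add (hK3 l lam E f D P h0 h1 hE h 2).1).const_mul
      (4 * (12 * KN) ^ 3)).mono' ((hm.norm.aemeasurable.pow_const _).aestronglyMeasurable) ?_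
    filter_upwards [hH.densGrad_sq_le, hne] with x hx hnx
    simp only [ENNReal.toReal_ofNat, Real.rpow_ofNat, Real.norm_eq_abs, Pi.add_apply, abs_pow,
      abs_abs]
    have u0 := uLim_nonneg 0 f D x
    have u2 := uLim_nonneg 2 f D x
    have h2 : densGrad f D a x ^ 2 ≤ 12 * KN * (uLim 0 f D x + uLim 2 f D x) := by
      refine ((Finset.single_le_sum (f := fun a => densGrad f D a x ^ 2) (fun a _ => sq_nonneg _)
        (Finset.mem_univ a)).trans hx).trans ?_
      refine mul_le_mul_of_nonneg_right (mul_le_mul_of_nonneg_left ?_ (by norm_num)) (by linarith)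
      show p x ≤ KN
      rw [← hnx]
      exact hnB x
    rw [show |densGrad f D a x| ^ 6 = (densGrad f D a x ^ 2) ^ 3 by rw [← sq_abs]; ring]
    refine (pow_le_pow_left₀ (sq_nonneg _) h2 3).trans ?_
    rw [mul_pow, mul_comm (4 : ℝ), mul_assoc]
    refine mul_le_mul_of_nonneg_left ?_ (by
      have : 0 ≤ KN := (hn0 x).trans (hnB x)
      positivity)
    nlinarith [mul_nonneg (add_nonneg u0 u2) (sq_nonneg (uLim 0 f D x - uLim 2 f D x))]
  · refine hK'.induction_on (p := fun s => ∃ B : ℝ, ∀ᵐ x : Space, x ∈ s → |densLap l lam E f D x| ≤ B)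
      ⟨0, by simp⟩ ?_ ?_ ?_
    · rintro s t hst ⟨B, hB⟩
      exact ⟨B, hB.mono fun x hx hxs => hx (hst hxs)⟩
    · rintro s t ⟨B, hB⟩ ⟨B', hB'⟩
      refine ⟨max B B', ?_⟩
      filter_upwards [hB, hB'] with x a b hx
      exact hx.elim (fun hx => (a hx).trans (le_max_left _ _)) fun hx => (b hx).trans (le_max_right _ _)
    · intro x₀ hx₀
      have hne1 : 0 < ‖x₀ - nuc l‖ := norm_pos_iff.2 (sub_ne_zero.2 fun e =>
        Set.disjoint_left.1 hd hx₀ (by simp [e]))
      have hne2 : 0 < ‖x₀ + nuc l‖ := norm_pos_iff.2 fun e =>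
        Set.disjoint_left.1 hd hx₀ (by simp [eq_neg_of_add_eq_zero_left e])
      set d := min ‖x₀ - nuc l‖ ‖x₀ + nuc l‖ / 2
      have hd0 : 0 < d := half_pos (lt_min hne1 hne2)
      have hfr : ∀ y ∈ ball x₀ d, d ≤ ‖y - nuc l‖ ∧ d ≤ ‖y + nuc l‖ := fun y hy => by
        rw [mem_ball, dist_eq_norm] at hy
        have h1 := norm_sub_le_norm_sub_add_norm_sub x₀ y (nuc l)
        have h2 := norm_sub_le_norm_sub_add_norm_sub x₀ y (-nuc l)
        rw [sub_neg_eq_add, sub_neg_eq_add] at h2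
        rw [norm_sub_rev x₀ y] at h1 h2
        have e1 := min_le_left ‖x₀ - nuc l‖ ‖x₀ + nuc l‖
        have e2 := min_le_right ‖x₀ - nuc l‖ ‖x₀ + nuc l‖
        simp only [d] at hy ⊢
        constructor <;> linarith
      obtain ⟨Ks', hKs0', hKs'⟩ := exists_uLim_sup M (2 / d ^ 2) (half_pos hd0)
      have hB : ∀ y ∈ ball x₀ (2 * (d / 2)), ∀ δ, attrSq l δ y ≤ 2 / d ^ 2 := fun y hy => by
        rw [mul_div_cancel₀ d two_ne_zero] at hy
        exact (attr_bounds hd0 (hfr y hy).1 (hfr y hy).2).2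
      refine ⟨ball x₀ (d / 2), mem_nhdsWithin_of_mem_nhds (ball_mem_nhds _ (half_pos hd0)),
        2 * (4 * (2 / d + M + 225) + 3) *
          (Ks' * ((∫ y, uLim 0 f D y) + ∫ y, uLim 2 f D y)), ?_⟩
      filter_upwards [G.densLap_bound h0 h1 hE, hKs' l lam E f D P h0 h1 hE h 0 x₀ hB,
        hKs' l lam E f D P h0 h1 hE h 2 x₀ hB] with x hx hx0 hx2 hxb
      have hxd : x ∈ ball x₀ d := ball_subset_ball (by linarith) hxb
      refine (hx _ (attr_bounds hd0 (hfr x hxd).1 (hfr x hxd).2).1).trans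
        (mul_le_mul_of_nonneg_left ?_ (by
          have : 0 ≤ M := (abs_nonneg E).trans hE
          positivity))
      rw [mul_add]
      exact add_le_add ((hx0 hxb).trans (mul_le_mul_of_nonneg_left (setIntegral_le_integral (hU 0)
        (.of_forall (uLim_nonneg 0 f D))) hKs0')) ((hx2 hxb).trans (mul_le_mul_of_nonneg_left
        (setIntegral_le_integral (hU 2) (.of_forall (uLim_nonneg 2 f D))) hKs0'))
  · filter_upwards [G.densLap_bound h0 h1 hE, hfar x hx] with y hy hy' hyb
    obtain ⟨hA, hb⟩ := hy' (ball_subset_ball (by norm_num) hyb)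
    refine ((hy 2 hA).trans ?_).trans (mul_le_mul_of_nonneg_right
      ((le_max_left KL KS).trans (le_max_right KN _)) (hI0 x))
    have hM : 0 ≤ M := (abs_nonneg E).trans hE
    simp only [KL, abs_two, abs_of_nonneg hM]
    rw [mul_assoc (2 * (4 * (2 + M + 225) + 3)) K4]
    exact mul_le_mul_of_nonneg_left hb (by positivity)
  · have hI := hI0 x
    set c := Real.sqrt (12 * K4) * Real.sqrt (∫ z in ball x 3, n z)
    have hK40 : 0 ≤ K4 := by positivity
    have hb : ∀ᵐ z, z ∈ ball x (5 / 4) → ∑ a, densGrad f D a z ^ 2 ≤ c ^ 2 * n z := by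
      filter_upwards [hfar x hx, hH.densGrad_sq_le, hne] with z hz hz2 hzn hzb
      refine hz2.trans ?_
      rw [mul_pow, Real.sq_sqrt (by positivity), Real.sq_sqrt hI,
        show 2 * pMass 0 f z + pMass 2 f z = n z from hzn.symm]
      nlinarith [mul_le_mul_of_nonneg_left (hz hzb).2 (hn0 z)]
    refine (sqrt_lipschitz_of_grad hnc hn0 hngrad (by positivity) hb (x := x) (y := y)
      (mem_ball_self (by norm_num)) (by rw [mem_ball, dist_comm]; linarith)).trans ?_
    refine mul_le_mul_of_nonneg_right ?_ dist_nonneg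
    rw [show c / 2 = KS * Real.sqrt (∫ z in ball x 3, n z) by simp only [c, KS]; ring]
    exact mul_le_mul_of_nonneg_right ((le_max_right KL KS).trans (le_max_right KN _))
      (Real.sqrt_nonneg _)

end Vale.Agent.P363.Inter
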