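import Vale.Agent.P363.Inter.Reg.RegPot
import Vale.Agent.P363.Tool.Weak.Poisson

/-!
P363, interacting side: the pointwise differential inequalities for the mass and the gradient mass
of the slices of a smooth function with small residual.
-/

noncomputable section

namespace Vale.Agent.P363.Inter

open MeasureTheory Filter ContinuousLinearMap
open scoped BigOperators Topology ContDiff

/-- The squared gradient. -/
def gradN (g : Cfg 3 → ℝ) (z : Cfg 3) : ℝ := ∑ j, ∑ a, slotDeriv j a g z ^ 2

/-- The squared gradient in the position of electron `i`. -/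
def xSq (i : Fin 3) (g : Cfg 3 → ℝ) (z : Cfg 3) : ℝ := ∑ a, slotDeriv i a g z ^ 2

/-- The Laplacian in all positions. -/
def lapN (g : Cfg 3 → ℝ) (z : Cfg 3) : ℝ := ∑ j, ∑ a, slotDeriv j a (slotDeriv j a g) z

/-- The residual of the regularised equation. -/
def resid (l lam δ E : ℝ) (φ : Cfg 3 → ℝ) (z : Cfg 3) : ℝ :=
  -(1 / 2) * lapN φ z + (molPotR l lam δ z - E) * φ z

/-- The mass and gradient mass of a slice. -/
def uMass (i : Fin 3) (φ : Cfg 3 → ℝ) (x : Space) : ℝ :=
  marg i (fun z => φ z ^ 2) x + ∑ j, ∑ a, marg i (fun z => slotDeriv j a φ z ^ 2) x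

variable {i : Fin 3} {φ g h : Cfg 3 → ℝ} {l lam δ E : ℝ}

lemma sd_mul {z : Cfg 3} (hg : DifferentiableAt ℝ g z) (hh : DifferentiableAt ℝ h z) (j a : Fin 3) :
    slotDeriv j a (fun w => g w * h w) z = g z * slotDeriv j a h z + slotDeriv j a g z * h z := by
  simp only [slotDeriv, fderiv_fun_mul hg hh, add_apply, smul_apply, smul_eq_mul]
  ring

lemma sd_sub {z : Cfg 3} (hg : DifferentiableAt ℝ g z) (hh : DifferentiableAt ℝ h z) (j a : Fin 3) :
    slotDeriv j a (fun w => g w - h w) z = slotDeriv j a g z - slotDeriv j a h z := by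
  simp [slotDeriv, fderiv_fun_sub hg hh]

lemma sd_const_mul {z : Cfg 3} (hg : DifferentiableAt ℝ g z) (c : ℝ) (j a : Fin 3) :
    slotDeriv j a (fun w => c * g w) z = c * slotDeriv j a g z := by
  simp [slotDeriv, fderiv_const_mul hg c]

lemma sd_comm (hg : ContDiff ℝ 2 g) (j a k b : Fin 3) :
    slotDeriv j a (slotDeriv k b g) = slotDeriv k b (slotDeriv j a g) := by
  funext z
  have h := hg.contDiffAt.isSymmSndFDerivAt (by simp) (x := z)
  have hd : DifferentiableAt ℝ (fderiv ℝ g) z :=
    (hg.fderiv_right (m := 1) (by norm_num)).differentiable one_ne_zero z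
  have e : ∀ (j a : Fin 3) (v : Cfg 3), fderiv ℝ (slotDeriv j a g) z v =
      fderiv ℝ (fderiv ℝ g) z v (Pi.single j (unit3 a)) := fun j a v => by
    rw [show slotDeriv j a g = fun w => fderiv ℝ g w (Pi.single j (unit3 a)) from rfl,
      fderiv_clm_apply hd (differentiableAt_const _)]
    simp
  rw [slotDeriv, slotDeriv, e, e]
  exact h.eq _ _

lemma sd_lapN (hg : ContDiff ℝ 3 g) (j a : Fin 3) :
    slotDeriv j a (lapN g) = lapN (slotDeriv j a g) := by
  have h2 : ContDiff ℝ 2 g := hg.of_le (by norm_num)
  have hk : ∀ k b, ContDiff ℝ 2 (slotDeriv k b g) := fun k b =>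
    contDiff_slotDeriv hg (by norm_num) k b
  funext z
  have hd : ∀ k b, DifferentiableAt ℝ (slotDeriv k b (slotDeriv k b g)) z := fun k b =>
    (contDiff_slotDeriv (hk k b) (m := 1) (by norm_num) k b).differentiable one_ne_zero z
  have hl : slotDeriv j a (lapN g) z = ∑ k, ∑ b, slotDeriv j a (slotDeriv k b (slotDeriv k b g)) z := by
    have hs := (HasFDerivAt.sum (u := Finset.univ) fun k _ => HasFDerivAt.sum (u := Finset.univ)
      fun b _ => (hd k b).hasFDerivAt).fderiv
    rw [slotDeriv, show lapN g = ∑ k : Fin 3, ∑ b : Fin 3, slotDeriv k b (slotDeriv k b g) from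
      funext fun w => by simp [lapN, Finset.sum_apply], hs]
    simp [slotDeriv]
  rw [hl]
  refine Finset.sum_congr rfl fun k _ => Finset.sum_congr rfl fun b _ => ?_
  rw [sd_comm (hk k b), sd_comm h2 j a k b]

lemma gradN_eq (i : Fin 3) (g : Cfg 3 → ℝ) (z : Cfg 3) : gradN g z = xSq i g z + ySq i g z := by
  rw [gradN, Fin.sum_univ_succAbove _ i]
  rfl

lemma lapN_eq (i : Fin 3) (g : Cfg 3 → ℝ) (z : Cfg 3) :
    lapN g z = (∑ a, slotDeriv i a (slotDeriv i a g) z) +
      ∑ k : Fin 2, ∑ a, slotDeriv (i.succAbove k) a (slotDeriv (i.succAbove k) a g) z := by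
  rw [lapN, Fin.sum_univ_succAbove _ i]

lemma supp_of_zero {F : Cfg 3 → ℝ} (hc : HasCompactSupport g)
    (h : ∀ z ∉ tsupport g, F z = 0) : HasCompactSupport F := HasCompactSupport.intro hc h

lemma sd_zero_of_notMem {z : Cfg 3} (hz : z ∉ tsupport g) (j a : Fin 3) : slotDeriv j a g z = 0 := by
  simp [slotDeriv, fderiv_of_notMem_tsupport ℝ hz]

lemma sd2_zero_of_notMem {z : Cfg 3} (hz : z ∉ tsupport g) (j a k b : Fin 3) :
    slotDeriv j a (slotDeriv k b g) z = 0 :=
  sd_zero_of_notMem (fun h => hz (tsupport_fderiv_apply_subset ℝ _ h)) j a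

lemma marg_add {u v : Cfg 3 → ℝ} (hu : Continuous u) (hu' : HasCompactSupport u) (hv : Continuous v)
    (hv' : HasCompactSupport v) (i : Fin 3) (x : Space) :
    marg i (fun z => u z + v z) x = marg i u x + marg i v x :=
  integral_add (integrable_slice hu hu' i x) (integrable_slice hv hv' i x)

lemma marg_sum {ι : Type*} (s : Finset ι) {u : ι → Cfg 3 → ℝ} (hu : ∀ k, Continuous (u k))
    (hu' : ∀ k, HasCompactSupport (u k)) (i : Fin 3) (x : Space) :
    marg i (fun z => ∑ k ∈ s, u k z) x = ∑ k ∈ s, marg i (u k) x :=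
  integral_finsetSum _ fun k _ => integrable_slice (hu k) (hu' k) i x

lemma marg_const_mul (c : ℝ) (u : Cfg 3 → ℝ) (i : Fin 3) (x : Space) :
    marg i (fun z => c * u z) x = c * marg i u x := integral_const_mul _ _

lemma marg_mono {u v : Cfg 3 → ℝ} (hu : Continuous u) (hu' : HasCompactSupport u) (hv : Continuous v)
    (hv' : HasCompactSupport v) (h : ∀ z, u z ≤ v z) (i : Fin 3) (x : Space) :
    marg i u x ≤ marg i v x :=
  integral_mono (integrable_slice hu hu' i x) (integrable_slice hv hv' i x) fun _ => h _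

/-- Integration by parts in the position of another electron, inside a slice. -/
lemma marg_ibp (hg : ContDiff ℝ 2 g) (hc : HasCompactSupport g) (k : Fin 2) (a : Fin 3) (x : Space) :
    marg i (fun z => g z * slotDeriv (i.succAbove k) a (slotDeriv (i.succAbove k) a g) z) x =
      -marg i (fun z => slotDeriv (i.succAbove k) a g z ^ 2) x := by
  set j := i.succAbove k
  set ψ : Cfg 2 → ℝ := fun y => g (i.insertNth x y)
  have hψ : ContDiff ℝ 2 ψ := hg.comp (contDiff_ins_right i x)
  have hψc : HasCompactSupport ψ := hasCompactSupport_slice hc i x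
  set ψ' := slotDeriv k a ψ
  have h1 : ContDiff ℝ 1 ψ' := contDiff_slotDeriv hψ (by norm_num) k a
  have h1c : HasCompactSupport ψ' := hasCompactSupport_slotDeriv hψc k a
  have e1 : ψ' = fun y => slotDeriv j a g (i.insertNth x y) :=
    funext fun y => slotDeriv_slice_right x k a (hg.differentiable two_ne_zero _)
  have e2 : slotDeriv k a ψ' = fun y => slotDeriv j a (slotDeriv j a g) (i.insertNth x y) := by
    funext y
    rw [e1]
    exact slotDeriv_slice_right x k a
      ((contDiff_slotDeriv hg (m := 1) (by norm_num) j a).differentiable one_ne_zero _)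
  have h := integral_mul_fderiv_eq_neg_fderiv_mul_of_integrable (μ := (volume : Measure (Cfg 2)))
    (f := ψ) (g := ψ') (v := Pi.single k (unit3 a))
    ((continuous_slotDeriv (hψ.of_le (by norm_num)) k a).mul h1.continuous
      |>.integrable_of_hasCompactSupport h1c.mul_left)
    ((hψ.continuous.mul (continuous_slotDeriv h1 k a)).integrable_of_hasCompactSupport
      hψc.mul_right)
    ((hψ.continuous.mul h1.continuous).integrable_of_hasCompactSupport hψc.mul_right)
    (fun y _ => hψ.differentiable two_ne_zero y) fun y _ => h1.differentiable one_ne_zero y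
  have h' : ∫ y, ψ y * slotDeriv k a ψ' y = -∫ y, ψ' y * ψ' y := h
  rw [e2, e1] at h'
  simpa only [marg, sq] using h'

/-- Half the Laplacian of the mass of a slice. -/
lemma lap_marg_sq (hg : ContDiff ℝ 2 g) (hc : HasCompactSupport g) (i : Fin 3) (x : Space) :
    lap (marg i fun z => g z ^ 2) x / 2 =
      marg i (xSq i g) x + marg i (ySq i g) x + marg i (fun z => g z * lapN g z) x := by
  have hd : Differentiable ℝ g := hg.differentiable two_ne_zero
  have h1 : ∀ j a, ContDiff ℝ 1 (slotDeriv j a g) := fun j a =>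
    contDiff_slotDeriv hg (by norm_num) j a
  have hsq : ContDiff ℝ 2 fun z => g z ^ 2 := hg.pow 2
  have hsc : HasCompactSupport fun z => g z ^ 2 :=
    supp_of_zero hc fun z hz => by simp [image_eq_zero_of_notMem_tsupport hz]
  have ed : ∀ a, slotDeriv i a (fun z => g z ^ 2) = fun z => 2 * (g z * slotDeriv i a g z) :=
    fun a => funext fun z => by
      simp only [sq]; rw [sd_mul (hd z) (hd z)]; ring
  have hp : ∀ a, ContDiff ℝ 1 fun z => 2 * (g z * slotDeriv i a g z) := fun a =>
    contDiff_const.mul ((hg.of_le (by norm_num)).mul (h1 i a))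
  have hpc : ∀ a, HasCompactSupport fun z => 2 * (g z * slotDeriv i a g z) := fun a =>
    (hc.mul_right).mul_left
  have edd : ∀ a z, slotDeriv i a (fun z => 2 * (g z * slotDeriv i a g z)) z =
      2 * (slotDeriv i a g z ^ 2 + g z * slotDeriv i a (slotDeriv i a g) z) := by
    intro a z
    rw [sd_const_mul ((hd z).fun_mul ((h1 i a).differentiable one_ne_zero z)),
      sd_mul (hd z) ((h1 i a).differentiable one_ne_zero z)]
    ring
  have hlap : lap (marg i fun z => g z ^ 2) x =
      ∑ a, marg i (slotDeriv i a (fun z => 2 * (g z * slotDeriv i a g z))) x := by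
    refine Finset.sum_congr rfl fun a _ => ?_
    rw [deriv3_marg (hsq.of_le (by norm_num)) hsc, ed, deriv3_marg (hp a) (hpc a)]
  have c2 : ∀ j a, Continuous fun z => g z * slotDeriv j a (slotDeriv j a g) z := fun j a =>
    hg.continuous.mul (continuous_slotDeriv (h1 j a) j a)
  have cs : ∀ j a, Continuous fun z => slotDeriv j a g z ^ 2 := fun j a =>
    (h1 j a).continuous.pow 2
  have ss : ∀ j a, HasCompactSupport fun z => slotDeriv j a g z ^ 2 := fun j a =>
    supp_of_zero hc fun z hz => by simp [sd_zero_of_notMem hz]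
  have s2 : ∀ j a, HasCompactSupport fun z => g z * slotDeriv j a (slotDeriv j a g) z := fun j a =>
    hc.mul_right
  have hY : marg i (ySq i g) x = -∑ k : Fin 2, ∑ a,
      marg i (fun z => g z * slotDeriv (i.succAbove k) a (slotDeriv (i.succAbove k) a g) z) x := by
    rw [show ySq i g = fun z => ∑ k : Fin 2, ∑ a, slotDeriv (i.succAbove k) a g z ^ 2 from rfl,
      marg_sum _ (fun k => continuous_finsetSum _ fun a _ => cs _ a)
        (fun k => supp_of_zero hc fun z hz => by simp [sd_zero_of_notMem hz]),
      ← Finset.sum_neg_distrib]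
    refine Finset.sum_congr rfl fun k _ => ?_
    rw [marg_sum _ (fun a => cs _ a) (fun a => ss _ a), ← Finset.sum_neg_distrib]
    exact Finset.sum_congr rfl fun a _ => by rw [marg_ibp hg hc, neg_neg]
  have hX : marg i (xSq i g) x = ∑ a, marg i (fun z => slotDeriv i a g z ^ 2) x :=
    marg_sum _ (fun a => cs i a) (fun a => ss i a) i x
  have hL : marg i (fun z => g z * lapN g z) x =
      (∑ a, marg i (fun z => g z * slotDeriv i a (slotDeriv i a g) z) x) +
      ∑ k : Fin 2, ∑ a,
        marg i (fun z => g z * slotDeriv (i.succAbove k) a (slotDeriv (i.succAbove k) a g) z) x := by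
    simp only [lapN_eq i, mul_add, Finset.mul_sum]
    rw [marg_add (continuous_finsetSum _ fun a _ => c2 i a)
        (supp_of_zero hc fun z hz => by simp [image_eq_zero_of_notMem_tsupport hz])
        (continuous_finsetSum _ fun k _ => continuous_finsetSum _ fun a _ => c2 _ a)
        (supp_of_zero hc fun z hz => by simp [image_eq_zero_of_notMem_tsupport hz]),
      marg_sum _ (fun a => c2 i a) (fun a => s2 i a),
      marg_sum _ (fun k => continuous_finsetSum _ fun a _ => c2 _ a)
        (fun k => supp_of_zero hc fun z hz => by simp [image_eq_zero_of_notMem_tsupport hz])]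
    simp only [marg_sum Finset.univ (fun a => c2 _ a) (fun a => s2 _ a)]
  rw [hlap, hX, hY, hL, Finset.sum_div]
  have e : ∀ a, marg i (slotDeriv i a (fun z => 2 * (g z * slotDeriv i a g z))) x / 2 =
      marg i (fun z => slotDeriv i a g z ^ 2) x +
        marg i (fun z => g z * slotDeriv i a (slotDeriv i a g) z) x := by
    intro a
    rw [show slotDeriv i a (fun z => 2 * (g z * slotDeriv i a g z)) = fun z =>
      2 * (slotDeriv i a g z ^ 2 + g z * slotDeriv i a (slotDeriv i a g) z) from funext (edd a),
      marg_const_mul, marg_add (cs i a) (ss i a) (c2 i a) (s2 i a)]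
    ring
  simp only [e, Finset.sum_add_distrib]
  ring

lemma lapN_eq_resid (φ : Cfg 3 → ℝ) (z : Cfg 3) :
    lapN φ z = 2 * ((molPotR l lam δ z - E) * φ z - resid l lam δ E φ z) := by
  simp only [resid]; ring

lemma contDiff_lapN (hφ : ContDiff ℝ ∞ φ) : ContDiff ℝ ∞ (lapN φ) :=
  ContDiff.sum fun j _ => ContDiff.sum fun a _ =>
    contDiff_slotDeriv (contDiff_slotDeriv hφ le_rfl j a) le_rfl j a

lemma contDiff_resid (hδ : δ ≠ 0) (hφ : ContDiff ℝ ∞ φ) :
    ContDiff ℝ ∞ (resid l lam δ E φ) :=
  (contDiff_const.mul (contDiff_lapN hφ)).add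
    (((contDiff_molPotR hδ).sub contDiff_const).mul hφ)

lemma supp_resid (hc : HasCompactSupport φ) : HasCompactSupport (resid l lam δ E φ) :=
  supp_of_zero hc fun z hz => by
    simp [resid, lapN, image_eq_zero_of_notMem_tsupport hz, sd2_zero_of_notMem hz]

/-- The equation of the mass of a slice. -/
lemma lap_mass_eq (hδ : δ ≠ 0) (hφ : ContDiff ℝ ∞ φ) (hc : HasCompactSupport φ) (i : Fin 3)
    (x : Space) : lap (marg i fun z => φ z ^ 2) x =
      2 * marg i (gradN φ) x + 4 * marg i (fun z => (molPotR l lam δ z - E) * φ z ^ 2) x -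
        4 * marg i (fun z => φ z * resid l lam δ E φ z) x := by
  have h2 : ContDiff ℝ 2 φ := hφ.of_le (WithTop.coe_le_coe.2 le_top)
  have h := lap_marg_sq h2 hc i x
  have e1 : marg i (gradN φ) x = marg i (xSq i φ) x + marg i (ySq i φ) x := by
    rw [show gradN φ = fun z => xSq i φ z + ySq i φ z from funext (gradN_eq i φ)]
    exact marg_add (continuous_finsetSum _ fun a _ =>
      (continuous_slotDeriv (h2.of_le (by norm_num)) i a).pow 2)
      (supp_of_zero hc fun z hz => by simp [xSq, sd_zero_of_notMem hz])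
      (cont_ySq (h2.of_le (by norm_num))) (supp_ySq hc) i x
  have e2 : marg i (fun z => φ z * lapN φ z) x =
      2 * marg i (fun z => (molPotR l lam δ z - E) * φ z ^ 2) x -
        2 * marg i (fun z => φ z * resid l lam δ E φ z) x := by
    simp only [marg]
    rw [← integral_const_mul, ← integral_const_mul, ← integral_sub]
    · exact integral_congr_ae (ae_of_all _ fun y => by
        simp only; rw [lapN_eq_resid (l := l) (lam := lam) (δ := δ) (E := E)]; ring)
    · exact (integrable_slice (((contDiff_molPotR (m := 0) hδ).continuous.sub continuous_const).mul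
        (hφ.continuous.pow 2)) (supp_of_zero hc fun z hz => by
          simp [image_eq_zero_of_notMem_tsupport hz]) i x).const_mul 2
    · exact (integrable_slice (hφ.continuous.mul (contDiff_resid hδ hφ).continuous)
        hc.mul_right i x).const_mul 2
  linarith

end Vale.Agent.P363.Inter
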