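import Vale.Agent.P363.Inter.Reg.Ineq

/-!
P363, interacting side: the root of the mass and gradient mass of a slice is a subsolution, up to
the residual.
-/

noncomputable section

namespace Vale.Agent.P363.Inter

open MeasureTheory Filter ContinuousLinearMap
open scoped BigOperators Topology ContDiff

lemma lap_sum {ι : Type*} (s : Finset ι) {u : ι → Space → ℝ} (hu : ∀ k, ContDiff ℝ 2 (u k))
    (x : Space) : lap (fun y => ∑ k ∈ s, u k y) x = ∑ k ∈ s, lap (u k) x := by
  have h1 : ∀ a, deriv3 a (fun y => ∑ k ∈ s, u k y) = fun y => ∑ k ∈ s, deriv3 a (u k) y :=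
    fun a => funext fun y => by
      rw [deriv3, fderiv_fun_sum fun k _ => (hu k).differentiable two_ne_zero y]
      simp [deriv3]
  simp only [lap]
  rw [Finset.sum_comm]
  refine Finset.sum_congr rfl fun a _ => ?_
  rw [h1, deriv3, fderiv_fun_sum fun k _ =>
    (Vale.Agent.P363.contDiff_deriv3 a (m := 1) (hu k) (by norm_num)).differentiable one_ne_zero x]
  simp [deriv3]

lemma deriv3_sqrt {U : Space → ℝ} (hU : Differentiable ℝ U) (h0 : ∀ x, 0 < U x) (a : Fin 3)
    (x : Space) : deriv3 a (fun y => √(U y)) x = deriv3 a U x * (2 * √(U x))⁻¹ := by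
  rw [deriv3, (((hU x).hasFDerivAt).sqrt (h0 x).ne').fderiv]
  simp [deriv3]
  ring

lemma sqrt_mul_lap_sqrt {U : Space → ℝ} (hU : ContDiff ℝ 2 U) (h0 : ∀ x, 0 < U x) (x : Space) :
    √(U x) * lap (fun y => √(U y)) x = lap U x / 2 - (∑ a, deriv3 a U x ^ 2) / (4 * U x) := by
  have hd : Differentiable ℝ U := hU.differentiable two_ne_zero
  have hs : Differentiable ℝ fun y => √(U y) := fun y => (hd y).sqrt (h0 y).ne'
  have hU2 : √(U x) ≠ 0 := (Real.sqrt_pos.2 (h0 x)).ne'
  have key : ∀ a, √(U x) * deriv3 a (deriv3 a fun y => √(U y)) x =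
      deriv3 a (deriv3 a U) x / 2 - deriv3 a U x ^ 2 / (4 * U x) := by
    intro a
    have h1 : deriv3 a (fun y => √(U y)) = fun y => deriv3 a U y * (2 * √(U y))⁻¹ :=
      funext (deriv3_sqrt hd h0 a)
    have hA : HasFDerivAt (deriv3 a U) (fderiv ℝ (deriv3 a U) x) x :=
      ((Vale.Agent.P363.contDiff_deriv3 a (m := 1) hU (by norm_num)).differentiable
        one_ne_zero x).hasFDerivAt
    have hB : HasFDerivAt (fun y => (2 * √(U y))⁻¹) _ x :=
      (hasDerivAt_inv (mul_ne_zero two_ne_zero hU2)).comp_hasFDerivAt x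
        (((hd x).hasFDerivAt.sqrt (h0 x).ne').const_mul 2)
    rw [h1, deriv3, (hA.fun_mul hB).fderiv]
    simp [deriv3]
    set s := √(U x) with hs'
    have hsq : U x = s ^ 2 := (Real.sq_sqrt (h0 x).le).symm
    rw [hsq]
    field_simp
    ring
  simp only [lap, Finset.mul_sum, key, Finset.sum_sub_distrib, Finset.sum_div]

variable {i : Fin 3} {φ g : Cfg 3 → ℝ} {l lam δ E ε : ℝ}

lemma supp_mulL (u : Cfg 3 → ℝ) {v : Cfg 3 → ℝ} (hv : HasCompactSupport v) :
    HasCompactSupport fun z => u z * v z :=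
  supp_of_zero hv fun z hz => by simp [image_eq_zero_of_notMem_tsupport hz]

lemma marg_lin2 (a b : ℝ) {u v : Cfg 3 → ℝ} (hu : Continuous u) (hu' : HasCompactSupport u)
    (hv : Continuous v) (hv' : HasCompactSupport v) (i : Fin 3) (x : Space) :
    marg i (fun z => a * u z + b * v z) x = a * marg i u x + b * marg i v x := by
  rw [← marg_const_mul, ← marg_const_mul]
  exact marg_add (continuous_const.mul hu) hu'.mul_left (continuous_const.mul hv) hv'.mul_left i x

lemma marg_lin3 (a b c : ℝ) {u v w : Cfg 3 → ℝ} (hu : Continuous u) (hu' : HasCompactSupport u)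
    (hv : Continuous v) (hv' : HasCompactSupport v) (hw : Continuous w)
    (hw' : HasCompactSupport w) (i : Fin 3) (x : Space) :
    marg i (fun z => a * u z + b * v z + c * w z) x =
      a * marg i u x + b * marg i v x + c * marg i w x := by
  rw [← marg_lin2 a b hu hu' hv hv', ← marg_const_mul]
  exact marg_add ((continuous_const.mul hu).add (continuous_const.mul hv))
    (hu'.mul_left.add hv'.mul_left) (continuous_const.mul hw) hw'.mul_left i x

/-- The function and its nine derivatives. -/
def jet (φ : Cfg 3 → ℝ) : Option (Fin 3 × Fin 3) → Cfg 3 → ℝ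
  | none => φ
  | some p => slotDeriv p.1 p.2 φ

lemma contDiff_jet (hφ : ContDiff ℝ ∞ φ) : ∀ o, ContDiff ℝ ∞ (jet φ o)
  | none => hφ
  | some _ => contDiff_slotDeriv hφ le_rfl _ _

lemma supp_jet (hc : HasCompactSupport φ) : ∀ o, HasCompactSupport (jet φ o)
  | none => hc
  | some _ => hasCompactSupport_slotDeriv hc _ _

lemma supp_sq (hc : HasCompactSupport g) : HasCompactSupport fun z => g z ^ 2 :=
  supp_of_zero hc fun z hz => by simp [image_eq_zero_of_notMem_tsupport hz]

lemma uMass_eq (i : Fin 3) (φ : Cfg 3 → ℝ) (x : Space) :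
    uMass i φ x = ∑ o, marg i (fun z => jet φ o z ^ 2) x := by
  rw [Fintype.sum_option, Fintype.sum_prod_type]
  rfl

lemma uMass_nonneg (i : Fin 3) (φ : Cfg 3 → ℝ) (x : Space) : 0 ≤ uMass i φ x := by
  rw [uMass_eq]
  exact Finset.sum_nonneg fun o _ => marg_nonneg (fun z => sq_nonneg _) i x

lemma contDiff_uMass (hφ : ContDiff ℝ ∞ φ) (hc : HasCompactSupport φ) (i : Fin 3) :
    ContDiff ℝ 2 (uMass i φ) := by
  rw [show uMass i φ = fun x => ∑ o, marg i (fun z => jet φ o z ^ 2) x from funext (uMass_eq i φ)]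
  exact ContDiff.sum fun o _ => contDiff_marg 2
    (((contDiff_jet hφ o).of_le (WithTop.coe_le_coe.2 le_top)).pow 2)
    (supp_sq (supp_jet hc o)) i

lemma hasCompactSupport_uMass (hc : HasCompactSupport φ) (i : Fin 3) :
    HasCompactSupport (uMass i φ) := by
  refine HasCompactSupport.intro (hc.isCompact.image (continuous_apply i)) fun x hx => ?_
  rw [uMass_eq]
  refine Finset.sum_eq_zero fun o _ => integral_eq_zero_of_ae (ae_of_all _ fun y => ?_)
  have h : i.insertNth x y ∉ tsupport φ := fun h' => hx ⟨i.insertNth x y, h', by simp⟩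
  cases o with
  | none => simp [jet, image_eq_zero_of_notMem_tsupport h]
  | some p => simp [jet, sd_zero_of_notMem h]

/-- The potential in a slice is bounded below by a part of the kinetic energy. -/
lemma marg_shift_ge (hδ : δ ≠ 0) (h0 : 0 ≤ lam) (hg : ContDiff ℝ 1 g) (hc : HasCompactSupport g)
    (i : Fin 3) (x : Space) :
    -((attrSq l δ x / 56 + 336 + 2 * |E|) * marg i (fun z => g z ^ 2) x + marg i (ySq i g) x / 2) ≤
      2 * marg i (fun z => (molPotR l lam δ z - E) * g z ^ 2) x := by
  have hcs := supp_sq hc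
  have hW : Continuous fun z => (molPotR l lam δ z - E) * g z ^ 2 :=
    ((contDiff_molPotR (m := 0) hδ).continuous.sub continuous_const).mul (hg.continuous.pow 2)
  have hQ : Continuous fun z => -(1 / 112) * (potQ l δ z * g z ^ 2) + -(168 + |E|) * g z ^ 2 :=
    (continuous_const.mul ((continuous_potQ hδ).mul (hg.continuous.pow 2))).add
      (continuous_const.mul (hg.continuous.pow 2))
  have hle : ∀ z, -(1 / 112) * (potQ l δ z * g z ^ 2) + -(168 + |E|) * g z ^ 2 ≤
      (molPotR l lam δ z - E) * g z ^ 2 := by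
    intro z
    have h1 := sum_attractR_le l δ z (show (0 : ℝ) < 1 / 112 by norm_num)
    have h2 := le_molPotR (l := l) (δ := δ) h0 z
    norm_num at h1
    nlinarith [le_abs_self E, sq_nonneg (g z)]
  have hQi : HasCompactSupport fun z => potQ l δ z * g z ^ 2 := hcs.mul_left
  have h := marg_mono hQ (hQi.mul_left.add hcs.mul_left) hW hcs.mul_left hle i x
  have e := marg_lin2 (-(1 / 112)) (-(168 + |E|)) (u := fun z => potQ l δ z * g z ^ 2)
    (v := fun z => g z ^ 2) ((continuous_potQ hδ).mul (hg.continuous.pow 2)) hQi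
    (hg.continuous.pow 2) hcs i x
  rw [e] at h
  have hpot := marg_potQ_le (l := l) hδ i hg hc x
  linarith

lemma lap_uMass_eq (hφ : ContDiff ℝ ∞ φ) (hc : HasCompactSupport φ) (i : Fin 3) (ε : ℝ)
    (x : Space) : lap (fun y => uMass i φ y + ε ^ 2) x / 2 = ∑ o, (marg i (xSq i (jet φ o)) x +
      marg i (ySq i (jet φ o)) x + marg i (fun z => jet φ o z * lapN (jet φ o) z) x) := by
  set F := jet φ
  have hF2 : ∀ o, ContDiff ℝ 2 (F o) := fun o =>
    (contDiff_jet hφ o).of_le (WithTop.coe_le_coe.2 le_top)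
  have hFc : ∀ o, HasCompactSupport (F o) := supp_jet hc
  have hP : ∀ o, ContDiff ℝ 2 (marg i fun z => F o z ^ 2) := fun o =>
    contDiff_marg 2 ((hF2 o).pow 2) (supp_sq (hFc o)) i
  have e : (fun y => uMass i φ y + ε ^ 2) =
      fun y => ∑ o, (marg i (fun z => F o z ^ 2) y +
        ε ^ 2 / Fintype.card (Option (Fin 3 × Fin 3))) := by
    funext y
    rw [Finset.sum_add_distrib, ← uMass_eq, Finset.sum_const, Finset.card_univ, nsmul_eq_mul]
    field_simp
  rw [e, lap_sum _ (fun o => (hP o).add contDiff_const), Finset.sum_div]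
  refine Finset.sum_congr rfl fun o _ => ?_
  rw [← lap_marg_sq (hF2 o) (hFc o)]
  congr 1
  have hc' : ∀ a, deriv3 a (fun y => marg i (fun z => F o z ^ 2) y +
      ε ^ 2 / Fintype.card (Option (Fin 3 × Fin 3))) = deriv3 a (marg i fun z => F o z ^ 2) :=
    fun a => funext fun y => by rw [deriv3, fderiv_add_const, deriv3]
  simp only [lap, hc']

lemma grad_uMass_le (hε : ε ≠ 0) (hφ : ContDiff ℝ ∞ φ) (hc : HasCompactSupport φ) (i a : Fin 3)
    (x : Space) :
    deriv3 a (fun y => uMass i φ y + ε ^ 2) x ^ 2 / (4 * (uMass i φ x + ε ^ 2)) ≤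
      ∑ o, marg i (fun z => slotDeriv i a (jet φ o) z ^ 2) x := by
  set F := jet φ
  have hF2 : ∀ o, ContDiff ℝ 2 (F o) := fun o =>
    (contDiff_jet hφ o).of_le (WithTop.coe_le_coe.2 le_top)
  have hF1 : ∀ o, ContDiff ℝ 1 (F o) := fun o => (hF2 o).of_le (by norm_num)
  have hFc : ∀ o, HasCompactSupport (F o) := supp_jet hc
  have hP : ∀ o, ContDiff ℝ 2 (marg i fun z => F o z ^ 2) := fun o =>
    contDiff_marg 2 ((hF2 o).pow 2) (supp_sq (hFc o)) i
  set A := uMass i φ x
  set B := ∑ o, marg i (fun z => slotDeriv i a (F o) z ^ 2) x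
  set C := ∑ o, marg i (fun z => F o z * slotDeriv i a (F o) z) x
  have hd : deriv3 a (fun y => uMass i φ y + ε ^ 2) x = 2 * C := by
    have e : uMass i φ = fun y => ∑ o, marg i (fun z => F o z ^ 2) y := funext (uMass_eq i φ)
    rw [deriv3, fderiv_add_const, e, fderiv_fun_sum fun o _ => (hP o).differentiable two_ne_zero x,
      FunLike.coe_sum, Finset.sum_apply, Finset.mul_sum]
    refine Finset.sum_congr rfl fun o _ => ?_
    rw [← marg_const_mul]
    refine (congrFun (deriv3_marg ((hF1 o).pow 2) (supp_sq (hFc o)) i a) x).trans ?_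
    congr 1
    funext z
    simp only [sq]
    rw [sd_mul ((hF1 o).differentiable one_ne_zero z) ((hF1 o).differentiable one_ne_zero z)]
    ring
  have hAB : C ^ 2 ≤ A * B := by
    have hA : A = ∑ o, marg i (fun z => F o z ^ 2) x := uMass_eq i φ x
    have hq : ∀ t : ℝ, 0 ≤ A * (t * t) + 2 * C * t + B := by
      intro t
      have ht : ∀ o, 0 ≤ marg i (fun z => (t * F o z + slotDeriv i a (F o) z) ^ 2) x :=
        fun o => marg_nonneg (fun z => sq_nonneg _) i x
      have e : ∀ o, marg i (fun z => (t * F o z + slotDeriv i a (F o) z) ^ 2) x =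
          t * t * marg i (fun z => F o z ^ 2) x +
            2 * t * marg i (fun z => F o z * slotDeriv i a (F o) z) x +
            marg i (fun z => slotDeriv i a (F o) z ^ 2) x := by
        intro o
        have c1 := continuous_slotDeriv (hF1 o) i a
        have s1 := hasCompactSupport_slotDeriv (hFc o) i a
        rw [← one_mul (marg i (fun z => slotDeriv i a (F o) z ^ 2) x),
          ← marg_lin3 (t * t) (2 * t) 1 (u := fun z => F o z ^ 2)
            (v := fun z => F o z * slotDeriv i a (F o) z)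
            (w := fun z => slotDeriv i a (F o) z ^ 2) ((hF1 o).continuous.pow 2)
            (supp_sq (hFc o)) ((hF1 o).continuous.mul c1) s1.mul_left (c1.pow 2) (supp_sq s1)]
        congr 1
        funext z
        ring
      have := Finset.sum_nonneg fun o (_ : o ∈ Finset.univ) => ht o
      simp only [e, Finset.sum_add_distrib, ← Finset.mul_sum] at this
      rw [← hA] at this
      linarith
    have := discrim_le_zero hq
    rw [discrim] at this
    nlinarith
  rw [hd, div_le_iff₀ (by have := uMass_nonneg i φ x; positivity)]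
  have hB : 0 ≤ B := Finset.sum_nonneg fun o _ => marg_nonneg (fun z => sq_nonneg _) i x
  nlinarith [sq_nonneg ε, mul_nonneg hB (sq_nonneg ε)]

lemma marg_lap_ge (hδ : δ ≠ 0) (h0 : 0 ≤ lam) (hφ : ContDiff ℝ ∞ φ) (hc : HasCompactSupport φ)
    (i : Fin 3) (x : Space) :
    -((attrSq l δ x / 56 + 336 + 2 * |E|) * marg i (fun z => φ z ^ 2) x +
          marg i (ySq i φ) x / 2) -
        2 * marg i (fun z => φ z * resid l lam δ E φ z) x ≤
      marg i (fun z => φ z * lapN φ z) x := by
  set r := resid l lam δ E φ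
  have hr : ContDiff ℝ ∞ r := contDiff_resid hδ hφ
  have hrc : HasCompactSupport r := supp_resid hc
  have hφ1 : ContDiff ℝ 1 φ := hφ.of_le (WithTop.coe_le_coe.2 le_top)
  have hWc : Continuous fun z : Cfg 3 => molPotR l lam δ z - E :=
    (contDiff_molPotR (m := 0) hδ).continuous.sub continuous_const
  have h := marg_shift_ge (l := l) (E := E) hδ h0 hφ1 hc i x
  have e : marg i (fun z => φ z * lapN φ z) x =
      2 * marg i (fun z => (molPotR l lam δ z - E) * φ z ^ 2) x +
        (-2) * marg i (fun z => φ z * r z) x := by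
    rw [← marg_lin2 2 (-2) (u := fun z => (molPotR l lam δ z - E) * φ z ^ 2)
        (v := fun z => φ z * r z) (hWc.mul (hφ.continuous.pow 2)) (supp_mulL _ (supp_sq hc))
        (hφ.continuous.mul hr.continuous) (supp_mulL _ hrc)]
    congr 1
    funext z
    simp only [r]
    rw [lapN_eq_resid (l := l) (lam := lam) (δ := δ) (E := E)]
    ring
  rw [e]
  linarith

lemma marg_lap_deriv_ge (hδ : δ ≠ 0) (h0 : 0 ≤ lam) (h1 : lam ≤ 1) (hφ : ContDiff ℝ ∞ φ)
    (hc : HasCompactSupport φ) (i j b : Fin 3) (x : Space) :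
    -((attrSq l δ x / 28 + 336 + 2 * |E|) * marg i (fun z => slotDeriv j b φ z ^ 2) x +
          marg i (ySq i (slotDeriv j b φ)) x +
          56 * (attrSq l δ x * marg i (fun z => φ z ^ 2) x + 28 * marg i (ySq i φ) x)) -
        2 * marg i (fun z => slotDeriv j b φ z * slotDeriv j b (resid l lam δ E φ) z) x ≤
      marg i (fun z => slotDeriv j b φ z * lapN (slotDeriv j b φ) z) x := by
  set r := resid l lam δ E φ
  have hr : ContDiff ℝ ∞ r := contDiff_resid hδ hφ
  have hrc : HasCompactSupport r := supp_resid hc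
  have hφ1 : ContDiff ℝ 1 φ := hφ.of_le (WithTop.coe_le_coe.2 le_top)
  have hWc : Continuous fun z : Cfg 3 => molPotR l lam δ z - E :=
    (contDiff_molPotR (m := 0) hδ).continuous.sub continuous_const
  set aq := attrSq l δ x
  set G := slotDeriv j b φ
  have hG : ContDiff ℝ 1 G :=
    (contDiff_slotDeriv hφ le_rfl j b).of_le (WithTop.coe_le_coe.2 le_top)
  have hGc : HasCompactSupport G := hasCompactSupport_slotDeriv hc j b
  set dW := fun z => slotDeriv j b (molPotR l lam δ) z
  have hdW : Continuous dW := continuous_slotDeriv (contDiff_molPotR hδ) j b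
  have hrd : Continuous (slotDeriv j b r) :=
    continuous_slotDeriv (hr.of_le (WithTop.coe_le_coe.2 le_top)) j b
  have e : marg i (fun z => G z * lapN G z) x =
      2 * marg i (fun z => (molPotR l lam δ z - E) * G z ^ 2) x +
        2 * marg i (fun z => dW z * (φ z * G z)) x +
        (-2) * marg i (fun z => G z * slotDeriv j b r z) x := by
    rw [← marg_lin3 2 2 (-2) (u := fun z => (molPotR l lam δ z - E) * G z ^ 2)
        (v := fun z => dW z * (φ z * G z)) (w := fun z => G z * slotDeriv j b r z)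
        (hWc.mul (hG.continuous.pow 2)) (supp_mulL _ (supp_sq hGc))
        (hdW.mul (hφ.continuous.mul hG.continuous)) (supp_mulL _ (supp_mulL _ hGc))
        (hG.continuous.mul hrd) (supp_mulL _ (hasCompactSupport_slotDeriv hrc j b))]
    congr 1
    funext z
    have h3 : ContDiff ℝ 3 φ := hφ.of_le (WithTop.coe_le_coe.2 le_top)
    have hVd : DifferentiableAt ℝ (fun w => molPotR l lam δ w - E) z :=
      (((contDiff_molPotR (m := 1) hδ).sub contDiff_const).differentiable one_ne_zero) z
    have hφd : DifferentiableAt ℝ φ z := hφ1.differentiable one_ne_zero z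
    have hrd' : DifferentiableAt ℝ r z :=
      (hr.of_le (WithTop.coe_le_coe.2 le_top) : ContDiff ℝ 1 r).differentiable one_ne_zero z
    have hl : lapN G z = 2 * (((molPotR l lam δ z - E) * G z + dW z * φ z) - slotDeriv j b r z) := by
      rw [← sd_lapN h3, show lapN φ = fun w => 2 * ((molPotR l lam δ w - E) * φ w - r w) from
        funext fun w => lapN_eq_resid φ w, sd_const_mul ((hVd.fun_mul hφd).fun_sub hrd'),
        sd_sub (hVd.fun_mul hφd) hrd', sd_mul hVd hφd]
      have : slotDeriv j b (fun w => molPotR l lam δ w - E) z = dW z := by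
        simp only [dW, slotDeriv, fderiv_sub_const]
      rw [this]
    rw [hl]
    ring
  have hsh := marg_shift_ge (l := l) (E := E) hδ h0 hG hGc i x
  have hx1 : -((1 / 56) * (aq * marg i (fun z => G z ^ 2) x + 28 * marg i (ySq i G) x) +
      56 * (aq * marg i (fun z => φ z ^ 2) x + 28 * marg i (ySq i φ) x)) ≤ 2 * marg i (fun z => dW z * (φ z * G z)) x := by
    have hQ := continuous_potQ (l := l) hδ
    have hle : ∀ z, -(1 / 56) * (potQ l δ z * G z ^ 2) + (-56) * (potQ l δ z * φ z ^ 2) ≤
        2 * (dW z * (φ z * G z)) := by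
      intro z
      have hd := abs_le.1 (abs_slotDeriv_molPotR_le (l := l) hδ h0 h1 z j b)
      have hq := potQ_nonneg l δ z
      nlinarith [mul_nonneg (sub_nonneg.2 hd.2) (sq_nonneg (G z - 56 * φ z)),
        mul_nonneg (neg_le_iff_add_nonneg.1 hd.1) (sq_nonneg (G z + 56 * φ z))]
    have s1 := supp_mulL (fun z => potQ l δ z) (supp_sq hGc)
    have s2 := supp_mulL (fun z => potQ l δ z) (supp_sq hc)
    have s3 := supp_mulL dW (supp_mulL φ hGc)
    have h' := marg_mono (u := fun z => -(1 / 56) * (potQ l δ z * G z ^ 2) +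
        (-56) * (potQ l δ z * φ z ^ 2)) (v := fun z => 2 * (dW z * (φ z * G z)))
      ((continuous_const.mul (hQ.mul (hG.continuous.pow 2))).add
        (continuous_const.mul (hQ.mul (hφ.continuous.pow 2))))
      (supp_of_zero hc fun z hz => by
        simp [G, sd_zero_of_notMem hz, image_eq_zero_of_notMem_tsupport hz])
      (continuous_const.mul (hdW.mul (hφ.continuous.mul hG.continuous)))
      (supp_mulL (fun _ => (2 : ℝ)) s3) hle i x
    have e1 := marg_lin2 (-(1 / 56)) (-56) (u := fun z => potQ l δ z * G z ^ 2)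
      (v := fun z => potQ l δ z * φ z ^ 2) (hQ.mul (hG.continuous.pow 2)) s1
      (hQ.mul (hφ.continuous.pow 2)) s2 i x
    have e2 := marg_const_mul 2 (fun z => dW z * (φ z * G z)) i x
    rw [e1, e2] at h'
    have hp1 := marg_potQ_le (l := l) hδ i hG hGc x
    have hp2 := marg_potQ_le (l := l) hδ i hφ1 hc x
    linarith
  rw [e]
  linarith

/-- The subsolution inequality, pointwise. -/
theorem kato_ineq (hδ : δ ≠ 0) (h0 : 0 ≤ lam) (h1 : lam ≤ 1) (hε : ε ≠ 0) (hφ : ContDiff ℝ ∞ φ)
    (hc : HasCompactSupport φ) (i : Fin 3) (x : Space) :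
    -((15000 + 2 * |E| + 505 * attrSq l δ x) * uMass i φ x) -
        2 * marg i (fun z => φ z * resid l lam δ E φ z) x -
        2 * ∑ p : Fin 3 × Fin 3,
          marg i (fun z => slotDeriv p.1 p.2 φ z * slotDeriv p.1 p.2 (resid l lam δ E φ) z) x ≤
      √(uMass i φ x + ε ^ 2) * lap (fun y => √(uMass i φ y + ε ^ 2)) x := by
  have hF1 : ∀ o, ContDiff ℝ 1 (jet φ o) := fun o =>
    (contDiff_jet hφ o).of_le (WithTop.coe_le_coe.2 le_top)
  have hpos : ∀ y, 0 < uMass i φ y + ε ^ 2 := fun y => by
    have := uMass_nonneg i φ y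
    positivity
  have hgsum : (∑ a, deriv3 a (fun y => uMass i φ y + ε ^ 2) x ^ 2) /
      (4 * (uMass i φ x + ε ^ 2)) ≤ ∑ o, marg i (xSq i (jet φ o)) x := by
    rw [Finset.sum_div]
    refine (Finset.sum_le_sum fun a _ => grad_uMass_le hε hφ hc i a x).trans_eq ?_
    rw [Finset.sum_comm]
    refine Finset.sum_congr rfl fun o _ => (marg_sum _
      (fun a => (continuous_slotDeriv (hF1 o) i a).pow 2)
      (fun a => supp_sq (hasCompactSupport_slotDeriv (supp_jet hc o) i a)) i x).symm
  rw [sqrt_mul_lap_sqrt ((contDiff_uMass hφ hc i).add contDiff_const) hpos x,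
    lap_uMass_eq hφ hc i ε x]
  set aq := attrSq l δ x
  have haq : 0 ≤ aq := attrSq_nonneg _ _ _
  set P := fun o => marg i (fun z => jet φ o z ^ 2) x
  set Y := fun o => marg i (ySq i (jet φ o)) x
  set L := fun o => marg i (fun z => jet φ o z * lapN (jet φ o) z) x
  set R := fun p : Fin 3 × Fin 3 =>
    marg i (fun z => slotDeriv p.1 p.2 φ z * slotDeriv p.1 p.2 (resid l lam δ E φ) z) x
  have hY : 0 ≤ Y none := marg_nonneg (fun z => Finset.sum_nonneg fun k _ =>
    Finset.sum_nonneg fun a _ => sq_nonneg _) i x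
  have hnone : -((aq / 56 + 336 + 2 * |E|) * P none + Y none / 2) -
      2 * marg i (fun z => φ z * resid l lam δ E φ z) x ≤ L none := marg_lap_ge hδ h0 hφ hc i x
  have hsome : ∀ p : Fin 3 × Fin 3,
      -((aq / 28 + 336 + 2 * |E|) * P (some p) + Y (some p) + 56 * (aq * P none + 28 * Y none)) -
        2 * R p ≤ L (some p) := fun p => marg_lap_deriv_ge hδ h0 h1 hφ hc i p.1 p.2 x
  have hgN : Y none ≤ ∑ p : Fin 3 × Fin 3, P (some p) := by
    have c0 : ∀ p : Fin 3 × Fin 3, Continuous fun z => slotDeriv p.1 p.2 φ z ^ 2 := fun p =>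
      (hF1 (some p)).continuous.pow 2
    have h := marg_mono (cont_ySq (i := i) (hF1 none)) (supp_ySq (supp_jet hc none))
      (continuous_finsetSum Finset.univ fun p _ => c0 p)
      (supp_of_zero hc fun z hz => by simp [sd_zero_of_notMem hz])
      (fun z => by
        have hn : 0 ≤ xSq i φ z := Finset.sum_nonneg fun a _ => sq_nonneg _
        have e := gradN_eq i φ z
        rw [gradN, ← Fintype.sum_prod_type'] at e
        change ySq i φ z ≤ _
        linarith) i x
    rwa [marg_sum _ c0 (fun p => supp_sq (supp_jet hc (some p)))] at h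
  have hUs : uMass i φ x = P none + ∑ p, P (some p) := by rw [uMass_eq, Fintype.sum_option]
  have hsum := Finset.sum_le_sum fun p (_ : p ∈ Finset.univ) => hsome p
  simp only [Finset.sum_sub_distrib, Finset.sum_add_distrib, Finset.sum_neg_distrib,
    ← Finset.mul_sum, Finset.sum_const, Finset.card_univ, Fintype.card_prod, Fintype.card_fin,
    nsmul_eq_mul] at hsum
  push_cast at hsum
  have hLY : ∑ o, (marg i (xSq i (jet φ o)) x + Y o + L o) =
      (∑ o, marg i (xSq i (jet φ o)) x) + (Y none + ∑ p, Y (some p)) +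
        (L none + ∑ p, L (some p)) := by
    rw [Finset.sum_add_distrib, Finset.sum_add_distrib, Fintype.sum_option (f := Y),
      Fintype.sum_option (f := L)]
  have hP0 : 0 ≤ P none := marg_nonneg (fun z => sq_nonneg _) i x
  have hPs : 0 ≤ ∑ p, P (some p) :=
    Finset.sum_nonneg fun p _ => marg_nonneg (fun z => sq_nonneg _) i x
  have hE := abs_nonneg E
  have hm1 := mul_nonneg haq hP0
  have hm2 := mul_nonneg haq hPs
  rw [hUs] at hgsum ⊢
  change _ ≤ ∑ o, (marg i (xSq i (jet φ o)) x + Y o + L o) - _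
  rw [hLY]
  linarith

end Vale.Agent.P363.Inter
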