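import Vale.Agent.P363.Inter.Slice.Split

/-!
P363, interacting side: further facts on integrating a function of all electrons over all
positions but one.
-/

noncomputable section

namespace Vale.Agent.P363.Inter

open MeasureTheory Filter ContinuousLinearMap
open scoped BigOperators Topology

variable {n : ℕ} {i : Fin (n + 1)} {g h : Cfg (n + 1) → ℝ}

lemma contDiff_ins_right {m : WithTop ℕ∞} (i : Fin (n + 1)) (x : Space) :
    ContDiff ℝ m fun y : Cfg n => (i.insertNth x y : Cfg (n + 1)) := by
  have h : ContDiff ℝ m fun y : Cfg n => insL i (x, y) :=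
    (insL i).contDiff.comp (contDiff_const.prodMk contDiff_id)
  simpa only [insL_apply] using h

/-- The derivative of a slice in the position of a remaining electron. -/
lemma slotDeriv_slice_right (x : Space) (k : Fin n) (a : Fin 3) {y : Cfg n}
    (hg : DifferentiableAt ℝ g (i.insertNth x y)) :
    slotDeriv k a (fun y' => g (i.insertNth x y')) y =
      slotDeriv (i.succAbove k) a g (i.insertNth x y) := by
  have hd : HasFDerivAt (fun y : Cfg n => g (i.insertNth x y)) _ y :=
    hg.hasFDerivAt.comp y (hasFDerivAt_ins_y i x y)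
  rw [slotDeriv_eq, slotDeriv_eq, hd.fderiv]
  simp [insL_apply, ins_unitN]

lemma continuous_slice (hg : Continuous g) (i : Fin (n + 1)) (x : Space) :
    Continuous fun y : Cfg n => g (i.insertNth x y) :=
  hg.comp ((continuous_ins i).comp (continuous_const.prodMk continuous_id))

lemma hasCompactSupport_slice (hc : HasCompactSupport g) (i : Fin (n + 1)) (x : Space) :
    HasCompactSupport fun y : Cfg n => g (i.insertNth x y) := by
  obtain ⟨S, hS, hS0⟩ := exists_bound_ins i hc
  exact HasCompactSupport.intro hS fun y hy => image_eq_zero_of_notMem_tsupport (hS0 x y hy)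

lemma integrable_slice (hg : Continuous g) (hc : HasCompactSupport g) (i : Fin (n + 1))
    (x : Space) : Integrable fun y : Cfg n => g (i.insertNth x y) :=
  (continuous_slice hg i x).integrable_of_hasCompactSupport (hasCompactSupport_slice hc i x)

lemma continuous_marg (hg : Continuous g) (hc : HasCompactSupport g) (i : Fin (n + 1)) :
    Continuous (marg i g) := by
  obtain ⟨S, hS, hS0⟩ := exists_bound_ins i hc
  have h := continuous_parametric_integral_of_continuous (μ := (volume : Measure (Cfg n)))
    (f := fun (x : Space) (y : Cfg n) => g (i.insertNth x y)) (hg.comp (continuous_ins i)) hS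
  exact h.congr fun x => setIntegral_eq_integral_of_forall_compl_eq_zero fun y hy =>
    image_eq_zero_of_notMem_tsupport (hS0 x y hy)

lemma hasCompactSupport_marg (hc : HasCompactSupport g) (i : Fin (n + 1)) :
    HasCompactSupport (marg i g) :=
  HasCompactSupport.intro (hc.isCompact.image (continuous_apply i)) fun x hx =>
    integral_eq_zero_of_ae (ae_of_all _ fun y => image_eq_zero_of_notMem_tsupport fun h' =>
      hx ⟨i.insertNth x y, h', by simp⟩)

lemma continuous_slotDeriv (hg : ContDiff ℝ 1 g) (j : Fin (n + 1)) (a : Fin 3) :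
    Continuous (slotDeriv j a g) :=
  (hg.continuous_fderiv one_ne_zero).clm_apply continuous_const

lemma hasCompactSupport_slotDeriv (hc : HasCompactSupport g) (j : Fin (n + 1)) (a : Fin 3) :
    HasCompactSupport (slotDeriv j a g) :=
  hc.fderiv_apply ℝ _

lemma contDiff_slotDeriv {m p : WithTop ℕ∞} (hg : ContDiff ℝ p g) (h : m + 1 ≤ p) (j : Fin (n + 1))
    (a : Fin 3) : ContDiff ℝ m (slotDeriv j a g) :=
  (hg.fderiv_right h).clm_apply contDiff_const

lemma deriv3_marg (hg : ContDiff ℝ 1 g) (hc : HasCompactSupport g) (i : Fin (n + 1)) (a : Fin 3) :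
    deriv3 a (marg i g) = marg i (slotDeriv i a g) :=
  funext fun x => ((IsC1.marg ⟨hg, hc⟩ i).2.2 a x)

lemma sum_coord_unit3 (v : Space) : v = ∑ a, v a • unit3 a := by
  ext b; simp [unit3, Fin.sum_univ_three]; fin_cases b <;> simp

lemma contDiff_marg : ∀ (m : ℕ) {g : Cfg (n + 1) → ℝ}, ContDiff ℝ m g → HasCompactSupport g →
    ∀ i : Fin (n + 1), ContDiff ℝ m (marg i g)
  | 0, g, hg, hc, i => by
    rw [Nat.cast_zero, contDiff_zero] at hg ⊢
    exact continuous_marg hg hc i
  | m + 1, g, hg, hc, i => by
    have h1 : ContDiff ℝ 1 g := hg.of_le (by simp)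
    push_cast at hg ⊢
    have hd : Differentiable ℝ (marg i g) := (IsC1.marg ⟨h1, hc⟩ i).1.differentiable one_ne_zero
    refine contDiff_succ_iff_fderiv.2 ⟨hd, by simp, ?_⟩
    rw [show fderiv ℝ (marg i g) = fun x => ∑ a,
      (EuclideanSpace.proj a : Space →L[ℝ] ℝ).smulRight (marg i (slotDeriv i a g) x) from
      funext fun x => ContinuousLinearMap.ext fun v => by
        conv_lhs => rw [sum_coord_unit3 v]
        simp only [map_sum, map_smul, sum_apply, smulRight_apply, PiLp.proj_apply, smul_eq_mul]
        exact Finset.sum_congr rfl fun a _ => by rw [← deriv3_marg h1 hc i a]; rfl]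
    exact ContDiff.sum fun a _ => contDiff_const.smulRight
      (contDiff_marg m (contDiff_slotDeriv hg le_rfl i a) (hasCompactSupport_slotDeriv hc i a) i)

lemma integrable_marg (hg : Integrable g) (i : Fin (n + 1)) : Integrable (marg i g) :=
  (integrable_slices i hg).2

lemma integral_marg (hg : Integrable g) (i : Fin (n + 1)) : ∫ x, marg i g x = ∫ z, g z :=
  (integral_split i hg).symm

lemma marg_mul_left (c : Space → ℝ) (g : Cfg (n + 1) → ℝ) (i : Fin (n + 1)) (x : Space) :
    marg i (fun z => c (z i) * g z) x = c x * marg i g x := by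
  simp only [marg, Fin.insertNth_apply_same, integral_const_mul]

/-- Weights in the position of electron `i`. -/
lemma integral_mul_marg {c : Space → ℝ} (hg : Integrable fun z : Cfg (n + 1) => c (z i) * g z) :
    ∫ x, c x * marg i g x = ∫ z, c (z i) * g z := by
  rw [← integral_marg hg i]
  simp only [marg_mul_left]

lemma abs_marg_le (g : Cfg (n + 1) → ℝ) (i : Fin (n + 1)) (x : Space) :
    |marg i g x| ≤ marg i (fun z => |g z|) x := abs_integral_le_integral_abs

lemma marg_nonneg (hg : ∀ z, 0 ≤ g z) (i : Fin (n + 1)) (x : Space) : 0 ≤ marg i g x :=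
  integral_nonneg fun _ => hg _

end Vale.Agent.P363.Inter
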