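import Vale.Agent.P363.Inter.Slice.Split
import Vale.Agent.P363.Inter.Reg.Marg

/-!
P363, interacting side: convergence in the mean, of products and of their partial integrals.
-/

noncomputable section

namespace Vale.Agent.P363.Inter

open MeasureTheory Filter
open scoped BigOperators Topology

variable {X : Type*} [MeasurableSpace X] {μ : Measure X}

/-- `g k` tends to `G` in the mean, all of them integrable. -/
structure L1Lim (μ : Measure X) (g : ℕ → X → ℝ) (G : X → ℝ) : Prop where
  mem : ∀ k, Integrable (g k) μ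
  lim_mem : Integrable G μ
  tendsto : Tendsto (fun k => ∫ x, |g k x - G x| ∂μ) atTop (𝓝 0)

theorem SqLim.mul {a b : ℕ → X → ℝ} {A B : X → ℝ} (ha : SqLim μ a A) (hb : SqLim μ b B) :
    L1Lim μ (fun k x => a k x * b k x) fun x => A x * B x := by
  refine ⟨fun k => (ha.mem k).integrable_mul (hb.mem k), ha.lim_mem.integrable_mul hb.lim_mem, ?_⟩
  set u := fun k x => a k x - A x
  set v := fun k x => b k x - B x
  have hu : ∀ k, MemLp (fun x => |u k x|) 2 μ := fun k => ((ha.mem k).sub ha.lim_mem).abs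
  have hv : ∀ k, MemLp (fun x => |v k x|) 2 μ := fun k => ((hb.mem k).sub hb.lim_mem).abs
  have hbA : ∀ k, MemLp (fun x => |b k x|) 2 μ := fun k => (hb.mem k).abs
  refine squeeze_zero (fun k => integral_nonneg fun x => abs_nonneg _) (fun k => ?_)
    (show Tendsto (fun k => √(∫ x, u k x ^ 2 ∂μ) * √(∫ x, b k x ^ 2 ∂μ) +
      √(∫ x, A x ^ 2 ∂μ) * √(∫ x, v k x ^ 2 ∂μ)) atTop (𝓝 0) by
      simpa using ((ha.tendsto.sqrt).mul hb.integral_sq.sqrt).add
        ((tendsto_const_nhds (x := √(∫ x, A x ^ 2 ∂μ))).mul hb.tendsto.sqrt))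
  have i1 : Integrable (fun x => |u k x| * |b k x|) μ := (hu k).integrable_mul (hbA k)
  have i2 : Integrable (fun x => |A x| * |v k x|) μ := ha.lim_mem.abs.integrable_mul (hv k)
  refine (integral_mono (((ha.mem k).integrable_mul (hb.mem k)).sub
    (ha.lim_mem.integrable_mul hb.lim_mem)).abs (i1.add i2) fun x => ?_).trans ?_
  · simp only [Pi.add_apply, Pi.sub_apply, Pi.mul_apply, u, v, ← abs_mul]
    refine le_trans (le_of_eq ?_) (abs_add_le _ _)
    congr 1
    ring
  · rw [integral_add' i1 i2]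
    refine add_le_add ?_ ?_
    · exact (le_abs_self _).trans ((abs_integral_mul_le (hu k) (hbA k)).trans_eq
        (by simp only [sq_abs]))
    · exact (le_abs_self _).trans ((abs_integral_mul_le ha.lim_mem.abs (hv k)).trans_eq
        (by simp only [Pi.abs_apply, sq_abs]))

namespace L1Lim

variable {g h : ℕ → X → ℝ} {G H : X → ℝ}

theorem congr (e : L1Lim μ g G) (hg : ∀ k, g k =ᵐ[μ] h k) (hG : G =ᵐ[μ] H) : L1Lim μ h H :=
  ⟨fun k => (e.mem k).congr (hg k), e.lim_mem.congr hG, e.tendsto.congr fun k =>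
    integral_congr_ae ((hg k).mp (hG.mono fun x h1 h2 => by simp only; rw [h1, h2]))⟩

theorem add (e : L1Lim μ g G) (e' : L1Lim μ h H) :
    L1Lim μ (fun k x => g k x + h k x) fun x => G x + H x := by
  refine ⟨fun k => (e.mem k).add (e'.mem k), e.lim_mem.add e'.lim_mem, ?_⟩
  have i1 := fun k => ((e.mem k).sub e.lim_mem).abs
  have i2 := fun k => ((e'.mem k).sub e'.lim_mem).abs
  refine squeeze_zero (fun k => integral_nonneg fun x => abs_nonneg _) (fun k => ?_)
    (by simpa using e.tendsto.add e'.tendsto)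
  refine (integral_mono_of_nonneg (Eventually.of_forall fun x => abs_nonneg _)
    ((i1 k).add (i2 k)) (Eventually.of_forall fun x => ?_)).trans_eq (integral_add (i1 k) (i2 k))
  simp only [Pi.add_apply, Pi.sub_apply, add_sub_add_comm]
  exact abs_add_le _ _

theorem smul (e : L1Lim μ g G) (c : ℝ) :
    L1Lim μ (fun k x => c * g k x) fun x => c * G x := by
  refine ⟨fun k => (e.mem k).const_mul c, e.lim_mem.const_mul c, ?_⟩
  simp only [← mul_sub, abs_mul, integral_const_mul]
  simpa using e.tendsto.const_mul |c|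

theorem sum {ι : Type*} (s : Finset ι) {g : ι → ℕ → X → ℝ} {G : ι → X → ℝ}
    (e : ∀ i ∈ s, L1Lim μ (g i) (G i)) :
    L1Lim μ (fun k x => ∑ i ∈ s, g i k x) fun x => ∑ i ∈ s, G i x := by
  classical
  induction s using Finset.induction with
  | empty => exact ⟨fun _ => by simp, by simp, by simp⟩
  | insert i s hi ih =>
    simp only [Finset.sum_insert hi]
    exact (e i (Finset.mem_insert_self i s)).add
      (ih fun j hj => e j (Finset.mem_insert_of_mem hj))

theorem mul_bdd (e : L1Lim μ g G) {w : X → ℝ} (hw : AEStronglyMeasurable w μ) {B : ℝ}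
    (hB : ∀ x, |w x| ≤ B) : L1Lim μ (fun k x => w x * g k x) fun x => w x * G x := by
  have hm : ∀ {u : X → ℝ}, Integrable u μ → Integrable (fun x => w x * u x) μ := fun {u} hu =>
    hu.bdd_mul hw (Eventually.of_forall fun x => by rw [Real.norm_eq_abs]; exact hB x)
  refine ⟨fun k => hm (e.mem k), hm e.lim_mem,
    squeeze_zero (fun k => integral_nonneg fun x => abs_nonneg _) (fun k => ?_)
      (by simpa using e.tendsto.const_mul B)⟩
  rw [← integral_const_mul]
  refine integral_mono ((hm (e.mem k)).sub (hm e.lim_mem)).abs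
    (((e.mem k).sub e.lim_mem).abs.const_mul _) fun x => ?_
  simp only [← mul_sub, abs_mul]
  exact mul_le_mul_of_nonneg_right (hB x) (abs_nonneg _)

theorem integral (e : L1Lim μ g G) :
    Tendsto (fun k => ∫ x, g k x ∂μ) atTop (𝓝 (∫ x, G x ∂μ)) := by
  refine tendsto_sub_nhds_zero_iff.1 (squeeze_zero_norm (fun k => ?_) e.tendsto)
  rw [← integral_sub (e.mem k) e.lim_mem, Real.norm_eq_abs]
  exact abs_integral_le_integral_abs

theorem exists_ae (e : L1Lim μ g G) :
    ∃ ns : ℕ → ℕ, StrictMono ns ∧ ∀ᵐ x ∂μ, Tendsto (fun j => g (ns j) x) atTop (𝓝 (G x)) := by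
  refine (tendstoInMeasure_of_tendsto_eLpNorm (p := 1) one_ne_zero (fun k => (e.mem k).1)
    e.lim_mem.1 ?_).exists_seq_tendsto_ae
  have he : ∀ k, eLpNorm (g k - G) 1 μ = ENNReal.ofReal (∫ x, |g k x - G x| ∂μ) := fun k => by
    rw [eLpNorm_one_eq_lintegral_enorm,
      ← ofReal_integral_norm_eq_lintegral_enorm ((e.mem k).sub e.lim_mem)]
    rfl
  simp only [he]
  simpa using ENNReal.tendsto_ofReal e.tendsto

theorem subseq (e : L1Lim μ g G) {ns : ℕ → ℕ} (hns : StrictMono ns) :
    L1Lim μ (fun j => g (ns j)) G :=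
  ⟨fun j => e.mem _, e.lim_mem, e.tendsto.comp hns.tendsto_atTop⟩

/-- Inequalities pass to the limit. -/
theorem ae_le (e : L1Lim μ g G) (e' : L1Lim μ h H) (hle : ∀ k, g k ≤ᵐ[μ] h k) : G ≤ᵐ[μ] H := by
  obtain ⟨ns, hns, h1⟩ := e.exists_ae
  obtain ⟨ms, hms, h2⟩ := (e'.subseq hns).exists_ae
  filter_upwards [h1, h2, ae_all_iff.2 hle] with x hx hy hxy
  exact le_of_tendsto_of_tendsto' (hx.comp hms.tendsto_atTop) hy fun j => hxy _

theorem marg {n : ℕ} {g : ℕ → Cfg (n + 1) → ℝ} {G : Cfg (n + 1) → ℝ} (e : L1Lim volume g G)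
    (i : Fin (n + 1)) :
    L1Lim volume (fun k => Inter.marg i (g k)) (Inter.marg i G) := by
  refine ⟨fun k => integrable_marg (e.mem k) i, integrable_marg e.lim_mem i,
    squeeze_zero (fun k => integral_nonneg fun x => abs_nonneg _) (fun k => ?_) e.tendsto⟩
  have hd : Integrable fun z => |g k z - G z| := ((e.mem k).sub e.lim_mem).abs
  rw [← integral_marg hd i]
  refine integral_mono_ae ((integrable_marg (e.mem k) i).sub (integrable_marg e.lim_mem i)).abs
    (integrable_marg hd i) ?_
  filter_upwards [(integrable_slices i (e.mem k)).1, (integrable_slices i e.lim_mem).1]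
    with x h1 h2
  change |Inter.marg i (g k) x - Inter.marg i G x| ≤ _
  simp only [Inter.marg]
  rw [← integral_sub h1 h2]
  exact abs_integral_le_integral_abs

end L1Lim

end Vale.Agent.P363.Inter
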