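import Vale.Agent.P363.Inter.Reg.Approx
import Vale.Agent.P363.Inter.Reg.Kato
import Vale.Agent.P363.Inter.Reg.Mean

/-!
P363, interacting side: the weak equation of the mass of a slice of a lowest state, and the bound
of its right side by the mass and gradient mass.
-/

noncomputable section

namespace Vale.Agent.P363.Inter

open MeasureTheory Filter Set
open scoped BigOperators Topology ContDiff

variable {i : Fin 3} {l lam E M : ℝ} {f : Cfg 3 → ℝ} {D : Fin 3 → Fin 3 → Cfg 3 → ℝ}
  {φ : ℕ → Cfg 3 → ℝ} {δ : ℕ → ℝ}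

/-- The mass of a slice. -/
def pMass (i : Fin 3) (f : Cfg 3 → ℝ) : Space → ℝ := marg i fun z => f z ^ 2

/-- The mass of the gradient in a slice. -/
def dMass (i : Fin 3) (D : Fin 3 → Fin 3 → Cfg 3 → ℝ) (x : Space) : ℝ :=
  ∑ j, ∑ a, marg i (fun z => D j a z ^ 2) x

/-- The mass and gradient mass of a slice. -/
def uLim (i : Fin 3) (f : Cfg 3 → ℝ) (D : Fin 3 → Fin 3 → Cfg 3 → ℝ) (x : Space) : ℝ :=
  pMass i f x + dMass i D x

/-- The gradient of the mass of a slice. -/
def gnP (i : Fin 3) (f : Cfg 3 → ℝ) (D : Fin 3 → Fin 3 → Cfg 3 → ℝ) (a : Fin 3) (x : Space) : ℝ :=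
  2 * marg i (fun z => f z * D i a z) x

/-- The Laplacian of the mass of a slice. -/
def lnP (l lam E : ℝ) (i : Fin 3) (f : Cfg 3 → ℝ) (D : Fin 3 → Fin 3 → Cfg 3 → ℝ) (x : Space) :
    ℝ :=
  2 * dMass i D x + 4 * marg i (fun z => molPot l lam z * f z * f z) x - 4 * E * pMass i f x

lemma pMass_nonneg (i : Fin 3) (f : Cfg 3 → ℝ) (x : Space) : 0 ≤ pMass i f x :=
  marg_nonneg (fun _ => sq_nonneg _) i x

lemma dMass_nonneg (i : Fin 3) (D : Fin 3 → Fin 3 → Cfg 3 → ℝ) (x : Space) : 0 ≤ dMass i D x :=
  Finset.sum_nonneg fun _ _ => Finset.sum_nonneg fun _ _ => marg_nonneg (fun _ => sq_nonneg _) i x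

lemma uLim_nonneg (i : Fin 3) (f : Cfg 3 → ℝ) (D : Fin 3 → Fin 3 → Cfg 3 → ℝ) (x : Space) :
    0 ≤ uLim i f D x :=
  add_nonneg (pMass_nonneg i f x) (dMass_nonneg i D x)

lemma pMass_le_uLim (i : Fin 3) (f : Cfg 3 → ℝ) (D : Fin 3 → Fin 3 → Cfg 3 → ℝ) (x : Space) :
    pMass i f x ≤ uLim i f D x :=
  le_add_of_nonneg_right (dMass_nonneg i D x)

lemma InH1.integral_pMass (h : InH1 f D) (i : Fin 3) :
    Integrable (pMass i f) ∧ ∫ x, pMass i f x = ∫ z, f z ^ 2 :=
  ⟨integrable_marg h.memLp.integrable_sq i, integral_marg h.memLp.integrable_sq i⟩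

lemma InH1.integral_dMass (h : InH1 f D) (i : Fin 3) :
    Integrable (dMass i D) ∧ ∫ x, dMass i D x = ∑ j, ∑ a, ∫ z, D j a z ^ 2 := by
  have hi : ∀ j a, Integrable (marg i fun z => D j a z ^ 2) := fun j a =>
    integrable_marg (h.grad_memLp j a).integrable_sq i
  refine ⟨integrable_finsetSum _ fun j _ => integrable_finsetSum _ fun a _ => hi j a, ?_⟩
  simp only [dMass]
  rw [integral_finsetSum _ fun j _ => integrable_finsetSum _ fun a _ => hi j a]
  refine Finset.sum_congr rfl fun j _ => ?_
  rw [integral_finsetSum _ fun a _ => hi j a]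
  exact Finset.sum_congr rfl fun a _ => integral_marg (h.grad_memLp j a).integrable_sq i

lemma InH1.integrable_uLim (h : InH1 f D) (i : Fin 3) : Integrable (uLim i f D) :=
  (h.integral_pMass i).1.add (h.integral_dMass i).1

/-- The gradient of the mass is bounded by mass and gradient mass. -/
lemma InH1.gnP_sq_le (h : InH1 f D) (i a : Fin 3) :
    ∀ᵐ x, gnP i f D a x ^ 2 ≤ 4 * pMass i f x * marg i (fun z => D i a z ^ 2) x := by
  filter_upwards [memLp_slices i h.memLp, memLp_slices i (h.grad_memLp i a)] with x h1 h2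
  have hc := abs_integral_mul_le h1 h2
  have hnn : 0 ≤ √(∫ y, f (i.insertNth x y) ^ 2) * √(∫ y, D i a (i.insertNth x y) ^ 2) := by
    positivity
  have := pow_le_pow_left₀ (abs_nonneg _) hc 2
  rw [sq_abs, mul_pow, Real.sq_sqrt (integral_nonneg fun _ => sq_nonneg _),
    Real.sq_sqrt (integral_nonneg fun _ => sq_nonneg _)] at this
  simp only [gnP, pMass, marg]
  linarith

namespace GoodSeq

variable (G : GoodSeq l lam E f D φ δ)
include G

lemma res_lim : SqLim volume (fun k => resid l lam (δ k) E (φ k)) fun _ => 0 :=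
  ⟨fun k => (contDiff_resid (G.reg_ne k) (G.smooth k).1).continuous.memLp_of_hasCompactSupport
    (supp_resid (G.smooth k).2), MemLp.zero', by simpa using G.res⟩

lemma pMass_lim (i : Fin 3) : L1Lim volume (fun k => pMass i (φ k)) (pMass i f) := by
  simpa only [pMass, sq] using (G.approx.val.mul G.approx.val).marg i

lemma dMass_lim (i : Fin 3) :
    L1Lim volume (fun k x => ∑ j, ∑ a, marg i (fun z => slotDeriv j a (φ k) z ^ 2) x)
      (dMass i D) :=
  (L1Lim.sum Finset.univ fun j _ => L1Lim.sum Finset.univ fun a _ =>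
    ((G.approx.der j a).mul (G.approx.der j a)).marg i).congr
    (fun k => .of_forall fun x => by simp only [sq]) (.of_forall fun x => by simp only [dMass, sq])

lemma uMass_lim (i : Fin 3) : L1Lim volume (fun k => uMass i (φ k)) (uLim i f D) :=
  (G.pMass_lim i).add (G.dMass_lim i)

/-- The weak gradient of the mass of a slice. -/
theorem weakGrad (i : Fin 3) : HasWeakGrad Set.univ (pMass i f) (gnP i f D) := by
  have hg : ∀ a, Integrable (gnP i f D a) := fun a =>
    (integrable_marg (G.approx.inH1.memLp.integrable_mul (G.approx.inH1.grad_memLp i a)) i).const_mul 2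
  refine ⟨(G.approx.inH1.integral_pMass i).1.locallyIntegrable.locallyIntegrableOn _,
    fun a => (hg a).locallyIntegrable.locallyIntegrableOn _, fun η hη a => ?_⟩
  obtain ⟨B, hB⟩ := hη.compact.exists_bound_of_continuous hη.continuous
  obtain ⟨B', hB'⟩ := (hη.deriv a).compact.exists_bound_of_continuous (hη.deriv a).continuous
  have hl := ((G.pMass_lim i).mul_bdd (hη.deriv a).continuous.aestronglyMeasurable hB').integral
  have hr := ((((G.approx.val.mul (G.approx.der i a)).marg i).smul 2).mul_bdd
    hη.continuous.aestronglyMeasurable hB).integral.neg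
  refine (integral_congr_ae (.of_forall fun x => mul_comm _ _)).trans ((tendsto_nhds_unique hl
    (hr.congr fun k => ?_)).trans ?_)
  · have h1 : ContDiff ℝ 1 fun z => φ k z ^ 2 :=
      ((G.approx.c1 k).smooth).pow 2
    have hc : HasCompactSupport fun z => φ k z ^ 2 := supp_sq (G.smooth k).2
    have hP : ContDiff ℝ 1 (pMass i (φ k)) := (IsC1.marg ⟨h1, hc⟩ i).1
    have hd : ∀ x, deriv3 a (pMass i (φ k)) x =
        2 * marg i (fun z => φ k z * slotDeriv i a (φ k) z) x := by
      intro x
      rw [pMass, deriv3_marg h1 hc, ← marg_const_mul]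
      congr 1
      funext z
      simp only [sq]
      rw [sd_mul ((G.approx.c1 k).differentiable z) ((G.approx.c1 k).differentiable z)]
      ring
    simp only [← hd]
    have := (HasWeakGrad.of_contDiffOn isOpen_univ hP.contDiffOn).2.2 η hη a
    simp only [mul_comm (η _), mul_comm (deriv3 a η _)]
    linarith
  · simp only [gnP]
    rw [neg_inj]
    exact integral_congr_ae (.of_forall fun x => mul_comm _ _)

/-- The weak equation of the mass of a slice. -/
theorem weakPoisson (h0 : 0 ≤ lam) (h1 : lam ≤ 1) (i : Fin 3) :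
    WeakPoisson Set.univ (pMass i f) (lnP l lam E i f D) := by
  have hW := ((G.approx.molPotR_mul (l := l) h0 h1 G.reg_ne G.reg_lim).mul G.approx.val).marg i
  have hr := (G.approx.val.mul G.res_lim).marg i
  have hL := ((((G.dMass_lim i).smul 2).add (hW.smul 4)).add ((G.pMass_lim i).smul (-(4 * E)))).add
    (hr.smul (-4))
  have hL' : L1Lim volume (fun k => lap (pMass i (φ k))) (lnP l lam E i f D) := by
    refine hL.congr (fun k => .of_forall fun x => ?_) (.of_forall fun x => ?_)
    · obtain ⟨hs, hc⟩ := G.smooth k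
      have e := lap_mass_eq (l := l) (lam := lam) (E := E) (G.reg_ne k) hs hc i x
      have c1 : ∀ j a, Continuous fun z => slotDeriv j a (φ k) z ^ 2 := fun j a =>
        ((G.approx.c1 k).continuous_slot j a).pow 2
      have e1 : marg i (gradN (φ k)) x =
          ∑ j, ∑ a, marg i (fun z => slotDeriv j a (φ k) z ^ 2) x := by
        rw [show gradN (φ k) = fun z => ∑ j, ∑ a, slotDeriv j a (φ k) z ^ 2 from rfl,
          marg_sum _ (fun j => continuous_finsetSum _ fun a _ => c1 j a)
            (fun j => supp_of_zero hc fun z hz => by simp [sd_zero_of_notMem hz])]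
        exact Finset.sum_congr rfl fun j _ => marg_sum _ (fun a => c1 j a)
          (fun a => supp_of_zero hc fun z hz => by simp [sd_zero_of_notMem hz]) i x
      have hWc : Continuous (molPotR l lam (δ k)) :=
        (contDiff_molPotR (m := 0) (G.reg_ne k)).continuous
      have e2 : marg i (fun z => (molPotR l lam (δ k) z - E) * φ k z ^ 2) x =
          1 * marg i (fun z => molPotR l lam (δ k) z * φ k z * φ k z) x +
            (-E) * marg i (fun z => φ k z ^ 2) x := by
        rw [← marg_lin2 1 (-E) (u := fun z => molPotR l lam (δ k) z * φ k z * φ k z)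
          (v := fun z => φ k z ^ 2) ((hWc.mul hs.continuous).mul hs.continuous)
          (supp_mulL _ hc) (hs.continuous.pow 2) (supp_sq hc)]
        congr 1
        funext z
        ring
      simp only [pMass] at e ⊢
      rw [e, e1, e2]
      ring
    · simp only [lnP, mul_zero, marg, integral_zero]
      ring
  refine ⟨(G.approx.inH1.integral_pMass i).1.locallyIntegrable.locallyIntegrableOn _,
    hL'.lim_mem.locallyIntegrable.locallyIntegrableOn _, fun η hη => ?_⟩
  obtain ⟨B, hB⟩ := hη.compact.exists_bound_of_continuous hη.continuous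
  obtain ⟨B', hB'⟩ := hη.lap.compact.exists_bound_of_continuous hη.lap.continuous
  have hl := ((G.pMass_lim i).mul_bdd hη.lap.continuous.aestronglyMeasurable hB').integral
  have hr' := (hL'.mul_bdd hη.continuous.aestronglyMeasurable hB).integral
  refine (integral_congr_ae (.of_forall fun x => mul_comm _ _)).trans ((tendsto_nhds_unique hl
    (hr'.congr fun k => ?_)).trans (integral_congr_ae (.of_forall fun x => mul_comm _ _)))
  have hP : ContDiff ℝ 2 (pMass i (φ k)) :=
    contDiff_marg 2 (((G.smooth k).1.of_le (WithTop.coe_le_coe.2 le_top)).pow 2)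
      (supp_sq (G.smooth k).2) i
  have := (WeakPoisson.of_contDiffOn isOpen_univ hP.contDiffOn).2.2 η hη
  simp only [mul_comm (η _), mul_comm (lap η _)]
  exact this.symm

end GoodSeq

/-- The potential in a slice: the attraction at the free position, and little of the gradient
mass. -/
lemma abs_marg_molPotR_le {δ : ℝ} {g : Cfg 3 → ℝ} (hδ : δ ≠ 0) (h0 : 0 ≤ lam) (h1 : lam ≤ 1)
    (hg : ContDiff ℝ 1 g) (hc : HasCompactSupport g) (i : Fin 3) {τ : ℝ} (hτ : 0 < τ) (x : Space) :
    |marg i (fun z => molPotR l lam δ z * g z * g z) x| ≤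
      (attractR l δ x + 2 / τ) * marg i (fun z => g z ^ 2) x + 28 * τ * marg i (ySq i g) x := by
  set A := attractR l δ x
  set P := marg i (fun z => g z ^ 2) x
  set Q := marg i (fun z => potQ l δ z * g z ^ 2) x
  set R := marg i (fun z => attrSq l δ (z i) * g z ^ 2) x
  have hle : ∀ z, |molPotR l lam δ z| ≤
      attractR l δ (z i) + τ * (potQ l δ z - attrSq l δ (z i)) + 2 / τ := by
    intro z
    have hr := rinv_nonneg δ
    have hq : ∀ w, rinv δ w ≤ τ * qinv δ w + 1 / (4 * τ) := fun w => rinv_le δ w hτ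
    have e : (2 : ℝ) / τ = 8 * (1 / (4 * τ)) := by field_simp; ring
    have hp : 0 ≤ 1 / (4 * τ) := by positivity
    have hp3 : ∀ w, lam * rinv δ w ≤ τ * qinv δ w + 1 / (4 * τ) := fun w =>
      (mul_le_of_le_one_left (hr w) h1).trans (hq w)
    have hp0 : ∀ w, 0 ≤ lam * rinv δ w := fun w => mul_nonneg h0 (hr w)
    simp only [molPotR, attractR, potQ, attrSq, mul_add, mul_sub, e, abs_le]
    obtain rfl | rfl | rfl : i = 0 ∨ i = 1 ∨ i = 2 := by omega
    all_goals constructor
    all_goals
      linarith [hq (z 0 - nuc l), hq (z 0 + nuc l), hq (z 1 - nuc l), hq (z 1 + nuc l),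
        hq (z 2 - nuc l), hq (z 2 + nuc l), hp3 (z 0 - z 1), hp3 (z 0 - z 2), hp3 (z 1 - z 2),
        hp0 (z 0 - z 1), hp0 (z 0 - z 2), hp0 (z 1 - z 2), hr (z 0 - nuc l), hr (z 0 + nuc l),
        hr (z 1 - nuc l), hr (z 1 + nuc l), hr (z 2 - nuc l), hr (z 2 + nuc l)]
  have hQc := continuous_potQ (l := l) hδ
  have hac : Continuous fun z : Cfg 3 => attrSq l δ (z i) := by
    have := continuous_qinv hδ
    unfold attrSq; fun_prop
  have hrc : Continuous fun z : Cfg 3 => attractR l δ (z i) := by
    have := (contDiff_rinv (m := 0) hδ).continuous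
    unfold attractR; fun_prop
  have hW : Continuous (molPotR l lam δ) := (contDiff_molPotR (m := 0) hδ).continuous
  have hP : Continuous fun z => g z ^ 2 := hg.continuous.pow 2
  have hs := supp_sq hc
  have hrhs : marg i (fun z => (attractR l δ (z i) + τ * (potQ l δ z - attrSq l δ (z i)) + 2 / τ) *
      g z ^ 2) x = (A + 2 / τ) * P + τ * (Q - R) := by
    have hA : marg i (fun z => attractR l δ (z i) * g z ^ 2) x = A * P := marg_mul_left _ _ _ _
    have e : (fun z => (attractR l δ (z i) + τ * (potQ l δ z - attrSq l δ (z i)) + 2 / τ) *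
        g z ^ 2) = fun z => (1 * (attractR l δ (z i) * g z ^ 2) + 2 / τ * g z ^ 2) +
          (τ * (potQ l δ z * g z ^ 2) + -τ * (attrSq l δ (z i) * g z ^ 2)) := by
      funext z; ring
    have s1 : HasCompactSupport fun z => attractR l δ (z i) * g z ^ 2 :=
      supp_mulL (fun z => attractR l δ (z i)) hs
    have s2 : HasCompactSupport fun z => potQ l δ z * g z ^ 2 := supp_mulL (potQ l δ) hs
    have s3 : HasCompactSupport fun z => attrSq l δ (z i) * g z ^ 2 :=
      supp_mulL (fun z => attrSq l δ (z i)) hs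
    have c1 : Continuous fun z => attractR l δ (z i) * g z ^ 2 := hrc.mul hP
    have c2 : Continuous fun z => potQ l δ z * g z ^ 2 := hQc.mul hP
    have c3 : Continuous fun z => attrSq l δ (z i) * g z ^ 2 := hac.mul hP
    have t1 : HasCompactSupport fun z => 1 * (attractR l δ (z i) * g z ^ 2) + 2 / τ * g z ^ 2 :=
      (supp_mulL (fun _ => (1 : ℝ)) s1).add (supp_mulL (fun _ => 2 / τ) hs)
    have t2 : HasCompactSupport fun z =>
        τ * (potQ l δ z * g z ^ 2) + -τ * (attrSq l δ (z i) * g z ^ 2) :=
      (supp_mulL (fun _ => τ) s2).add (supp_mulL (fun _ => -τ) s3)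
    have d1 : Continuous fun z => 1 * (attractR l δ (z i) * g z ^ 2) + 2 / τ * g z ^ 2 :=
      (continuous_const.mul c1).add (continuous_const.mul hP)
    have d2 : Continuous fun z =>
        τ * (potQ l δ z * g z ^ 2) + -τ * (attrSq l δ (z i) * g z ^ 2) :=
      (continuous_const.mul c2).add (continuous_const.mul c3)
    rw [e, marg_add d1 t1 d2 t2, marg_lin2 1 (2 / τ) c1 s1 hP hs,
      marg_lin2 τ (-τ) c2 s2 c3 s3, hA]
    ring
  have hR : R = attrSq l δ x * P := marg_mul_left _ _ _ _
  have hQ : Q - R ≤ 28 * marg i (ySq i g) x := by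
    have := marg_potQ_le (l := l) hδ i hg hc x
    linarith
  refine (abs_marg_le _ i x).trans ((marg_mono ((hW.mul hg.continuous).mul hg.continuous).abs
    (supp_of_zero hc fun z hz => by simp [image_eq_zero_of_notMem_tsupport hz])
    (((hrc.add (continuous_const.mul (hQc.sub hac))).add continuous_const).mul hP)
    (supp_mulL _ hs) (fun z => ?_) i x).trans (hrhs.le.trans ?_))
  · simp only [Pi.mul_apply, Pi.add_apply, Pi.sub_apply]
    rw [mul_assoc, abs_mul, ← sq, abs_of_nonneg (sq_nonneg (g z))]
    exact mul_le_mul_of_nonneg_right (hle z) (sq_nonneg _)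
  · linarith [mul_le_mul_of_nonneg_left hQ hτ.le]

lemma measurable_attract_lim (l : ℝ) : Measurable (attract l) := by unfold attract; fun_prop

lemma attract_nonneg' (l : ℝ) (x : Space) : 0 ≤ attract l x := by unfold attract; positivity

/-- The right side of the equation of the mass. -/
theorem GoodSeq.lnP_bound (G : GoodSeq l lam E f D φ δ) (h0 : 0 ≤ lam) (h1 : lam ≤ 1)
    (hE : |E| ≤ M) (i : Fin 3) : ∀ᵐ x,
      |lnP l lam E i f D x - 2 * dMass i D x| ≤
        4 * (attract l x + M + 225) * pMass i f x + dMass i D x := by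
  set w : Space → ℝ := fun x => (1 + attract l x)⁻¹
  set v : Space → ℝ := fun x => attract l x * w x
  have ha := attract_nonneg' l
  have hw0 : ∀ x, 0 ≤ w x := fun x => inv_nonneg.2 (by linarith [ha x])
  have hw : AEStronglyMeasurable w volume :=
    ((measurable_attract_lim l).const_add 1).inv.aestronglyMeasurable
  have hv : AEStronglyMeasurable v volume :=
    ((measurable_attract_lim l).mul ((measurable_attract_lim l).const_add 1).inv).aestronglyMeasurable
  have hw1 : ∀ x, |w x| ≤ 1 := fun x => by
    rw [abs_of_nonneg (hw0 x)]; exact inv_le_one_of_one_le₀ (by linarith [ha x])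
  have hv1 : ∀ x, |v x| ≤ 1 := fun x => by
    rw [abs_of_nonneg (mul_nonneg (ha x) (hw0 x))]
    simp only [w]
    rw [← div_eq_mul_inv, div_le_one (by linarith [ha x])]
    linarith
  have hW := ((G.approx.molPotR_mul (l := l) h0 h1 G.reg_ne G.reg_lim).mul G.approx.val).marg i
  have hP := G.pMass_lim i
  have hD := G.dMass_lim i
  have key : ∀ σ : ℝ, |σ| = 1 →
      (fun x => w x * (σ * marg i (fun z => molPot l lam z * f z * f z) x +
        (-224) * pMass i f x + (-(1 / 4)) * dMass i D x)) ≤ᵐ[volume]
      fun x => v x * pMass i f x := by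
    intro σ hσ
    refine ((((hW.smul σ).add (hP.smul (-224))).add (hD.smul (-(1 / 4)))).mul_bdd hw hw1).ae_le
      (hP.mul_bdd hv hv1) fun k => ?_
    filter_upwards [Measure.ae_ne volume (nuc l), Measure.ae_ne volume (-nuc l)] with x hp hn
    obtain ⟨hs, hc⟩ := G.smooth k
    have hb := abs_marg_molPotR_le (l := l) (G.reg_ne k) h0 h1
      (G.approx.c1 k).smooth hc i (show (0 : ℝ) < 1 / 112 by norm_num) x
    have har : attractR l (δ k) x ≤ attract l x := by
      have p := rinv_le_inv (δ k) (sub_ne_zero.2 hp)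
      have q := rinv_le_inv (δ k) (w := x + nuc l) (by
        rw [← sub_neg_eq_add, sub_ne_zero]; exact hn)
      unfold attractR attract; linarith
    have hY : marg i (ySq i (φ k)) x ≤
        ∑ j, ∑ a, marg i (fun z => slotDeriv j a (φ k) z ^ 2) x := by
      have c1 : ∀ j a, Continuous fun z => slotDeriv j a (φ k) z ^ 2 := fun j a =>
        ((G.approx.c1 k).continuous_slot j a).pow 2
      have s1 : ∀ j a, HasCompactSupport fun z => slotDeriv j a (φ k) z ^ 2 := fun j a =>
        supp_of_zero hc fun z hz => by simp [sd_zero_of_notMem hz]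
      have h := marg_mono (cont_ySq (i := i) (G.approx.c1 k).smooth) (supp_ySq hc)
        (continuous_finsetSum Finset.univ fun j _ => continuous_finsetSum Finset.univ
          fun a _ => c1 j a)
        (supp_of_zero hc fun z hz => by simp [sd_zero_of_notMem hz])
        (fun z => by
          have e := gradN_eq i (φ k) z
          have hn' : 0 ≤ xSq i (φ k) z := Finset.sum_nonneg fun a _ => sq_nonneg _
          rw [gradN] at e
          linarith) i x
      rw [marg_sum _ (fun j => continuous_finsetSum _ fun a _ => c1 j a)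
        (fun j => supp_of_zero hc fun z hz => by simp [sd_zero_of_notMem hz])] at h
      simp only [marg_sum Finset.univ (fun a => c1 _ a) (fun a => s1 _ a)] at h
      exact h
    have hP0 := pMass_nonneg i (φ k) x
    simp only [v, mul_comm (attract l x) (w x), mul_assoc (w x)]
    refine mul_le_mul_of_nonneg_left ?_ (hw0 x)
    have hσm := le_abs_self (σ * marg i (fun z => molPotR l lam (δ k) z * φ k z * φ k z) x)
    rw [abs_mul, hσ, one_mul] at hσm
    norm_num at hb
    simp only [pMass] at hP0 ⊢
    linarith [mul_le_mul_of_nonneg_right har hP0]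
  filter_upwards [key 1 abs_one, key (-1) (by simp)] with x hx hy
  have hwp : 0 < w x := inv_pos.2 (by linarith [ha x])
  simp only [v, mul_comm (attract l x) (w x), mul_assoc (w x)] at hx hy
  have hx' := le_of_mul_le_mul_left hx hwp
  have hy' := le_of_mul_le_mul_left hy hwp
  have hP0 := pMass_nonneg i f x
  have := mul_le_mul_of_nonneg_right (abs_le.1 hE).1 hP0
  have := mul_le_mul_of_nonneg_right (abs_le.1 hE).2 hP0
  simp only [lnP, abs_le]
  constructor <;> linarith

end Vale.Agent.P363.Inter
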