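import Vale.Agent.P363.Inter.Reg.Limit

/-!
P363, interacting side: kinetic energy and potential moments of a lowest state, bounded by the
energy alone.
-/

noncomputable section

namespace Vale.Agent.P363.Inter

open MeasureTheory Filter Set
open scoped BigOperators Topology ContDiff

variable {l lam E M : ℝ} {f : Cfg 3 → ℝ} {D : Fin 3 → Fin 3 → Cfg 3 → ℝ}

/-- The kinetic energy. -/
def kinAll (D : Fin 3 → Fin 3 → Cfg 3 → ℝ) : ℝ := ∑ j, ∑ a, ∫ z, D j a z ^ 2

lemma slotKin_nonneg (j : Fin 3) (D : Fin 3 → Fin 3 → Cfg 3 → ℝ) : 0 ≤ slotKin j D :=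
  Finset.sum_nonneg fun _ _ => integral_nonneg fun _ => sq_nonneg _

lemma slotKin_le_kinAll (j : Fin 3) (D : Fin 3 → Fin 3 → Cfg 3 → ℝ) : slotKin j D ≤ kinAll D :=
  Finset.single_le_sum (f := fun j => slotKin j D) (fun j _ => slotKin_nonneg j D)
    (Finset.mem_univ j)

/-- The nine Coulomb singularities. -/
def sing (l : ℝ) (z : Cfg 3) : Fin 9 → ℝ :=
  ![1 / ‖z 0 - nuc l‖, 1 / ‖z 0 + nuc l‖, 1 / ‖z 1 - nuc l‖, 1 / ‖z 1 + nuc l‖,
    1 / ‖z 2 - nuc l‖, 1 / ‖z 2 + nuc l‖, 1 / ‖z 0 - z 1‖, 1 / ‖z 0 - z 2‖, 1 / ‖z 1 - z 2‖]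

lemma potAbs_eq_sum (l : ℝ) (z : Cfg 3) : potAbs l z = ∑ k, sing l z k := by
  simp only [potAbs, molPot_three, sing, attract, Fin.sum_univ_succ, Fin.sum_univ_zero,
    Matrix.cons_val_zero, Matrix.cons_val_succ, Matrix.cons_val_fin_one]
  ring

lemma InH1.sing_bound (h : InH1 f D) (l : ℝ) (k : Fin 9) :
    Integrable (fun z => (sing l z k * f z) ^ 2) ∧
      ∫ z, (sing l z k * f z) ^ 2 ≤ 4 * kinAll D := by
  have one : ∀ (j : Fin 3) (c : Cfg 2 → Space), Continuous c →
      Integrable (fun z => (1 / ‖z j - c (j.removeNth z)‖ * f z) ^ 2) ∧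
        ∫ z, (1 / ‖z j - c (j.removeNth z)‖ * f z) ^ 2 ≤ 4 * kinAll D := by
    intro j c hc
    obtain ⟨a, b⟩ := h.hardy j hc
    simp only [pole, div_eq_inv_mul (f _)] at a b
    simp only [one_div]
    exact ⟨a, b.trans (mul_le_mul_of_nonneg_left (slotKin_le_kinAll j D) zero_le_four)⟩
  have fixed : ∀ (j : Fin 3) (p : Space), Integrable (fun z => (1 / ‖z j - p‖ * f z) ^ 2) ∧
      ∫ z, (1 / ‖z j - p‖ * f z) ^ 2 ≤ 4 * kinAll D := fun j p =>
    one j (fun _ => p) continuous_const
  have pair : ∀ (j : Fin 3) (k : Fin 2),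
      Integrable (fun z => (1 / ‖z j - z (j.succAbove k)‖ * f z) ^ 2) ∧
        ∫ z, (1 / ‖z j - z (j.succAbove k)‖ * f z) ^ 2 ≤ 4 * kinAll D := fun j k =>
    one j (fun y => y k) (continuous_apply k)
  have n0 := fixed 0 (-nuc l); have n1 := fixed 1 (-nuc l); have n2 := fixed 2 (-nuc l)
  simp only [sub_neg_eq_add] at n0 n1 n2
  fin_cases k
  · exact fixed 0 (nuc l)
  · exact n0
  · exact fixed 1 (nuc l)
  · exact n1
  · exact fixed 2 (nuc l)
  · exact n2
  · exact pair 0 0
  · exact pair 0 1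
  · exact pair 1 1

/-- The potential maps the energy space into mean square, with this bound. -/
theorem InH1.integral_potAbs_sq_le (h : InH1 f D) (l : ℝ) :
    ∫ z, (potAbs l z * f z) ^ 2 ≤ 324 * kinAll D := by
  have hi : Integrable fun z => 9 * ∑ k, (sing l z k * f z) ^ 2 :=
    (integrable_finsetSum _ fun k _ => (h.sing_bound l k).1).const_mul 9
  refine (integral_mono (h.potAbs_memLp l).integrable_sq hi fun z => ?_).trans ?_
  · simp only [potAbs_eq_sum, Finset.sum_mul]
    simpa using sq_sum_le_card_mul_sum_sq (s := Finset.univ) (f := fun k => sing l z k * f z)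
  · rw [integral_const_mul, integral_finsetSum _ fun k _ => (h.sing_bound l k).1]
    refine le_trans (mul_le_mul_of_nonneg_left
      (Finset.sum_le_sum fun k _ => (h.sing_bound l k).2) (by norm_num)) (le_of_eq ?_)
    simp
    ring

variable {P : (Cfg 3 → ℝ) → Prop}

/-- The kinetic energy of a lowest state is bounded by its energy. -/
theorem IsLowest.kinAll_le (h : IsLowest l lam P E f D) (h0 : 0 ≤ lam) (h1 : lam ≤ 1)
    (hE : |E| ≤ M) : kinAll D ≤ 4 * M + 6000 := by
  have hH := inH1_of_isFormLim h.lim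
  have hb := IsLowest.bform_zero h hH
  rw [bform_eq hH hH] at hb
  have eK : ∑ j, ∑ a, ∫ z, D j a z * D j a z = kinAll D := by simp only [kinAll, sq]
  have em : ∫ z, f z * f z = 1 := by simpa only [sq] using h.mass_one
  rw [eK, em] at hb
  have hA := hH.potAbs_memLp l
  have hm : Integrable fun z => (1 / 2592 : ℝ) * (potAbs l z * f z) ^ 2 + 648 * f z ^ 2 :=
    (hA.integrable_sq.const_mul _).add (hH.memLp.integrable_sq.const_mul _)
  have hlow : -((1 / 2592) * ∫ z, (potAbs l z * f z) ^ 2) - 648 ≤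
      ∫ z, molPot l lam z * f z * f z := by
    have h2 := integral_mono hm.neg ((hH.molPot_memLp l lam).integrable_mul hH.memLp) fun z => by
      simp only [Pi.neg_apply, Pi.mul_apply]
      have hp := abs_molPot_le_abs (l := l) h0 h1 z
      have hq : |molPot l lam z * f z * f z| ≤ |potAbs l z * f z| * |f z| := by
        rw [abs_mul (molPot l lam z * f z), abs_mul (molPot l lam z), abs_mul (potAbs l z)]
        exact mul_le_mul_of_nonneg_right
          (mul_le_mul_of_nonneg_right (hp.trans (le_abs_self _)) (abs_nonneg _)) (abs_nonneg _)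
      nlinarith [abs_le.1 hq, sq_nonneg (|potAbs l z * f z| - 1296 * |f z|),
        sq_abs (potAbs l z * f z), sq_abs (f z)]
    simp only [Pi.neg_apply, Pi.mul_apply, integral_neg] at h2
    rw [integral_add (hA.integrable_sq.const_mul _) (hH.memLp.integrable_sq.const_mul _),
      integral_const_mul, integral_const_mul, h.mass_one] at h2
    linarith
  have := hH.integral_potAbs_sq_le l
  linarith [abs_le.1 hE]

/-- The right side of the equation in mean square. -/
theorem IsLowest.rhs_sq_le (h : IsLowest l lam P E f D) (h0 : 0 ≤ lam) (h1 : lam ≤ 1)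
    (hE : |E| ≤ M) :
    ∫ z, (2 * ((molPot l lam z - E) * f z)) ^ 2 ≤ 8 * (324 * (4 * M + 6000)) + 8 * M ^ 2 := by
  have hH := inH1_of_isFormLim h.lim
  have i1 := (hH.potAbs_memLp l).integrable_sq.const_mul (8 : ℝ)
  have i2 := hH.memLp.integrable_sq.const_mul (8 * M ^ 2)
  refine (integral_mono_of_nonneg (.of_forall fun z => sq_nonneg _) (i1.add i2)
    (.of_forall fun z => ?_)).trans ?_
  · simp only [Pi.add_apply]
    have hW : (molPot l lam z * f z) ^ 2 ≤ (potAbs l z * f z) ^ 2 := by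
      rw [mul_pow, mul_pow, ← sq_abs (molPot l lam z)]
      exact mul_le_mul_of_nonneg_right (pow_le_pow_left₀ (abs_nonneg _)
        (abs_molPot_le_abs h0 h1 z) 2) (sq_nonneg _)
    have hE' : (E * f z) ^ 2 ≤ M ^ 2 * f z ^ 2 := by
      rw [mul_pow, ← sq_abs E]
      exact mul_le_mul_of_nonneg_right (pow_le_pow_left₀ (abs_nonneg _) hE 2) (sq_nonneg _)
    nlinarith [sq_nonneg (molPot l lam z * f z + E * f z)]
  · rw [integral_add' i1 i2, integral_const_mul, integral_const_mul, h.mass_one, mul_one]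
    linarith [hH.integral_potAbs_sq_le l, IsLowest.kinAll_le h h0 h1 hE]

end Vale.Agent.P363.Inter
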