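import Vale.Agent.P363.Inter.Reg.Marg
import Vale.Agent.P363.Tool.Sobolev.Smooth

/-!
P363, interacting side: the regularised Coulomb potential of the three electrons and its bounds by
the kinetic energy in the slices.
-/

noncomputable section

namespace Vale.Agent.P363.Inter

open MeasureTheory Filter ContinuousLinearMap
open scoped BigOperators Topology ContDiff RealInnerProductSpace

/-- The regularised `1 / |w|`. -/
def rinv (δ : ℝ) (w : Space) : ℝ := (√(‖w‖ ^ 2 + δ ^ 2))⁻¹

/-- The regularised `1 / |w| ^ 2`. -/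
def qinv (δ : ℝ) (w : Space) : ℝ := (‖w‖ ^ 2 + δ ^ 2)⁻¹

/-- The regularised attraction. -/
def attractR (l δ : ℝ) (x : Space) : ℝ := rinv δ (x - nuc l) + rinv δ (x + nuc l)

/-- The regularised square of the attraction, up to a factor. -/
def attrSq (l δ : ℝ) (x : Space) : ℝ := qinv δ (x - nuc l) + qinv δ (x + nuc l)

/-- The regularised potential of the three electrons. -/
def molPotR (l lam δ : ℝ) (z : Cfg 3) : ℝ :=
  -(attractR l δ (z 0) + attractR l δ (z 1) + attractR l δ (z 2)) +
    lam * (rinv δ (z 0 - z 1) + rinv δ (z 0 - z 2) + rinv δ (z 1 - z 2))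

/-- All regularised squared singularities. -/
def potQ (l δ : ℝ) (z : Cfg 3) : ℝ :=
  attrSq l δ (z 0) + attrSq l δ (z 1) + attrSq l δ (z 2) +
    (qinv δ (z 0 - z 1) + qinv δ (z 0 - z 2) + qinv δ (z 1 - z 2))

/-- The squared gradient in the positions other than that of electron `i`. -/
def ySq (i : Fin 3) (g : Cfg 3 → ℝ) (z : Cfg 3) : ℝ :=
  ∑ k : Fin 2, ∑ a, slotDeriv (i.succAbove k) a g z ^ 2

variable {l lam δ : ℝ}

lemma sum_sq_pos (hδ : δ ≠ 0) (w : Space) : 0 < ‖w‖ ^ 2 + δ ^ 2 := by positivity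

lemma rinv_nonneg (δ : ℝ) (w : Space) : 0 ≤ rinv δ w := by unfold rinv; positivity

lemma qinv_nonneg (δ : ℝ) (w : Space) : 0 ≤ qinv δ w := by unfold qinv; positivity

lemma attrSq_nonneg (l δ : ℝ) (x : Space) : 0 ≤ attrSq l δ x :=
  add_nonneg (qinv_nonneg _ _) (qinv_nonneg _ _)

lemma potQ_nonneg (l δ : ℝ) (z : Cfg 3) : 0 ≤ potQ l δ z := by
  have ha := attrSq_nonneg l δ; have hq := qinv_nonneg δ
  unfold potQ
  linarith [ha (z 0), ha (z 1), ha (z 2), hq (z 0 - z 1), hq (z 0 - z 2), hq (z 1 - z 2)]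

lemma rinv_sq (δ : ℝ) (w : Space) : rinv δ w ^ 2 = qinv δ w := by
  rw [rinv, inv_pow, Real.sq_sqrt (by positivity), qinv]

lemma rinv_le (δ : ℝ) (w : Space) {τ : ℝ} (hτ : 0 < τ) :
    rinv δ w ≤ τ * qinv δ w + 1 / (4 * τ) := by
  rw [← rinv_sq]
  have h : 0 ≤ (2 * τ * rinv δ w - 1) ^ 2 / (4 * τ) := by positivity
  have e : (2 * τ * rinv δ w - 1) ^ 2 / (4 * τ) =
      τ * rinv δ w ^ 2 + 1 / (4 * τ) - rinv δ w := by
    field_simp; ring
  linarith

lemma rinv_le_inv (δ : ℝ) {w : Space} (hw : w ≠ 0) : rinv δ w ≤ 1 / ‖w‖ := by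
  rw [rinv, one_div]
  exact inv_anti₀ (norm_pos_iff.2 hw) (Real.le_sqrt_of_sq_le (by nlinarith [sq_nonneg δ]))

lemma contDiff_rinv (hδ : δ ≠ 0) {m : WithTop ℕ∞} : ContDiff ℝ m (rinv δ) :=
  (((contDiff_norm_sq ℝ).add contDiff_const).sqrt fun w => (sum_sq_pos hδ w).ne').inv
    fun w => (Real.sqrt_pos.2 (sum_sq_pos hδ w)).ne'

lemma continuous_qinv (hδ : δ ≠ 0) : Continuous (qinv δ) :=
  ((continuous_norm.pow 2).add continuous_const).inv₀ fun w => (sum_sq_pos hδ w).ne'

lemma continuous_potQ (hδ : δ ≠ 0) : Continuous (potQ l δ) := by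
  have hq := continuous_qinv hδ
  unfold potQ attrSq; fun_prop

lemma contDiff_molPotR (hδ : δ ≠ 0) {m : WithTop ℕ∞} : ContDiff ℝ m (molPotR l lam δ) := by
  have hr := contDiff_rinv (m := m) hδ
  have hp : ∀ j : Fin 3, ContDiff ℝ m fun z : Cfg 3 => z j := fun j => contDiff_apply ℝ Space j
  have h1 : ∀ j c, ContDiff ℝ m fun z : Cfg 3 => rinv δ (z j - c) := fun j c =>
    hr.comp ((hp j).sub contDiff_const)
  have h2 : ∀ j c, ContDiff ℝ m fun z : Cfg 3 => rinv δ (z j + c) := fun j c =>
    hr.comp ((hp j).add contDiff_const)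
  have h3 : ∀ j k : Fin 3, ContDiff ℝ m fun z : Cfg 3 => rinv δ (z j - z k) := fun j k =>
    hr.comp ((hp j).sub (hp k))
  exact ((((h1 0 _).add (h2 0 _)).add ((h1 1 _).add (h2 1 _))).add ((h1 2 _).add (h2 2 _))).neg.add
    (contDiff_const.mul (((h3 0 1).add (h3 0 2)).add (h3 1 2)))

/-- The slope of a regularised singularity. -/
lemma hasFDerivAt_rinv_comp {E : Type*} [NormedAddCommGroup E] [NormedSpace ℝ E] (hδ : δ ≠ 0)
    (L : E →L[ℝ] Space) (p : Space) (z : E) :
    ∃ D : E →L[ℝ] ℝ, HasFDerivAt (fun y => rinv δ (L y - p)) D z ∧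
      ∀ v, |D v| ≤ qinv δ (L z - p) * ‖L v‖ := by
  have hw : HasFDerivAt (fun y => L y - p) L z := L.hasFDerivAt.sub_const p
  have hpos := sum_sq_pos hδ (L z - p)
  have hn := (hw.norm_sq.add_const (δ ^ 2)).sqrt hpos.ne'
  refine ⟨_, (hasDerivAt_inv (Real.sqrt_pos.2 hpos).ne').comp_hasFDerivAt z hn, fun v => ?_⟩
  simp only [smul_apply, coe_comp, Function.comp_apply, innerSL_apply_apply, smul_eq_mul]
  set s := √(‖L z - p‖ ^ 2 + δ ^ 2)
  have hs : 0 < s := Real.sqrt_pos.2 hpos
  have hws : ‖L z - p‖ ≤ s := Real.le_sqrt_of_sq_le (by nlinarith [sq_nonneg δ])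
  rw [show qinv δ (L z - p) = (s ^ 2)⁻¹ by rw [Real.sq_sqrt hpos.le]; rfl]
  rw [show -(s ^ 2)⁻¹ * (1 / (2 * s) * (2 • ⟪L z - p, L v⟫)) =
    -((s ^ 2)⁻¹ * (⟪L z - p, L v⟫ / s)) by rw [nsmul_eq_mul]; push_cast; field_simp,
    abs_neg, abs_mul, abs_of_pos (by positivity : 0 < (s ^ 2)⁻¹), abs_div, abs_of_pos hs]
  gcongr
  rw [div_le_iff₀ hs, mul_comm]
  exact (abs_real_inner_le_norm _ _).trans
    (mul_le_mul_of_nonneg_right hws (norm_nonneg _))

lemma norm_single_apply_le (j i : Fin 3) (a : Fin 3) :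
    ‖(Pi.single j (unit3 a) : Cfg 3) i‖ ≤ 1 := by
  rcases eq_or_ne i j with rfl | h
  · simp [norm_unit3]
  · simp [h]

/-- The slope of the regularised potential. -/
lemma abs_slotDeriv_molPotR_le (hδ : δ ≠ 0) (h0 : 0 ≤ lam) (h1 : lam ≤ 1) (z : Cfg 3)
    (j a : Fin 3) : |slotDeriv j a (molPotR l lam δ) z| ≤ potQ l δ z := by
  set v : Cfg 3 := Pi.single j (unit3 a)
  have one : ∀ (i : Fin 3) (p : Space), ∃ D : Cfg 3 →L[ℝ] ℝ,
      HasFDerivAt (fun y : Cfg 3 => rinv δ (y i - p)) D z ∧ |D v| ≤ qinv δ (z i - p) := fun i p => by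
    obtain ⟨D, hD, hb⟩ :=
      hasFDerivAt_rinv_comp hδ (ContinuousLinearMap.proj (R := ℝ) (φ := fun _ : Fin 3 => Space) i) p z
    exact ⟨D, hD, (hb v).trans
      (mul_le_of_le_one_right (qinv_nonneg _ _) (norm_single_apply_le j i a))⟩
  have two : ∀ i k : Fin 3, i ≠ k → ∃ D : Cfg 3 →L[ℝ] ℝ,
      HasFDerivAt (fun y : Cfg 3 => rinv δ (y i - y k)) D z ∧ |D v| ≤ qinv δ (z i - z k) := by
    intro i k hik
    obtain ⟨D, hD, hb⟩ := hasFDerivAt_rinv_comp hδ
      (ContinuousLinearMap.proj (R := ℝ) (φ := fun _ : Fin 3 => Space) i -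
        ContinuousLinearMap.proj (R := ℝ) (φ := fun _ : Fin 3 => Space) k) 0 z
    simp only [sub_apply, proj_apply, sub_zero] at hD hb
    refine ⟨D, hD, (hb v).trans (mul_le_of_le_one_right (qinv_nonneg _ _) ?_)⟩
    rcases eq_or_ne i j with rfl | hi
    · simp [v, hik.symm, norm_unit3]
    · rw [show v i = 0 by simp [v, hi], zero_sub, norm_neg]
      exact norm_single_apply_le j k a
  obtain ⟨A0, a0, a0'⟩ := one 0 (nuc l); obtain ⟨B0, b0, b0'⟩ := one 0 (-nuc l)
  obtain ⟨A1, a1, a1'⟩ := one 1 (nuc l); obtain ⟨B1, b1, b1'⟩ := one 1 (-nuc l)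
  obtain ⟨A2, a2, a2'⟩ := one 2 (nuc l); obtain ⟨B2, b2, b2'⟩ := one 2 (-nuc l)
  obtain ⟨C0, c0, c0'⟩ := two 0 1 (by decide); obtain ⟨C1, c1, c1'⟩ := two 0 2 (by decide)
  obtain ⟨C2, c2, c2'⟩ := two 1 2 (by decide)
  simp only [sub_neg_eq_add] at b0 b0' b1 b1' b2 b2'
  have hW : HasFDerivAt (molPotR l lam δ)
      (-((A0 + B0) + (A1 + B1) + (A2 + B2)) + lam • (C0 + C1 + C2)) z :=
    (((a0.add b0).add (a1.add b1)).add (a2.add b2)).neg.add (((c0.add c1).add c2).const_mul lam)
  rw [slotDeriv, hW.fderiv]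
  simp only [add_apply, neg_apply, smul_apply, smul_eq_mul, potQ, attrSq]
  have hc : |lam * (C0 v + C1 v + C2 v)| ≤ qinv δ (z 0 - z 1) + qinv δ (z 0 - z 2) +
      qinv δ (z 1 - z 2) := by
    rw [abs_mul, abs_of_nonneg h0]
    refine (mul_le_of_le_one_left (abs_nonneg _) h1).trans ?_
    linarith [abs_add_three (C0 v) (C1 v) (C2 v)]
  have hab : |A0 v + B0 v + (A1 v + B1 v) + (A2 v + B2 v)| ≤ |A0 v| + |B0 v| + |A1 v| + |B1 v| +
      |A2 v| + |B2 v| := by
    linarith [abs_add_three (A0 v + B0 v) (A1 v + B1 v) (A2 v + B2 v), abs_add_le (A0 v) (B0 v),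
      abs_add_le (A1 v) (B1 v), abs_add_le (A2 v) (B2 v)]
  refine (abs_add_le _ _).trans ?_
  rw [abs_neg]
  linarith

lemma sum_attractR_le (l δ : ℝ) (z : Cfg 3) {τ : ℝ} (hτ : 0 < τ) :
    attractR l δ (z 0) + attractR l δ (z 1) + attractR l δ (z 2) ≤
      τ * potQ l δ z + 3 / (2 * τ) := by
  have h : ∀ x : Space, attractR l δ x ≤ τ * attrSq l δ x + 1 / (2 * τ) := fun x => by
    have h1 := rinv_le δ (x - nuc l) hτ
    have h2 := rinv_le δ (x + nuc l) hτ
    have e : (1 : ℝ) / (2 * τ) = 1 / (4 * τ) + 1 / (4 * τ) := by field_simp; ring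
    simp only [attractR, attrSq, mul_add]
    linarith
  have hq := qinv_nonneg δ
  have : 0 ≤ τ * (qinv δ (z 0 - z 1) + qinv δ (z 0 - z 2) + qinv δ (z 1 - z 2)) :=
    mul_nonneg hτ.le (add_nonneg (add_nonneg (hq _) (hq _)) (hq _))
  have e : (3 : ℝ) / (2 * τ) = 3 * (1 / (2 * τ)) := by ring
  simp only [potQ, mul_add] at *
  linarith [h (z 0), h (z 1), h (z 2)]

lemma le_molPotR (h0 : 0 ≤ lam) (z : Cfg 3) :
    -(attractR l δ (z 0) + attractR l δ (z 1) + attractR l δ (z 2)) ≤ molPotR l lam δ z := by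
  have hr := rinv_nonneg δ
  have : 0 ≤ lam * (rinv δ (z 0 - z 1) + rinv δ (z 0 - z 2) + rinv δ (z 1 - z 2)) :=
    mul_nonneg h0 (add_nonneg (add_nonneg (hr _) (hr _)) (hr _))
  unfold molPotR; linarith

lemma molPotR_sq_le (h0 : 0 ≤ lam) (h1 : lam ≤ 1) (z : Cfg 3) :
    molPotR l lam δ z ^ 2 ≤ 9 * potQ l δ z := by
  have h := sq_sum_le_card_mul_sum_sq (s := Finset.univ)
    (f := ![-rinv δ (z 0 - nuc l), -rinv δ (z 0 + nuc l), -rinv δ (z 1 - nuc l),
      -rinv δ (z 1 + nuc l), -rinv δ (z 2 - nuc l), -rinv δ (z 2 + nuc l),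
      lam * rinv δ (z 0 - z 1), lam * rinv δ (z 0 - z 2), lam * rinv δ (z 1 - z 2)])
  simp [Fin.sum_univ_succ, mul_pow, rinv_sq] at h
  have hl : ∀ w : Space, lam ^ 2 * qinv δ w ≤ qinv δ w := fun w =>
    mul_le_of_le_one_left (qinv_nonneg _ _) (by nlinarith)
  simp only [molPotR, attractR, potQ, attrSq]
  refine le_trans (le_of_eq ?_) (h.trans ?_)
  · ring
  · linarith [hl (z 0 - z 1), hl (z 0 - z 2), hl (z 1 - z 2)]

/-- The Hardy inequality in one slot, with a centre depending on the others. -/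
lemma slot_hardy {n : ℕ} {g : Cfg (n + 1) → ℝ} (hg : ContDiff ℝ 1 g) (hc : HasCompactSupport g)
    (k : Fin (n + 1)) {p : Cfg n → Space} (hp : Continuous p) (hδ : δ ≠ 0) :
    ∫ z, g z ^ 2 * qinv δ (z k - p (k.removeNth z)) ≤ 4 * ∫ z, ∑ a, slotDeriv k a g z ^ 2 := by
  have hrem : Continuous fun z : Cfg (n + 1) => k.removeNth z :=
    continuous_pi fun l => continuous_apply (k.succAbove l)
  have i1 : Integrable fun z => g z ^ 2 * qinv δ (z k - p (k.removeNth z)) :=
    ((hg.continuous.pow 2).mul ((continuous_qinv hδ).comp ((continuous_apply k).sub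
      (hp.comp hrem)))).integrable_of_hasCompactSupport
      (HasCompactSupport.intro hc fun z hz => by simp [image_eq_zero_of_notMem_tsupport hz])
  have i2 : Integrable fun z => ∑ a, slotDeriv k a g z ^ 2 :=
    integrable_finsetSum _ fun a _ => ((continuous_slotDeriv hg k a).pow 2).integrable_of_hasCompactSupport
      (HasCompactSupport.intro (hasCompactSupport_slotDeriv hc k a) fun z hz => by
        simp [image_eq_zero_of_notMem_tsupport hz])
  rw [← (mp_ins k).integral_comp (embedding_ins k),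
    ← (mp_ins k).integral_comp (embedding_ins k),
    integral_prod_symm _ (integrable_prod_ins k i1), integral_prod_symm _ (integrable_prod_ins k i2),
    ← integral_const_mul]
  refine integral_mono (integrable_prod_ins k i1).integral_prod_right
    ((integrable_prod_ins k i2).integral_prod_right.const_mul 4) fun y => ?_
  simp only [Fin.insertNth_apply_same, Fin.removeNth_insertNth]
  have hd : ∀ (a : Fin 3) (r : Space), deriv3 a (fun r => g (k.insertNth r y)) r =
      slotDeriv k a g (k.insertNth r y) := by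
    intro a r
    have := ((hg.differentiable one_ne_zero _).hasFDerivAt.comp r
      (hasFDerivAt_ins_x k r y)).fderiv
    rw [deriv3, show (fun r => g (k.insertNth r y)) = g ∘ fun r => k.insertNth r y from rfl, this]
    simp [slotDeriv]
  have hcs : HasCompactSupport fun r : Space => g (k.insertNth r y) :=
    HasCompactSupport.of_support_subset_isCompact (hc.isCompact.image (continuous_apply k))
      fun r hr => ⟨k.insertNth r y, subset_tsupport g hr, by simp⟩
  have hcd : ContDiff ℝ 1 fun r : Space => g (k.insertNth r y) := by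
    refine hg.comp (contDiff_pi.2 fun j => ?_)
    rcases Fin.eq_self_or_eq_succAbove k j with rfl | ⟨l, rfl⟩
    · simp only [Fin.insertNth_apply_same]; exact contDiff_id
    · simp only [Fin.insertNth_apply_succAbove]; exact contDiff_const
  have h := hardy_smooth hcd hcs (p y) (ε := δ ^ 2) (by positivity)
  simpa only [gradSum, hd, qinv] using h

lemma cont_ySq {i : Fin 3} {g : Cfg 3 → ℝ} (hg : ContDiff ℝ 1 g) : Continuous (ySq i g) :=
  continuous_finsetSum _ fun k _ => continuous_finsetSum _ fun a _ =>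
    (continuous_slotDeriv hg _ a).pow 2

lemma supp_ySq {i : Fin 3} {g : Cfg 3 → ℝ} (hc : HasCompactSupport g) :
    HasCompactSupport (ySq i g) :=
  HasCompactSupport.intro hc fun z hz => by
    simp [ySq, slotDeriv, fderiv_of_notMem_tsupport ℝ hz]

/-- A singularity in the position of another electron, inside a slice. -/
lemma marg_qinv_le (hδ : δ ≠ 0) (i : Fin 3) {j : Fin 3} (hj : j ≠ i) {g : Cfg 3 → ℝ}
    (hg : ContDiff ℝ 1 g) (hc : HasCompactSupport g) {c : Cfg 3 → Space} (hcc : Continuous c)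
    (hci : ∀ z r, c (Function.update z j r) = c z) (x : Space) :
    marg i (fun z => qinv δ (z j - c z) * g z ^ 2) x ≤ 4 * marg i (ySq i g) x := by
  obtain ⟨m, rfl⟩ := Fin.exists_succAbove_eq hj
  have hψ : ContDiff ℝ 1 fun y : Cfg 2 => g (i.insertNth x y) := hg.comp (contDiff_ins_right i x)
  have hψc := hasCompactSupport_slice hc i x
  have hp : Continuous fun y' : Cfg 1 => c (i.insertNth x (m.insertNth (0 : Space) y')) :=
    hcc.comp ((continuous_ins i).comp (continuous_const.prodMk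
      ((continuous_ins m).comp (continuous_const.prodMk continuous_id))))
  have h := slot_hardy hψ hψc m hp hδ
  have e : ∀ y : Cfg 2, c (i.insertNth x (m.insertNth (0 : Space) (m.removeNth y))) =
      c (i.insertNth x y) := by
    intro y
    rw [Fin.insertNth_removeNth]
    conv_rhs => rw [← hci _ (0 : Space)]
    congr 1
    funext t
    rcases Fin.eq_self_or_eq_succAbove i t with ht | ⟨u, rfl⟩
    · subst ht
      simp [(Fin.succAbove_ne t m).symm]
    · rcases eq_or_ne u m with rfl | hu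
      · simp
      · simp [hu, Fin.succAbove_right_injective.ne hu]
  refine (le_of_eq ?_).trans (h.trans (mul_le_mul_of_nonneg_left ?_ (by norm_num)))
  · refine integral_congr_ae (ae_of_all _ fun y => ?_)
    simp only [Fin.insertNth_apply_succAbove, e]
    ring
  · refine integral_mono ?_ (integrable_slice (cont_ySq hg) (supp_ySq hc) i x) fun y => ?_
    · exact integrable_finsetSum _ fun a _ =>
        ((continuous_slotDeriv hψ m a).pow 2).integrable_of_hasCompactSupport
          (HasCompactSupport.intro (hasCompactSupport_slotDeriv hψc m a) fun z hz => by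
            simp [image_eq_zero_of_notMem_tsupport hz])
    · simp only [slotDeriv_slice_right (i := i) x m _ (hg.differentiable one_ne_zero _), ySq]
      exact Finset.single_le_sum (f := fun k => ∑ a, slotDeriv (i.succAbove k) a g _ ^ 2)
        (fun k _ => Finset.sum_nonneg fun a _ => sq_nonneg _) (Finset.mem_univ m)

/-- All singularities inside a slice. -/
lemma marg_potQ_le (hδ : δ ≠ 0) (i : Fin 3) {g : Cfg 3 → ℝ} (hg : ContDiff ℝ 1 g)
    (hc : HasCompactSupport g) (x : Space) :
    marg i (fun z => potQ l δ z * g z ^ 2) x ≤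
      attrSq l δ x * marg i (fun z => g z ^ 2) x + 28 * marg i (ySq i g) x := by
  have hq := continuous_qinv hδ
  have hint : ∀ (b : Cfg 3 → Space), Continuous b →
      Integrable fun y : Cfg 2 => qinv δ (b (i.insertNth x y)) * g (i.insertNth x y) ^ 2 :=
    fun b hb => integrable_slice (g := fun z => qinv δ (b z) * g z ^ 2)
      ((hq.comp hb).mul (hg.continuous.pow 2))
      (HasCompactSupport.intro hc fun z hz => by simp [image_eq_zero_of_notMem_tsupport hz]) i x
  set Y := marg i (ySq i g) x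
  have hY : 0 ≤ Y := marg_nonneg (fun z => Finset.sum_nonneg fun k _ =>
    Finset.sum_nonneg fun a _ => sq_nonneg _) i x
  have at1 : ∀ (j : Fin 3) (p : Space), marg i (fun z => qinv δ (z j - p) * g z ^ 2) x ≤
      (if j = i then qinv δ (x - p) * marg i (fun z => g z ^ 2) x else 4 * Y) := by
    intro j p
    split_ifs with h
    · subst h; exact (marg_mul_left (fun r => qinv δ (r - p)) _ j x).le
    · exact marg_qinv_le hδ i h hg hc continuous_const (fun _ _ => rfl) x
  have pr : ∀ a b : Fin 3, a ≠ b → marg i (fun z => qinv δ (z a - z b) * g z ^ 2) x ≤ 4 * Y := by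
    intro a b hab
    by_cases ha : a = i
    · subst ha
      have := marg_qinv_le hδ a hab.symm hg hc (continuous_apply a)
        (fun z r => Function.update_of_ne hab r z) x
      refine le_trans (le_of_eq ?_) this
      simp only [qinv, norm_sub_rev]
    · exact marg_qinv_le hδ i ha hg hc (continuous_apply b)
        (fun z r => Function.update_of_ne hab.symm r z) x
  have expand : marg i (fun z => potQ l δ z * g z ^ 2) x =
      ((marg i (fun z => qinv δ (z 0 - nuc l) * g z ^ 2) x +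
        marg i (fun z => qinv δ (z 0 + nuc l) * g z ^ 2) x) +
      (marg i (fun z => qinv δ (z 1 - nuc l) * g z ^ 2) x +
        marg i (fun z => qinv δ (z 1 + nuc l) * g z ^ 2) x) +
      (marg i (fun z => qinv δ (z 2 - nuc l) * g z ^ 2) x +
        marg i (fun z => qinv δ (z 2 + nuc l) * g z ^ 2) x)) +
      (marg i (fun z => qinv δ (z 0 - z 1) * g z ^ 2) x +
        marg i (fun z => qinv δ (z 0 - z 2) * g z ^ 2) x +
        marg i (fun z => qinv δ (z 1 - z 2) * g z ^ 2) x) := by
    set b : Fin 9 → Cfg 3 → Space := ![fun z => z 0 - nuc l, fun z => z 0 + nuc l,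
      fun z => z 1 - nuc l, fun z => z 1 + nuc l, fun z => z 2 - nuc l, fun z => z 2 + nuc l,
      fun z => z 0 - z 1, fun z => z 0 - z 2, fun z => z 1 - z 2] with hb
    have hbc : ∀ k, Continuous (b k) := by
      intro k
      fin_cases k
      all_goals simp only [hb]
      all_goals first
        | exact (continuous_apply _).sub continuous_const
        | exact (continuous_apply _).add continuous_const
        | exact (continuous_apply _).sub (continuous_apply _)
    have e : ∀ y : Cfg 2, potQ l δ (i.insertNth x y) * g (i.insertNth x y) ^ 2 =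
        ∑ k, qinv δ (b k (i.insertNth x y)) * g (i.insertNth x y) ^ 2 := by
      intro y
      simp [hb, Fin.sum_univ_succ, potQ, attrSq, add_mul, add_assoc]
    calc marg i (fun z => potQ l δ z * g z ^ 2) x
        = ∑ k, marg i (fun z => qinv δ (b k z) * g z ^ 2) x := by
          simp only [marg, e]
          exact integral_finsetSum _ fun k _ => hint _ (hbc k)
      _ = _ := by simp [hb, Fin.sum_univ_succ, add_assoc]
  rw [expand]
  have n0 := at1 0 (-nuc l); have n1 := at1 1 (-nuc l); have n2 := at1 2 (-nuc l)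
  simp only [sub_neg_eq_add] at n0 n1 n2
  have p0 := at1 0 (nuc l); have p1 := at1 1 (nuc l); have p2 := at1 2 (nuc l)
  have s := pr 0 1 (by decide); have s' := pr 0 2 (by decide); have s'' := pr 1 2 (by decide)
  simp only [attrSq, add_mul]
  obtain rfl | rfl | rfl : i = 0 ∨ i = 1 ∨ i = 2 := by omega
  all_goals simp at n0 n1 n2 p0 p1 p2 ⊢
  all_goals linarith

end Vale.Agent.P363.Inter
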