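import Vale.Agent.P363.Inter.Reg.WeakKato
import Vale.Agent.P363.Tool.Sobolev.Main
import Vale.Agent.P363.Tool.SupBound

/-!
P363, interacting side: the third power of mass and gradient mass is integrable, their local sup
bounds and the Caccioppoli inequality.
-/

noncomputable section

namespace Vale.Agent.P363.Inter

open MeasureTheory Filter Set Metric
open scoped BigOperators Topology ContDiff ENNReal

variable {l lam E M ε : ℝ} {f : Cfg 3 → ℝ} {D : Fin 3 → Fin 3 → Cfg 3 → ℝ}
  {P : (Cfg 3 → ℝ) → Prop}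

lemma sqrt_pow_six {t : ℝ} (ht : 0 ≤ t) : √t ^ 6 = t ^ 3 := by
  rw [pow_mul (√t) 2 3, Real.sq_sqrt ht]

/-- Sobolev for the root of mass and gradient mass of a test function. -/
lemma exists_uMass_cube : ∃ K : ℝ, 0 ≤ K ∧ ∀ (i : Fin 3) (φ : Cfg 3 → ℝ), ContDiff ℝ ∞ φ →
    HasCompactSupport φ → Integrable (fun x => uMass i φ x ^ 3) ∧
      ∫ x, uMass i φ x ^ 3 ≤ K * (∫ x, xGrad i φ x) ^ 3 := by
  obtain ⟨K, hK⟩ := six_smooth
  refine ⟨(K : ℝ) ^ 6, by positivity, fun i φ hφ hc => ?_⟩
  set e : ℕ → ℝ := fun j => 1 / ((j : ℝ) + 1)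
  have he : ∀ j, 0 < e j := fun j => by positivity
  have he0 : Tendsto e atTop (𝓝 0) := tendsto_one_div_add_atTop_nhds_zero_nat
  set v := fun j x => uRoot (e j) (uMass i φ) x - e j
  have hv : ∀ j, ContDiff ℝ 1 (v j) := fun j =>
    ((contDiff_uRoot (he j).ne' hφ hc i).of_le (by norm_num)).sub contDiff_const
  have hvc : ∀ j, HasCompactSupport (v j) := fun j =>
    HasCompactSupport.intro (hasCompactSupport_uMass hc i) fun x hx => by
      simp [v, uRoot, image_eq_zero_of_notMem_tsupport hx, Real.sqrt_sq (he j).le]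
  set T := ∫ x, xGrad i φ x
  have hT : 0 ≤ T := integral_nonneg (xGrad_nonneg i φ)
  have h6 : ∀ j, Integrable (fun x => v j x ^ 6) ∧ ∫ x, v j x ^ 6 ≤ (K : ℝ) ^ 6 * T ^ 3 := by
    intro j
    have hi : Integrable fun x => v j x ^ 6 :=
      ((hv j).continuous.pow 6).integrable_of_hasCompactSupport
        (HasCompactSupport.intro (hvc j) fun x hx => by simp [image_eq_zero_of_notMem_tsupport hx])
    refine ⟨hi, ?_⟩
    set I := ∫ x, v j x ^ 6
    have hI : 0 ≤ I := integral_nonneg fun x => by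
      simp only [Pi.zero_apply]; positivity
    have hg : ∫ x, gradSum (v j) x ≤ T := by
      refine integral_mono (integrable_gradSum (hv j) (hvc j)) (integral_xGrad hφ hc i).1 fun x => ?_
      refine le_of_eq_of_le ?_ (gradSum_uRoot_le (he j).ne' hφ hc i x)
      refine Finset.sum_congr rfl fun a _ => ?_
      simp only [v, deriv3, fderiv_sub_const]
    have h := hK _ (hv j) (hvc j)
    have hm : MemLp (v j) 6 := (hv j).continuous.memLp_of_hasCompactSupport (hvc j)
    rw [hm.eLpNorm_eq_integral_rpow_norm (by norm_num) ENNReal.ofNat_ne_top,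
      ← ENNReal.ofReal_coe_nnreal, ← ENNReal.ofReal_mul K.coe_nonneg,
      ENNReal.ofReal_le_ofReal_iff (by positivity)] at h
    have e6 : (fun x => ‖v j x‖ ^ ((6 : ℝ))) = fun x => v j x ^ 6 := funext fun x => by
      rw [show (6 : ℝ) = ((6 : ℕ) : ℝ) by norm_num, Real.rpow_natCast, Real.norm_eq_abs]
      exact Even.pow_abs ⟨3, rfl⟩ _
    simp only [ENNReal.toReal_ofNat, e6] at h
    have h' := pow_le_pow_left₀ (by positivity) h 6
    rw [show ((I ^ ((6 : ℝ)⁻¹)) ^ 6 : ℝ) = I by
      rw [← Real.rpow_natCast (I ^ _) 6, ← Real.rpow_mul hI]; norm_num] at h'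
    refine h'.trans ?_
    rw [mul_pow, sqrt_pow_six (integral_nonneg fun x => gradSum_nonneg _ x)]
    exact mul_le_mul_of_nonneg_left
      (pow_le_pow_left₀ (integral_nonneg fun x => gradSum_nonneg _ x) hg 3) (by positivity)
  refine integrable_of_tendsto_bound (fun j => (h6 j).1)
    (fun j => .of_forall fun x => by simp only [Pi.zero_apply]; positivity) (.of_forall fun x => ?_)
    (fun j => (h6 j).2) tendsto_const_nhds
  have := (((he0.pow 2).const_add (uMass i φ x)).sqrt.sub he0).pow 6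
  simpa [v, uRoot, sqrt_pow_six (uMass_nonneg i φ x)] using this

/-- The third power of mass and gradient mass, uniformly in the state. -/
lemma exists_uLim_cube (M : ℝ) : ∃ K : ℝ, 0 ≤ K ∧ ∀ (l lam E : ℝ) (f : Cfg 3 → ℝ)
    (D : Fin 3 → Fin 3 → Cfg 3 → ℝ) (P : (Cfg 3 → ℝ) → Prop), 0 ≤ lam → lam ≤ 1 → |E| ≤ M →
    IsLowest l lam P E f D → ∀ i, Integrable (fun x => uLim i f D x ^ 3) ∧
      ∫ x, uLim i f D x ^ 3 ≤ K := by
  obtain ⟨K, hK0, hK⟩ := exists_uMass_cube
  refine ⟨K * |4 * M + 6000 + (8 * (324 * (4 * M + 6000)) + 8 * M ^ 2 + 1)| ^ 3, by positivity,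
    fun l lam E f D P h0 h1 hE h i => ?_⟩
  obtain ⟨φ, δ, G⟩ := exists_goodSeq h0 h1 h
  obtain ⟨ns, hns, hae⟩ := (G.uMass_lim i).exists_ae
  obtain ⟨ha, hb⟩ := integrable_of_tendsto_bound
    (fun j => (hK i _ (G.smooth (ns j)).1 (G.smooth (ns j)).2).1)
    (fun j => .of_forall fun x => pow_nonneg (uMass_nonneg i _ x) 3)
    (hae.mono fun x hx => hx.pow 3) (L := K * (kinAll D +
      ((∫ z, (2 * ((molPot l lam z - E) * f z)) ^ 2) + 1)) ^ 3)
    (fun j => (hK i _ (G.smooth (ns j)).1 (G.smooth (ns j)).2).2.trans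
      (mul_le_mul_of_nonneg_left (pow_le_pow_left₀ (integral_nonneg (xGrad_nonneg i _))
        (G.integral_xGrad_le i (ns j)) 3) hK0))
    ((((G.kin_lim.comp hns.tendsto_atTop).add_const _).pow 3).const_mul K)
  refine ⟨ha, hb.trans (mul_le_mul_of_nonneg_left (pow_le_pow_left₀ ?_ ?_ 3) hK0)⟩
  · have h1' : 0 ≤ kinAll D :=
      Finset.sum_nonneg fun j _ => Finset.sum_nonneg fun a _ => integral_nonneg fun z => sq_nonneg _
    have h2' : (0 : ℝ) ≤ ∫ z, (2 * ((molPot l lam z - E) * f z)) ^ 2 :=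
      integral_nonneg fun z => sq_nonneg _
    linarith
  · refine le_trans ?_ (le_abs_self _)
    linarith [IsLowest.kinAll_le h h0 h1 hE, IsLowest.rhs_sq_le h h0 h1 hE]

/-- Squares of the mass, of its gradient and of the right side of its equation. -/
lemma exists_sq_bounds (M : ℝ) : ∃ K : ℝ, 0 ≤ K ∧ ∀ (l lam E : ℝ) (f : Cfg 3 → ℝ)
    (D : Fin 3 → Fin 3 → Cfg 3 → ℝ) (P : (Cfg 3 → ℝ) → Prop), 0 ≤ lam → lam ≤ 1 → |E| ≤ M →
    IsLowest l lam P E f D → ∀ i, MemLp (uLim i f D) 2 ∧
      MemLp (lnP l lam E i f D) 2 ∧ ∫ x, lnP l lam E i f D x ^ 2 ≤ K := by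
  obtain ⟨K, hK0, hK⟩ := exists_uLim_cube M
  set c := 4 * |M + 225| + 3
  set B := (|4 * M + 6000| + 1 + K) / 2
  refine ⟨(1536 + 2 * c ^ 2) * B, by positivity, fun l lam E f D P h0 h1 hE h i => ?_⟩
  obtain ⟨hU3, hU3b⟩ := hK l lam E f D P h0 h1 hE h i
  have hH := inH1_of_isFormLim h.lim
  obtain ⟨φ, δ, G⟩ := exists_goodSeq h0 h1 h
  set U := uLim i f D
  set p := pMass i f
  have hU0 := uLim_nonneg i f D
  have hUi : Integrable U := hH.integrable_uLim i
  have hU2 : MemLp U 2 := by
    refine (memLp_two_iff_integrable_sq hUi.1).2 (((hUi.add hU3).div_const 2).mono' (hUi.1.pow 2)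
      (.of_forall fun x => ?_))
    simp only [Pi.add_apply, Real.norm_eq_abs, abs_pow, sq_abs]
    nlinarith [mul_nonneg (hU0 x) (sq_nonneg (U x - 1))]
  have hUB : ∫ x, U x ^ 2 ≤ B := by
    refine (integral_mono hU2.integrable_sq ((hUi.add hU3).div_const 2) fun x => ?_).trans ?_
    · simp only [Pi.add_apply]
      nlinarith [mul_nonneg (hU0 x) (sq_nonneg (U x - 1))]
    · have e : ∫ x, U x = 1 + kinAll D := by
        simp only [U, uLim]
        rw [integral_add (hH.integral_pMass i).1 (hH.integral_dMass i).1, (hH.integral_pMass i).2,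
          (hH.integral_dMass i).2, h.mass_one]
        rfl
      simp only [Pi.add_apply]
      rw [integral_div, integral_add hUi hU3, e]
      have := IsLowest.kinAll_le h h0 h1 hE
      simp only [B]
      linarith [le_abs_self (4 * M + 6000)]
  have hp0 := pMass_nonneg i f
  have hpU := pMass_le_uLim i f D
  have hp : MemLp p 2 := hU2.mono (hH.integral_pMass i).1.1 (.of_forall fun x => by
    rw [Real.norm_eq_abs, Real.norm_eq_abs, abs_of_nonneg (hp0 x), abs_of_nonneg (hU0 x)]
    exact hpU x)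
  have hg : ∀ a, ∀ᵐ x, |gnP i f D a x| ≤ U x := by
    intro a
    filter_upwards [hH.gnP_sq_le i a] with x hx
    have hd : marg i (fun z => D i a z ^ 2) x ≤ dMass i D x :=
      (Finset.single_le_sum (f := fun a => marg i (fun z => D i a z ^ 2) x)
        (fun a _ => marg_nonneg (fun _ => sq_nonneg _) i x) (Finset.mem_univ a)).trans
      (Finset.single_le_sum (f := fun j => ∑ a, marg i (fun z => D j a z ^ 2) x)
        (fun j _ => Finset.sum_nonneg fun a _ => marg_nonneg (fun _ => sq_nonneg _) i x)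
        (Finset.mem_univ i))
    refine abs_le_of_sq_le_sq ?_ (hU0 x)
    have := hp0 x
    simp only [U, uLim] at *
    nlinarith [sq_nonneg (pMass i f x - dMass i D x)]
  have hgm : ∀ a, MemLp (gnP i f D a) 2 := fun a => hU2.mono
    ((integrable_marg (hH.memLp.integrable_mul (hH.grad_memLp i a)) i).const_mul 2).1
    ((hg a).mono fun x hx => by rwa [Real.norm_eq_abs, Real.norm_eq_abs, abs_of_nonneg (hU0 x)])
  have hdir : dirichlet (gnP i f D) ≤ 3 * B := by
    refine (Finset.sum_le_sum fun a _ => (integral_mono_ae (hgm a).integrable_sq hU2.integrable_sq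
      ((hg a).mono fun x hx => ?_)).trans hUB).trans_eq (by simp)
    simp only
    nlinarith [abs_le.1 hx, hU0 x]
  have hy := hardy p (gnP i f D) ⟨hp, hgm, G.weakGrad i⟩
  obtain ⟨ip, bp⟩ := hy (nuc l)
  obtain ⟨im, bm⟩ := hy (-nuc l)
  have hl := G.lnP_bound h0 h1 hE i
  set R := fun x => 64 * (p x ^ 2 / ‖x - nuc l‖ ^ 2 + p x ^ 2 / ‖x - -nuc l‖ ^ 2) +
    2 * c ^ 2 * U x ^ 2
  have hR : Integrable R := ((ip.add im).const_mul 64).add (hU2.integrable_sq.const_mul _)
  have hlb : ∀ᵐ x, lnP l lam E i f D x ^ 2 ≤ R x := by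
    filter_upwards [hl] with x hx
    have ha := attract_nonneg' l x
    have hd := dMass_nonneg i D x
    have habs : |lnP l lam E i f D x| ≤ 4 * attract l x * p x + c * U x := by
      have hm := mul_le_mul_of_nonneg_right (le_abs_self (M + 225)) (hp0 x)
      have hsp : pMass i f x + dMass i D x = U x := rfl
      have := abs_add_le (lnP l lam E i f D x - 2 * dMass i D x) (2 * dMass i D x)
      rw [sub_add_cancel, abs_of_nonneg (by linarith : (0 : ℝ) ≤ 2 * dMass i D x)] at this
      have hc' : 0 ≤ |M + 225| * dMass i D x := by positivity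
      simp only [p, c] at *
      rw [← hsp]
      have := hp0 x
      nlinarith
    have h2 : lnP l lam E i f D x ^ 2 ≤ (4 * attract l x * p x + c * U x) ^ 2 := by
      rw [← sq_abs]; exact pow_le_pow_left₀ (abs_nonneg _) habs 2
    refine h2.trans ?_
    have e : attract l x ^ 2 * p x ^ 2 ≤
        2 * (p x ^ 2 / ‖x - nuc l‖ ^ 2 + p x ^ 2 / ‖x - -nuc l‖ ^ 2) := by
      simp only [attract, sub_neg_eq_add, div_eq_mul_inv, one_mul, ← inv_pow]
      nlinarith [mul_nonneg (sq_nonneg (‖x - nuc l‖⁻¹ - ‖x + nuc l‖⁻¹)) (sq_nonneg (p x))]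
    simp only [R]
    nlinarith [sq_nonneg (4 * attract l x * p x - c * U x)]
  have hlm : AEStronglyMeasurable (lnP l lam E i f D) volume :=
    ((((hH.integral_dMass i).1.const_mul 2).add
      ((integrable_marg ((hH.molPot_memLp l lam).integrable_mul hH.memLp) i).const_mul 4)).sub
      ((hH.integral_pMass i).1.const_mul (4 * E))).1
  have hli : Integrable fun x => lnP l lam E i f D x ^ 2 :=
    hR.mono' (hlm.pow 2) (hlb.mono fun x hx => by
      rwa [Real.norm_eq_abs, abs_of_nonneg (sq_nonneg _)])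
  refine ⟨hU2, (memLp_two_iff_integrable_sq hlm).2 hli, (integral_mono_ae hli hR hlb).trans ?_⟩
  simp only [R]
  have i64 : Integrable fun x =>
      64 * (p x ^ 2 / ‖x - nuc l‖ ^ 2 + p x ^ 2 / ‖x - -nuc l‖ ^ 2) := (ip.add im).const_mul 64
  have i2 : Integrable fun x => 2 * c ^ 2 * U x ^ 2 := hU2.integrable_sq.const_mul _
  rw [integral_add i64 i2, integral_const_mul, integral_const_mul, integral_add ip im]
  have hc0 : 0 ≤ 2 * c ^ 2 := by positivity
  nlinarith [mul_le_mul_of_nonneg_left hUB hc0]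

/-- Mass and gradient mass are locally bounded off the nuclei by their local integrals. -/
lemma exists_uLim_sup (M b : ℝ) {R : ℝ} (hR : 0 < R) : ∃ K : ℝ, 0 ≤ K ∧
    ∀ (l lam E : ℝ) (f : Cfg 3 → ℝ) (D : Fin 3 → Fin 3 → Cfg 3 → ℝ) (P : (Cfg 3 → ℝ) → Prop),
      0 ≤ lam → lam ≤ 1 → |E| ≤ M → IsLowest l lam P E f D → ∀ (i : Fin 3) (x₀ : Space),
        (∀ x ∈ ball x₀ (2 * R), ∀ δ, attrSq l δ x ≤ b) →
        ∀ᵐ x, x ∈ ball x₀ R → uLim i f D x ≤ K * ∫ y in ball x₀ (2 * R), uLim i f D y := by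
  obtain ⟨C, hC0, hC⟩ := supBound 2 (by norm_num) R hR
  set k := |15000 + 2 * M + 505 * b|
  set V := (volume (ball (0 : Space) (2 * R))).toReal
  refine ⟨(C * (√V + k)) ^ 2, sq_nonneg _,
    fun l lam E f D P h0 h1 hE h i x₀ hb => ?_⟩
  obtain ⟨φ, δ, G⟩ := exists_goodSeq h0 h1 h
  set U := uLim i f D
  have hU0 := uLim_nonneg i f D
  have hUi : Integrable U := (inH1_of_isFormLim h.lim).integrable_uLim i
  set μ := volume.restrict (ball x₀ (2 * R))
  have : IsFiniteMeasure μ := isFiniteMeasure_restrict.2 measure_ball_lt_top.ne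
  have hV : μ.real univ = V := by
    simp only [μ, measureReal_def, Measure.restrict_apply_univ, V, Measure.addHaar_ball_center]
  set e : ℕ → ℝ := fun j => 1 / ((j : ℝ) + 1)
  have he : ∀ j, 0 < e j := fun j => by positivity
  have key : ∀ j, ∀ᵐ x, x ∈ ball x₀ R →
      U x ≤ (C * (√V + k)) ^ 2 * ((∫ y, U y ∂μ) + V * e j ^ 2) := by
    intro j
    set S := uRoot (e j) U
    have hs := G.weakKato h0 h1 hE (he j).ne' (Ω := ball x₀ (2 * R)) hb i
    have hsm : AEStronglyMeasurable S μ :=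
      (Real.continuous_sqrt.comp_aestronglyMeasurable (hUi.1.add_const (e j ^ 2))).restrict
    have hS2 : MemLp S 2 μ := (memLp_two_iff_integrable_sq hsm).2
      ((hUi.restrict.add (integrable_const (e j ^ 2))).congr (.of_forall fun x => by
        simp only [S, uRoot, Pi.add_apply]
        rw [Real.sq_sqrt (by have := hU0 x; positivity)]))
    have hg : MemLp (fun x => (15000 + 2 * M + 505 * b) * S x) 2 μ := hS2.const_mul _
    have h' := hC x₀ S (fun x => (15000 + 2 * M + 505 * b) * S x) hs (hS2.integrable one_le_two)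
      (by rwa [ENNReal.ofReal_ofNat])
    set J := (∫ y, U y ∂μ) + V * e j ^ 2
    have hJ : ∫ y, S y ^ 2 ∂μ = J := by
      have e' : ∀ y, S y ^ 2 = U y + e j ^ 2 := fun y =>
        Real.sq_sqrt (by have := hU0 y; positivity)
      simp only [e']
      rw [integral_add hUi.restrict (integrable_const _), integral_const, hV, smul_eq_mul]
    have h1' : ∫ y, |S y| ∂μ ≤ √V * √J := by
      have := abs_integral_mul_le (μ := μ) (memLp_const (1 : ℝ)) hS2.abs
      simp only [one_mul, one_pow, integral_const, hV, smul_eq_mul, mul_one, Pi.abs_apply,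
        sq_abs, hJ] at this
      exact (le_abs_self _).trans this
    have h2' : (eLpNorm (fun x => (15000 + 2 * M + 505 * b) * S x) (ENNReal.ofReal 2) μ).toReal =
        k * √J := by
      rw [ENNReal.ofReal_ofNat, hg.eLpNorm_eq_integral_rpow_norm two_ne_zero ENNReal.ofNat_ne_top,
        ENNReal.toReal_ofReal (by positivity)]
      simp only [ENNReal.toReal_ofNat, Real.norm_eq_abs, Real.rpow_two, sq_abs, mul_pow]
      rw [integral_const_mul, hJ, ← one_div, ← Real.sqrt_eq_rpow, Real.sqrt_mul (sq_nonneg _),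
        Real.sqrt_sq_eq_abs]
    filter_upwards [h'] with x hx hxb
    have hx' := hx hxb
    rw [h2'] at hx'
    have h3 : S x ≤ C * (√V + k) * √J := by
      refine hx'.trans ?_
      rw [mul_assoc]
      exact mul_le_mul_of_nonneg_left (by linarith) hC0
    have hJ0 : 0 ≤ J := hJ ▸ integral_nonneg fun _ => sq_nonneg _
    calc U x ≤ S x ^ 2 := by
          simp only [S, uRoot]
          rw [Real.sq_sqrt (by have := hU0 x; positivity)]; linarith [sq_nonneg (e j)]
      _ ≤ (C * (√V + k) * √J) ^ 2 := pow_le_pow_left₀ (Real.sqrt_nonneg _) h3 2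
      _ = _ := by rw [mul_pow, Real.sq_sqrt hJ0]
  filter_upwards [ae_all_iff.2 key] with x hx hxb
  have ht : Tendsto (fun j => (C * (√V + k)) ^ 2 * ((∫ y, U y ∂μ) + V * e j ^ 2)) atTop
      (𝓝 ((C * (√V + k)) ^ 2 * ∫ y, U y ∂μ)) := by
    simpa [e] using ((((tendsto_one_div_add_atTop_nhds_zero_nat (𝕜 := ℝ)).pow 2).const_mul V).const_add
      (∫ y, U y ∂μ)).const_mul ((C * (√V + k)) ^ 2)
  exact ge_of_tendsto' ht fun j => hx j hxb

/-- The Caccioppoli inequality of the mass. -/
lemma exists_caccioppoli (M : ℝ) : ∃ K : ℝ, 0 ≤ K ∧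
    ∀ (l lam E : ℝ) (f : Cfg 3 → ℝ) (D : Fin 3 → Fin 3 → Cfg 3 → ℝ) (P : (Cfg 3 → ℝ) → Prop),
      0 ≤ lam → lam ≤ 1 → |E| ≤ M → IsLowest l lam P E f D → ∀ (i : Fin 3) (x₀ : Space),
        (∀ x ∈ ball x₀ 3, attract l x ≤ 2) →
        ∫ y in ball x₀ (5 / 2), uLim i f D y ≤ K * ∫ y in ball x₀ 3, pMass i f y := by
  obtain ⟨θ, hθ, hθ01, O, hO, hKO, hO1⟩ := exists_cutoff (isOpen_ball (x := (0 : Space)) (ε := 3))
    (isCompact_closedBall (0 : Space) (5 / 2)) (closedBall_subset_ball (by norm_num))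
  obtain ⟨L, hL⟩ := hθ.lap.compact.exists_bound_of_continuous hθ.lap.continuous
  have hL0 : 0 ≤ L := (norm_nonneg _).trans (hL 0)
  refine ⟨L + 4 * |M + 227| + 1, by positivity,
    fun l lam E f D P h0 h1 hE h i x₀ ha => ?_⟩
  obtain ⟨φ, δ, G⟩ := exists_goodSeq h0 h1 h
  have hH := inH1_of_isFormLim h.lim
  set η := fun x => θ (x - x₀)
  have hsub : ∀ x, x ∉ ball x₀ 3 → η x = 0 ∧ lap θ (x - x₀) = 0 := fun x hx => by
    have hx' : x - x₀ ∉ ball (0 : Space) 3 := by
      rwa [mem_ball_zero_iff, ← dist_eq_norm]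
    exact ⟨hθ.eq_zero hx', hθ.lap.eq_zero hx'⟩
  have hη : IsBump Set.univ η :=
    ⟨hθ.smooth.comp (contDiff_id.sub contDiff_const),
      hθ.compact.comp_homeomorph (Homeomorph.subRight x₀), subset_univ _⟩
  have hd : ∀ (u : Space → ℝ) a, deriv3 a (fun x => u (x - x₀)) = fun x => deriv3 a u (x - x₀) :=
    fun u a => funext fun x => by simp [deriv3, fderiv_comp_sub]
  have hlap : ∀ x, lap η x = lap θ (x - x₀) := fun x => by
    simp only [lap, η, hd]
  have hp0 := pMass_nonneg i f
  have hpi := (hH.integral_pMass i).1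
  have hdi := (hH.integral_dMass i).1
  have e := (G.weakPoisson h0 h1 i).2.2 η hη
  set p := pMass i f
  set Z := fun x => (ball x₀ 3).indicator p x
  have hZ : Integrable Z := hpi.indicator measurableSet_ball
  have hli : LocallyIntegrableOn (lnP l lam E i f D) univ := (G.weakPoisson h0 h1 i).2.1
  have i1 : Integrable fun x => p x * lap η x :=
    hη.integrable_mul_lap (hpi.locallyIntegrable.locallyIntegrableOn _)
  have i2 : Integrable fun x => lnP l lam E i f D x * η x := hη.integrable_mul hli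
  have i3 : Integrable fun x => dMass i D x * η x :=
    hη.integrable_mul (hdi.locallyIntegrable.locallyIntegrableOn _)
  have h3 : ∀ᵐ x, dMass i D x * η x ≤
      lnP l lam E i f D x * η x + 4 * |M + 227| * Z x := by
    filter_upwards [G.lnP_bound h0 h1 hE i] with x hx
    by_cases hxb : x ∈ ball x₀ 3
    · simp only [Z, indicator_of_mem hxb]
      have h01 := hθ01 (x - x₀)
      have hm := mul_le_mul_of_nonneg_right (le_abs_self (M + 227)) (hp0 x)
      have hA := mul_le_mul_of_nonneg_right (ha x hxb) (hp0 x)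
      have := (abs_le.1 hx).1
      have hkey : dMass i D x ≤ lnP l lam E i f D x + 4 * |M + 227| * p x := by
        simp only [p] at *; linarith
      have hnn : 0 ≤ 4 * |M + 227| * p x := by
        have := hp0 x; positivity
      nlinarith [mul_le_mul_of_nonneg_right hkey h01.1,
        mul_le_mul_of_nonneg_left h01.2 hnn]
    · simp [Z, hxb, (hsub x hxb).1]
  have h4 : ∫ x, p x * lap η x ≤ L * ∫ x, Z x := by
    rw [← integral_const_mul]
    refine integral_mono i1 (hZ.const_mul L) fun x => ?_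
    simp only [Z, hlap]
    by_cases hxb : x ∈ ball x₀ 3
    · rw [indicator_of_mem hxb, mul_comm L]
      exact mul_le_mul_of_nonneg_left ((le_abs_self _).trans (hL _)) (hp0 x)
    · simp [hxb, (hsub x hxb).2]
  have h5 : ∫ y in ball x₀ (5 / 2), uLim i f D y ≤ (∫ x, Z x) + ∫ x, dMass i D x * η x := by
    rw [← integral_indicator measurableSet_ball, ← integral_add hZ i3]
    refine integral_mono ((hH.integrable_uLim i).indicator measurableSet_ball) (hZ.add i3) fun x => ?_
    by_cases hxb : x ∈ ball x₀ (5 / 2)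
    · have h3' : x ∈ ball x₀ 3 := ball_subset_ball (by norm_num) hxb
      have hη1 : η x = 1 := hO1 _ (hKO (by
        rw [mem_closedBall_zero_iff, ← dist_eq_norm]; exact (mem_ball.1 hxb).le))
      simp [Z, indicator_of_mem hxb, indicator_of_mem h3', hη1, uLim, p]
    · simp only [Z, indicator_of_notMem hxb]
      exact add_nonneg (indicator_nonneg (fun y _ => hp0 y) x)
        (mul_nonneg (dMass_nonneg i D x) (hθ01 _).1)
  have h6 := integral_mono_ae i3 (i2.add (hZ.const_mul _)) h3
  simp only [Pi.add_apply] at h6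
  rw [integral_add i2 (hZ.const_mul _), integral_const_mul] at h6
  have eZ : ∫ x, Z x = ∫ y in ball x₀ 3, p y := integral_indicator measurableSet_ball
  rw [← eZ]
  linarith

end Vale.Agent.P363.Inter
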