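import Vale.Agent.P363.Inter.Reg.Moment

/-!
P363, interacting side: the root of mass and gradient mass of a slice of a lowest state is a weak
subsolution.
-/

noncomputable section

namespace Vale.Agent.P363.Inter

open MeasureTheory Filter Set
open scoped BigOperators Topology ContDiff

variable {i : Fin 3} {l lam E M ε : ℝ} {f : Cfg 3 → ℝ} {D : Fin 3 → Fin 3 → Cfg 3 → ℝ}
  {φ : ℕ → Cfg 3 → ℝ} {δ : ℕ → ℝ}

/-- The regularised root. -/
def uRoot (ε : ℝ) (U : Space → ℝ) (x : Space) : ℝ := √(U x + ε ^ 2)

/-- The bound of the gradient of the root. -/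
def xGrad (i : Fin 3) (φ : Cfg 3 → ℝ) (x : Space) : ℝ :=
  ∑ a, ∑ o, marg i (fun z => slotDeriv i a (jet φ o) z ^ 2) x

lemma uRoot_pos (hε : ε ≠ 0) {U : Space → ℝ} (h : ∀ x, 0 ≤ U x) (x : Space) : 0 < uRoot ε U x :=
  Real.sqrt_pos.2 (by have := h x; positivity)

lemma abs_uRoot_sub_le (hε : ε ≠ 0) {a b : ℝ} (ha : 0 ≤ a) (hb : 0 ≤ b) :
    |√(a + ε ^ 2) - √(b + ε ^ 2)| ≤ |a - b| / |ε| := by
  have he : 0 < |ε| := abs_pos.2 hε
  have h1 : |ε| ≤ √(a + ε ^ 2) := by
    rw [← Real.sqrt_sq_eq_abs]; exact Real.sqrt_le_sqrt (by linarith)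
  have h2 := Real.sqrt_nonneg (b + ε ^ 2)
  rw [le_div_iff₀ he]
  have e : a - b = (√(a + ε ^ 2) - √(b + ε ^ 2)) * (√(a + ε ^ 2) + √(b + ε ^ 2)) := by
    rw [mul_comm, ← sq_sub_sq, Real.sq_sqrt (by positivity), Real.sq_sqrt (by positivity)]
    ring
  rw [e, abs_mul]
  exact mul_le_mul_of_nonneg_left
    (by linarith [le_abs_self (√(a + ε ^ 2) + √(b + ε ^ 2))]) (abs_nonneg _)

lemma xGrad_nonneg (i : Fin 3) (φ : Cfg 3 → ℝ) (x : Space) : 0 ≤ xGrad i φ x :=
  Finset.sum_nonneg fun _ _ => Finset.sum_nonneg fun _ _ => marg_nonneg (fun _ => sq_nonneg _) i x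

lemma contDiff_uRoot (hε : ε ≠ 0) {φ : Cfg 3 → ℝ} (hφ : ContDiff ℝ ∞ φ) (hc : HasCompactSupport φ)
    (i : Fin 3) : ContDiff ℝ 2 (uRoot ε (uMass i φ)) :=
  ((contDiff_uMass hφ hc i).add contDiff_const).sqrt fun x => ne_of_gt (by
    have := uMass_nonneg i φ x; positivity)

lemma gradSum_uRoot_le (hε : ε ≠ 0) {φ : Cfg 3 → ℝ} (hφ : ContDiff ℝ ∞ φ)
    (hc : HasCompactSupport φ) (i : Fin 3) (x : Space) :
    gradSum (uRoot ε (uMass i φ)) x ≤ xGrad i φ x := by
  refine Finset.sum_le_sum fun a _ => ?_
  have hp : ∀ y, 0 < uMass i φ y + ε ^ 2 := fun y => by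
    have := uMass_nonneg i φ y; positivity
  rw [show uRoot ε (uMass i φ) = fun y => √(uMass i φ y + ε ^ 2) from rfl,
    deriv3_sqrt (((contDiff_uMass hφ hc i).add contDiff_const).differentiable two_ne_zero) hp a x,
    mul_pow, inv_pow, mul_pow, Real.sq_sqrt (hp x).le, ← div_eq_mul_inv]
  norm_num
  exact grad_uMass_le hε hφ hc i a x

lemma integral_xGrad {φ : Cfg 3 → ℝ} (hφ : ContDiff ℝ ∞ φ) (hc : HasCompactSupport φ) (i : Fin 3) :
    Integrable (xGrad i φ) ∧ ∫ x, xGrad i φ x ≤ kinAll (fun j a => slotDeriv j a φ) +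
      ∑ p : Fin 3 × Fin 3, ∑ q : Fin 3 × Fin 3,
        ∫ z, slotDeriv p.1 p.2 (slotDeriv q.1 q.2 φ) z ^ 2 := by
  have hi : ∀ a o, Integrable fun z => slotDeriv i a (jet φ o) z ^ 2 := fun a o =>
    ((continuous_slotDeriv ((contDiff_jet hφ o).of_le (WithTop.coe_le_coe.2 le_top)) i a).pow 2
      ).integrable_of_hasCompactSupport (supp_sq (hasCompactSupport_slotDeriv (supp_jet hc o) i a))
  have hm : ∀ a o, Integrable (marg i fun z => slotDeriv i a (jet φ o) z ^ 2) := fun a o =>
    integrable_marg (hi a o) i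
  refine ⟨integrable_finsetSum _ fun a _ => integrable_finsetSum _ fun o _ => hm a o, ?_⟩
  have e : ∀ a, ∫ x, ∑ o, marg i (fun z => slotDeriv i a (jet φ o) z ^ 2) x =
      ∑ o, ∫ z, slotDeriv i a (jet φ o) z ^ 2 := fun a =>
    (integral_finsetSum _ fun o _ => hm a o).trans
      (Finset.sum_congr rfl fun o _ => integral_marg (hi a o) i)
  simp only [xGrad]
  rw [integral_finsetSum _ fun a _ => integrable_finsetSum _ fun o _ => hm a o,
    Finset.sum_congr rfl fun a _ => e a]
  simp only [Fintype.sum_option, Finset.sum_add_distrib]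
  refine add_le_add ?_ ?_
  · exact Finset.single_le_sum (f := fun j => ∑ a, ∫ z, slotDeriv j a φ z ^ 2)
      (fun j _ => Finset.sum_nonneg fun a _ => integral_nonneg fun z => sq_nonneg _)
      (Finset.mem_univ i)
  · rw [Fintype.sum_prod_type (f := fun p : Fin 3 × Fin 3 => ∑ q : Fin 3 × Fin 3,
      ∫ z, slotDeriv p.1 p.2 (slotDeriv q.1 q.2 φ) z ^ 2)]
    exact Finset.single_le_sum (f := fun j => ∑ a, ∑ q : Fin 3 × Fin 3,
      ∫ z, slotDeriv j a (slotDeriv q.1 q.2 φ) z ^ 2)
      (fun j _ => Finset.sum_nonneg fun a _ => Finset.sum_nonneg fun q _ =>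
        integral_nonneg fun z => sq_nonneg _) (Finset.mem_univ i)

namespace GoodSeq

variable (G : GoodSeq l lam E f D φ δ)
include G

lemma kin_lim : Tendsto (fun k => kinAll fun j a => slotDeriv j a (φ k)) atTop (𝓝 (kinAll D)) :=
  tendsto_finsetSum _ fun j _ => tendsto_finsetSum _ fun a _ => (G.approx.der j a).integral_sq

lemma integral_xGrad_le (i : Fin 3) (k : ℕ) :
    ∫ x, xGrad i (φ k) x ≤ kinAll (fun j a => slotDeriv j a (φ k)) +
      ((∫ z, (2 * ((molPot l lam z - E) * f z)) ^ 2) + 1) :=
  (integral_xGrad (G.smooth k).1 (G.smooth k).2 i).2.trans (add_le_add le_rfl (G.hess k))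

/-- The residual does not contribute. -/
lemma tendsto_resTerm (hε : ε ≠ 0) (i : Fin 3) {η : Space → ℝ} (hη : IsBump Set.univ η) :
    Tendsto (fun k => ∫ x, η x / uRoot ε (uMass i (φ k)) x *
      (marg i (fun z => φ k z * resid l lam (δ k) E (φ k) z) x +
        ∑ p : Fin 3 × Fin 3, marg i (fun z => slotDeriv p.1 p.2 (φ k) z *
          slotDeriv p.1 p.2 (resid l lam (δ k) E (φ k)) z) x)) atTop (𝓝 0) := by
  obtain ⟨B, hB⟩ := hη.compact.exists_bound_of_continuous hη.continuous
  have he : 0 < |ε| := abs_pos.2 hε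
  set S := fun k => uRoot ε (uMass i (φ k))
  set w := fun k x => η x / S k x
  have hB0 : 0 ≤ B := (norm_nonneg _).trans (hB 0)
  have hS : ∀ k x, |ε| ≤ S k x := fun k x => by
    rw [← Real.sqrt_sq_eq_abs]
    exact Real.sqrt_le_sqrt (by linarith [uMass_nonneg i (φ k) x])
  have hwb : ∀ k x, |w k x| ≤ B / |ε| := fun k x => by
    rw [abs_div, abs_of_pos (he.trans_le (hS k x))]
    exact (div_le_div_of_nonneg_left (abs_nonneg _) he (hS k x)).trans
      (div_le_div_of_nonneg_right (by simpa [Real.norm_eq_abs] using hB x) he.le)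
  have hw : ∀ k, ContDiff ℝ 2 (w k) := fun k =>
    ((hη.contDiff 2).div (contDiff_uRoot hε (G.smooth k).1 (G.smooth k).2 i)
      fun x => (he.trans_le (hS k x)).ne')
  have hwz : ∀ k, ContDiff ℝ 1 fun z : Cfg 3 => w k (z i) := fun k =>
    ((hw k).of_le (by norm_num)).comp (contDiff_apply ℝ Space i)
  set r := fun k => resid l lam (δ k) E (φ k)
  have hr : ∀ k, ContDiff ℝ ∞ (r k) := fun k => contDiff_resid (G.reg_ne k) (G.smooth k).1
  have hrc : ∀ k, HasCompactSupport (r k) := fun k => supp_resid (G.smooth k).2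
  set g := fun (p : Fin 3 × Fin 3) k => slotDeriv p.1 p.2 (φ k)
  have hg : ∀ p k, ContDiff ℝ ∞ (g p k) := fun p k =>
    contDiff_slotDeriv (G.smooth k).1 le_rfl _ _
  have hgc : ∀ p k, HasCompactSupport (g p k) := fun p k =>
    hasCompactSupport_slotDeriv (G.smooth k).2 _ _
  have hg1 : ∀ p k, ContDiff ℝ 1 (g p k) := fun p k => (hg p k).of_le (WithTop.coe_le_coe.2 le_top)
  have h0 : Tendsto (fun k => ∫ x, w k x * marg i (fun z => φ k z * r k z) x) atTop (𝓝 0) := by
    have hl := (G.approx.val.mul G.res_lim).tendsto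
    simp only [mul_zero, sub_zero] at hl
    refine squeeze_zero_norm (fun k => ?_) (by simpa using hl.const_mul (B / |ε|))
    have hi : Integrable fun z => w k (z i) * (φ k z * r k z) :=
      ((hwz k).continuous.mul ((G.smooth k).1.continuous.mul (hr k).continuous)
        ).integrable_of_hasCompactSupport (supp_mulL _ (supp_mulL _ (hrc k)))
    rw [integral_mul_marg hi, ← integral_const_mul, Real.norm_eq_abs]
    have ib : Integrable fun z => B / |ε| * (|φ k z| * |r k z|) :=
      ((((G.approx.c1 k).memLp.integrable_mul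
        ((hr k).continuous.memLp_of_hasCompactSupport (hrc k) (p := 2)))).abs.const_mul (B / |ε|)).congr
        (.of_forall fun z => by simp [abs_mul])
    refine abs_integral_le_integral_abs.trans (integral_mono hi.abs ib fun z => ?_)
    simp only [abs_mul]
    exact mul_le_mul_of_nonneg_right (hwb k _) (by positivity)
  set c := fun (p : Fin 3 × Fin 3) k (x : Space) => if p.1 = i then deriv3 p.2 (w k) x else 0
  set H := fun (p : Fin 3 × Fin 3) k (z : Cfg 3) =>
    w k (z i) * slotDeriv p.1 p.2 (g p k) z + c p k (z i) * g p k z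
  set T := fun k => ∫ x, xGrad i (φ k) x
  have hTb : ∃ T0, ∀ k, T k ≤ T0 := by
    obtain ⟨C, hC⟩ := G.kin_lim.bddAbove_range
    exact ⟨_, fun k => (G.integral_xGrad_le i k).trans (add_le_add (hC ⟨k, rfl⟩) le_rfl)⟩
  obtain ⟨T0, hT0⟩ := hTb
  set R2 := (∫ z, (2 * ((molPot l lam z - E) * f z)) ^ 2) + 1
  set W := 2 * (B / |ε|) ^ 2 * R2 +
    2 * (2 * (∫ x, gradSum η x) + 2 * (B / |ε|) ^ 2 * T0)
  have hH : ∀ p k, ∫ z, H p k z ^ 2 ≤ W := by
    intro p k
    obtain ⟨hs, hc⟩ := G.smooth k
    have cw : Continuous (deriv3 p.2 (w k)) := continuous_deriv3 ((hw k).of_le (by norm_num)) _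
    have cc : Continuous fun z : Cfg 3 => c p k (z i) := by
      simp only [c]
      split_ifs
      · exact cw.comp (continuous_apply i)
      · exact continuous_const
    have c1 : Continuous (slotDeriv p.1 p.2 (g p k)) := continuous_slotDeriv (hg1 p k) _ _
    have i1 : Integrable fun z => slotDeriv p.1 p.2 (g p k) z ^ 2 :=
      (c1.pow 2).integrable_of_hasCompactSupport (supp_sq (hasCompactSupport_slotDeriv (hgc p k) _ _))
    have i2 : Integrable fun z => c p k (z i) ^ 2 * g p k z ^ 2 :=
      ((cc.pow 2).mul ((hg p k).continuous.pow 2)).integrable_of_hasCompactSupport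
        (supp_mulL _ (supp_sq (hgc p k)))
    have iH : Integrable fun z => H p k z ^ 2 :=
      ((((hwz k).continuous.mul c1).add (cc.mul (hg p k).continuous)).pow 2
        ).integrable_of_hasCompactSupport
        (supp_sq ((supp_mulL _ (hasCompactSupport_slotDeriv (hgc p k) _ _)).add
          (supp_mulL _ (hgc p k))))
    refine (integral_mono iH ((i1.const_mul (2 * (B / |ε|) ^ 2)).add (i2.const_mul 2)) fun z => ?_
      ).trans ?_
    · simp only [Pi.add_apply, H]
      have := mul_le_mul_of_nonneg_right (pow_le_pow_left₀ (abs_nonneg _) (hwb k (z i)) 2)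
        (sq_nonneg (slotDeriv p.1 p.2 (g p k) z))
      rw [sq_abs] at this
      nlinarith [sq_nonneg (w k (z i) * slotDeriv p.1 p.2 (g p k) z - c p k (z i) * g p k z)]
    rw [integral_add' (i1.const_mul _) (i2.const_mul _), integral_const_mul, integral_const_mul]
    refine add_le_add (mul_le_mul_of_nonneg_left ?_ (by positivity))
      (mul_le_mul_of_nonneg_left ?_ zero_le_two)
    · refine le_trans ?_ (G.hess k)
      refine le_trans ?_ (Finset.single_le_sum (f := fun p : Fin 3 × Fin 3 => ∑ q : Fin 3 × Fin 3,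
        ∫ z, slotDeriv p.1 p.2 (slotDeriv q.1 q.2 (φ k)) z ^ 2)
        (fun q _ => Finset.sum_nonneg fun q' _ => integral_nonneg fun z => sq_nonneg _)
        (Finset.mem_univ p))
      exact Finset.single_le_sum (f := fun q : Fin 3 × Fin 3 =>
        ∫ z, slotDeriv p.1 p.2 (slotDeriv q.1 q.2 (φ k)) z ^ 2)
        (fun q _ => integral_nonneg fun z => sq_nonneg _) (Finset.mem_univ p)
    · rw [← integral_mul_marg (c := fun x => c p k x ^ 2) (g := fun z => g p k z ^ 2) i2]
      have hrhs : Integrable fun x => 2 * gradSum η x + 2 * (B / |ε|) ^ 2 * xGrad i (φ k) x :=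
        ((integrable_gradSum (hη.contDiff 1) hη.compact).const_mul 2).add
          ((integral_xGrad hs hc i).1.const_mul _)
      refine (integral_mono_of_nonneg (.of_forall fun x => mul_nonneg (sq_nonneg _)
        (marg_nonneg (fun z => sq_nonneg _) i x)) hrhs (.of_forall fun x => ?_)).trans ?_
      · have hm : marg i (fun z => g p k z ^ 2) x ≤ S k x ^ 2 := by
          rw [show S k x ^ 2 = uMass i (φ k) x + ε ^ 2 from
            Real.sq_sqrt (by have := uMass_nonneg i (φ k) x; positivity), uMass_eq]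
          have := Finset.single_le_sum (f := fun o => marg i (fun z => jet (φ k) o z ^ 2) x)
            (fun o _ => marg_nonneg (fun z => sq_nonneg _) i x) (Finset.mem_univ (some p))
          have hj : jet (φ k) (some p) = g p k := rfl
          simp only [hj] at this
          linarith [sq_nonneg ε]
        refine (mul_le_mul_of_nonneg_left hm (sq_nonneg _)).trans ?_
        have hgs := gradSum_uRoot_le hε hs hc i x
        have hg0 : 0 ≤ gradSum η x := gradSum_nonneg _ _
        have hx0 := xGrad_nonneg i (φ k) x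
        simp only [c]
        split_ifs with hp
        · have hSd : DifferentiableAt ℝ (S k) x :=
            (contDiff_uRoot hε hs hc i).differentiable two_ne_zero x
          have e : deriv3 p.2 (w k) x * S k x = deriv3 p.2 η x - w k x * deriv3 p.2 (S k) x := by
            have := deriv3_mul (f := w k) (g := S k) ((hw k).differentiable two_ne_zero x) hSd p.2
            rw [show (fun y => w k y * S k y) = η from funext fun y =>
              div_mul_cancel₀ _ (he.trans_le (hS k y)).ne'] at this
            linarith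
          rw [← mul_pow, e]
          have a1 : deriv3 p.2 η x ^ 2 ≤ gradSum η x :=
            Finset.single_le_sum (f := fun a => deriv3 a η x ^ 2) (fun a _ => sq_nonneg _)
              (Finset.mem_univ _)
          have a2 : deriv3 p.2 (S k) x ^ 2 ≤ xGrad i (φ k) x :=
            (Finset.single_le_sum (f := fun a => deriv3 a (S k) x ^ 2) (fun a _ => sq_nonneg _)
              (Finset.mem_univ _)).trans hgs
          have a3 : (w k x * deriv3 p.2 (S k) x) ^ 2 ≤ (B / |ε|) ^ 2 * xGrad i (φ k) x := by
            rw [mul_pow]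
            refine mul_le_mul ?_ a2 (sq_nonneg _) (sq_nonneg _)
            rw [← sq_abs]
            exact pow_le_pow_left₀ (abs_nonneg _) (hwb k x) 2
          nlinarith [sq_nonneg (deriv3 p.2 η x + w k x * deriv3 p.2 (S k) x)]
        · simp only [ne_eq, OfNat.ofNat_ne_zero, not_false_eq_true, zero_pow, zero_mul]
          positivity
      · rw [integral_add ((integrable_gradSum (hη.contDiff 1) hη.compact).const_mul 2)
          ((integral_xGrad hs hc i).1.const_mul _), integral_const_mul, integral_const_mul]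
        exact add_le_add le_rfl (mul_le_mul_of_nonneg_left (hT0 k) (by positivity))
  have hp : ∀ p : Fin 3 × Fin 3, Tendsto (fun k => ∫ x, w k x *
      marg i (fun z => g p k z * slotDeriv p.1 p.2 (r k) z) x) atTop (𝓝 0) := by
    intro p
    refine squeeze_zero_norm (fun k => ?_) (show Tendsto (fun k => √(∫ z, r k z ^ 2) * √W) atTop (𝓝 0) by
      simpa using (G.res.sqrt).mul_const √W)
    have hr1 : ContDiff ℝ 1 (r k) := (hr k).of_le (WithTop.coe_le_coe.2 le_top)
    have hu : IsC1 fun z => w k (z i) * g p k z := ⟨(hwz k).mul (hg1 p k), supp_mulL _ (hgc p k)⟩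
    have hi : Integrable fun z => w k (z i) * (g p k z * slotDeriv p.1 p.2 (r k) z) :=
      ((hwz k).continuous.mul ((hg p k).continuous.mul (continuous_slotDeriv hr1 _ _))
        ).integrable_of_hasCompactSupport
        (supp_mulL _ (supp_mulL _ (hasCompactSupport_slotDeriv (hrc k) _ _)))
    rw [integral_mul_marg hi, Real.norm_eq_abs]
    have e := IsC1.integral_slot_mul ⟨hr1, hrc k⟩ hu p.1 p.2
    have eH : slotDeriv p.1 p.2 (fun z => w k (z i) * g p k z) = H p k := by
      funext z
      rw [sd_mul ((hwz k).differentiable one_ne_zero z) ((hg1 p k).differentiable one_ne_zero z)]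
      simp only [H, c]
      congr 2
      have hd : HasFDerivAt (fun z : Cfg 3 => w k (z i))
          ((fderiv ℝ (w k) (z i)).comp (ContinuousLinearMap.proj (φ := fun _ : Fin 3 => Space) i)) z :=
        HasFDerivAt.comp (g := w k) (f := fun z : Cfg 3 => z i) z
          ((hw k).differentiable two_ne_zero (z i)).hasFDerivAt
          (hasFDerivAt_apply (𝕜 := ℝ) (F' := fun _ : Fin 3 => Space) i z)
      rw [slotDeriv, hd.fderiv]
      split_ifs with hpi
      · subst hpi; simp [deriv3]
      · simp [Ne.symm hpi]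
    have e' : ∫ z, w k (z i) * (g p k z * slotDeriv p.1 p.2 (r k) z) = -∫ z, r k z * H p k z := by
      rw [← eH, ← e]
      exact integral_congr_ae (.of_forall fun z => by ring)
    rw [e', abs_neg]
    have hHm : MemLp (H p k) 2 := by rw [← eH]; exact hu.memLp_slot _ _
    exact (abs_integral_mul_le ((hr k).continuous.memLp_of_hasCompactSupport (hrc k)) hHm).trans
      (mul_le_mul_of_nonneg_left (Real.sqrt_le_sqrt (hH p k)) (Real.sqrt_nonneg _))
  have hsum := h0.add (tendsto_finsetSum Finset.univ fun p _ => hp p)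
  simp only [Finset.sum_const_zero, add_zero] at hsum
  refine hsum.congr fun k => ?_
  have hs' := (G.smooth k).2
  have hi0 : Integrable fun x => w k x * marg i (fun z => φ k z * r k z) x :=
    ((hw k).continuous.mul (continuous_marg ((G.smooth k).1.continuous.mul (hr k).continuous)
      (supp_mulL _ (hrc k)) i)).integrable_of_hasCompactSupport
      (hasCompactSupport_marg (supp_mulL _ (hrc k)) i).mul_left
  have hip : ∀ p : Fin 3 × Fin 3,
      Integrable fun x => w k x * marg i (fun z => g p k z * slotDeriv p.1 p.2 (r k) z) x := fun p =>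
    ((hw k).continuous.mul (continuous_marg ((hg p k).continuous.mul
      (continuous_slotDeriv ((hr k).of_le (WithTop.coe_le_coe.2 le_top)) _ _))
      (supp_mulL _ (hasCompactSupport_slotDeriv (hrc k) _ _)) i)).integrable_of_hasCompactSupport
      (hasCompactSupport_marg (supp_mulL _ (hasCompactSupport_slotDeriv (hrc k) _ _)) i).mul_left
  rw [← integral_finsetSum _ fun p _ => hip p, ← integral_add hi0
    (integrable_finsetSum _ fun p _ => hip p)]
  exact integral_congr_ae (.of_forall fun x => by
    simp only [w, S, r, g, mul_add, Finset.mul_sum])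

/-- The root of mass and gradient mass is a subsolution off the nuclei. -/
theorem weakKato (h0 : 0 ≤ lam) (h1 : lam ≤ 1) (hE : |E| ≤ M) (hε : ε ≠ 0) {Ω : Set Space}
    {b : ℝ} (hb : ∀ x ∈ Ω, ∀ δ, attrSq l δ x ≤ b) (i : Fin 3) :
    WeakSubPoisson Ω (uRoot ε (uLim i f D))
      (fun x => -((15000 + 2 * M + 505 * b) * uRoot ε (uLim i f D) x)) := by
  set K := 15000 + 2 * M + 505 * b
  set U := uLim i f D
  have hU := uLim_nonneg i f D
  have hUi : Integrable U := G.approx.inH1.integrable_uLim i
  have hsm : AEStronglyMeasurable (uRoot ε U) volume :=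
    (Real.continuous_sqrt.comp_aestronglyMeasurable (hUi.1.add_const (ε ^ 2)))
  have hloc : LocallyIntegrable (uRoot ε U) := by
    refine (hUi.locallyIntegrable.add (locallyIntegrable_const (ε ^ 2 + 1))).mono hsm
      (.of_forall fun x => ?_)
    simp only [uRoot, Pi.add_apply, Real.norm_eq_abs]
    rw [abs_of_nonneg (Real.sqrt_nonneg _)]
    refine (Real.sqrt_le_iff.2 ⟨by have := hU x; positivity, ?_⟩).trans (le_abs_self _)
    nlinarith [hU x, sq_nonneg ε]
  refine ⟨hloc.locallyIntegrableOn _, (hloc.locallyIntegrableOn _).smul K |>.neg, fun η hη hη0 => ?_⟩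
  have hl' : ∀ {ζ : Space → ℝ}, Continuous ζ → HasCompactSupport ζ → Tendsto
      (fun k => ∫ x, uRoot ε (uMass i (φ k)) x * ζ x) atTop (𝓝 (∫ x, uRoot ε U x * ζ x)) := by
    intro ζ hζ hζc
    obtain ⟨B, hB⟩ := hζc.exists_bound_of_continuous hζ
    refine tendsto_sub_nhds_zero_iff.1 (squeeze_zero_norm (fun k => ?_)
      (by simpa using (G.uMass_lim i).tendsto.const_mul (B / |ε|)))
    have hk : Integrable fun x => uRoot ε (uMass i (φ k)) x * ζ x :=
      ((contDiff_uRoot hε (G.smooth k).1 (G.smooth k).2 i).continuous.mul hζ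
        ).integrable_of_hasCompactSupport hζc.mul_left
    have hu : Integrable fun x => uRoot ε U x * ζ x :=
      integrable_mul_of_tsupport (hloc.locallyIntegrableOn _) hζ hζc (subset_univ _)
    rw [← integral_sub hk hu, ← integral_const_mul]
    refine norm_integral_le_of_norm_le
      ((((G.uMass_lim i).mem k).sub hUi).abs.const_mul _) (.of_forall fun x => ?_)
    rw [← sub_mul, norm_mul, Real.norm_eq_abs]
    refine (mul_le_mul (abs_uRoot_sub_le hε (uMass_nonneg i (φ k) x) (hU x)) (hB x)
      (norm_nonneg _) (by positivity)).trans_eq ?_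
    ring
  have hres := (G.tendsto_resTerm hε i hη.univ).const_mul (-2 : ℝ)
  have hlhs := ((hl' hη.continuous hη.compact).const_mul (-K)).add hres
  rw [mul_zero, add_zero] at hlhs
  refine le_trans (le_of_eq ?_) (le_of_tendsto_of_tendsto' hlhs
    (hl' hη.univ.lap.continuous hη.univ.lap.compact) fun k => ?_)
  · rw [← integral_const_mul]
    exact integral_congr_ae (.of_forall fun x => by ring)
  obtain ⟨hs, hc⟩ := G.smooth k
  set S := uRoot ε (uMass i (φ k))
  have hSc : ContDiff ℝ 2 S := contDiff_uRoot hε hs hc i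
  have hSp : ∀ x, 0 < S x := uRoot_pos hε (uMass_nonneg i (φ k))
  have hIBP := (WeakPoisson.of_contDiffOn isOpen_univ hSc.contDiffOn).2.2 η hη.univ
  rw [hIBP]
  set r := resid l lam (δ k) E (φ k)
  have hr : ContDiff ℝ ∞ r := contDiff_resid (G.reg_ne k) hs
  set Q := fun x => marg i (fun z => φ k z * r z) x + ∑ p : Fin 3 × Fin 3,
    marg i (fun z => slotDeriv p.1 p.2 (φ k) z * slotDeriv p.1 p.2 r z) x
  have hQc : Continuous Q :=
    (continuous_marg (hs.continuous.mul hr.continuous) (supp_mulL _ (supp_resid hc)) i).add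
      (continuous_finsetSum _ fun p _ => continuous_marg
        ((continuous_slotDeriv (hs.of_le (WithTop.coe_le_coe.2 le_top)) _ _).mul
          (continuous_slotDeriv (hr.of_le (WithTop.coe_le_coe.2 le_top)) _ _))
        (supp_mulL _ (hasCompactSupport_slotDeriv (supp_resid hc) _ _)) i)
  have iA : Integrable fun x => S x * η x :=
    (hSc.continuous.mul hη.continuous).integrable_of_hasCompactSupport hη.compact.mul_left
  have iB : Integrable fun x => η x / S x * Q x :=
    ((hη.continuous.div hSc.continuous fun x => (hSp x).ne').mul hQc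
      ).integrable_of_hasCompactSupport
      (HasCompactSupport.intro hη.compact fun x hx => by simp [image_eq_zero_of_notMem_tsupport hx])
  have iC : Integrable fun x => lap S x * η x :=
    ((continuous_lap hSc).mul hη.continuous).integrable_of_hasCompactSupport hη.compact.mul_left
  rw [← integral_const_mul, ← integral_const_mul,
    ← integral_add (iA.const_mul _) (iB.const_mul _)]
  refine integral_mono ((iA.const_mul _).add (iB.const_mul _)) iC fun x => ?_
  simp only
  by_cases hx : x ∈ Ω
  · have hk := kato_ineq (l := l) (E := E) (G.reg_ne k) h0 h1 hε hs hc i x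
    have hm : (15000 + 2 * |E| + 505 * attrSq l (δ k) x) * uMass i (φ k) x ≤ K * S x ^ 2 := by
      have hU0 := uMass_nonneg i (φ k) x
      rw [show S x ^ 2 = uMass i (φ k) x + ε ^ 2 from
        Real.sq_sqrt (by positivity)]
      have hK : 15000 + 2 * |E| + 505 * attrSq l (δ k) x ≤ K := by
        have := hb x hx (δ k)
        simp only [K]
        linarith
      refine (mul_le_mul_of_nonneg_right hK hU0).trans (mul_le_mul_of_nonneg_left
        (by linarith [sq_nonneg ε]) ?_)
      exact le_trans (by have := attrSq_nonneg l (δ k) x; positivity) hK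
    have hne := (hSp x).ne'
    have h' : -(K * S x ^ 2) - 2 * Q x ≤ S x * lap S x := by
      simp only [Q, S, r] at hm ⊢
      change _ ≤ √(uMass i (φ k) x + ε ^ 2) * lap (fun y => √(uMass i (φ k) y + ε ^ 2)) x
      linarith
    have := mul_le_mul_of_nonneg_left h' (div_nonneg (hη0 x) (hSp x).le)
    calc _ = η x / S x * (-(K * S x ^ 2) - 2 * Q x) := by field_simp; ring
      _ ≤ η x / S x * (S x * lap S x) := this
      _ = _ := by field_simp
  · simp [hη.eq_zero hx]

end GoodSeq

end Vale.Agent.P363.Inter
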